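/-
Row 232 (S0358), module M6: analysis for `1 < p < 2`, at one fixed pair.
Pure real analysis: no graph, no `L^p`.

`lv i = 2^i`, `clip β s` is the truncation of `s` to `[-β, β]`.
Main results:
* `err_bound` : `∑ t, ∑ i ∈ Λ, |y t i - clip (lv i) (s0 t)|^p ≤ errC p W0 * C0^(2-p)`.
* `ann_upper`, `ann_lower` : `∑_{i<0} |clip (lv (i+L)) s - clip (lv i) s|^p = |s|^p (L ± O(1))`.
* `ker_bounds` : `(1-ε) L ≤ ∑ t, ∑ i ∈ Ico imin 0, |y t (i+L) - y t i|^p ≤ (1+ε) L`.
-/
import Mathlib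

set_option autoImplicit false

open Finset

namespace Crest.Agent.LpDimRed.Low

/-- Truncation of `s` to `[-β, β]`. -/
noncomputable def clip (β s : ℝ) : ℝ := max (-β) (min s β)

/-- Dyadic level. -/
noncomputable def lv (i : ℤ) : ℝ := (2 : ℝ) ^ i

lemma lv_pos (i : ℤ) : 0 < lv i := by unfold lv; positivity

lemma lv_add_one (i : ℤ) : lv (i + 1) = 2 * lv i := by
  unfold lv; rw [zpow_add_one₀ (by norm_num : (2:ℝ) ≠ 0)]; ring

lemma lv_mono {i j : ℤ} (h : i ≤ j) : lv i ≤ lv j := by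
  unfold lv; exact zpow_le_zpow_right₀ (by norm_num) h

lemma lv_strictMono {i j : ℤ} (h : i < j) : lv i < lv j := by
  unfold lv; exact zpow_lt_zpow_right₀ (by norm_num) h

lemma lv_zero : lv 0 = 1 := by simp [lv]

lemma lv_add (i j : ℤ) : lv (i + j) = lv i * lv j := by
  unfold lv; rw [zpow_add₀ (by norm_num : (2:ℝ) ≠ 0)]

lemma abs_clip_le {β : ℝ} (hβ : 0 ≤ β) (s : ℝ) : |clip β s| ≤ β := by
  unfold clip
  rw [abs_le]
  constructor
  · exact le_max_left _ _
  · exact max_le (by linarith) (min_le_right _ _)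

lemma abs_clip_le_abs {β : ℝ} (hβ : 0 ≤ β) (s : ℝ) : |clip β s| ≤ |s| := by
  unfold clip
  rcases le_total 0 s with h | h
  · rw [abs_of_nonneg h]
    have h1 : -β ≤ min s β := le_min (by linarith) (by linarith)
    rw [max_eq_right h1, abs_of_nonneg (le_min h hβ)]
    exact min_le_left _ _
  · rw [abs_of_nonpos h]
    have h1 : min s β = s := min_eq_left (by linarith)
    rw [h1]
    rcases le_total (-β) s with h2 | h2
    · rw [max_eq_right h2, abs_of_nonpos h]
    · rw [max_eq_left h2, abs_neg, abs_of_nonneg hβ]; linarith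

lemma clip_of_abs_le {β s : ℝ} (h : |s| ≤ β) : clip β s = s := by
  unfold clip
  have h' := abs_le.mp h
  rw [min_eq_left h'.2, max_eq_right h'.1]

/-- The excess is bounded by `|s|^p β^(1-p)`. -/
lemma abs_sub_clip_le {β s p : ℝ} (hβ : 0 < β) (hp : 1 ≤ p) :
    |s - clip β s| ≤ |s| ^ p * β ^ (1 - p) := by
  by_cases h : |s| ≤ β
  · rw [clip_of_abs_le h, sub_self, abs_zero]; positivity
  · push Not at h
    have hs : 0 < |s| := lt_trans hβ h
    have h1 : |s - clip β s| ≤ |s| := by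
      -- the excess has the same sign as `s`, and smaller modulus
      unfold clip
      rcases le_total 0 s with h0 | h0
      · rw [abs_of_nonneg h0] at h ⊢
        rw [min_eq_right h.le, max_eq_right (by linarith), abs_of_nonneg (by linarith)]
        linarith
      · rw [abs_of_nonpos h0] at h ⊢
        rw [min_eq_left (by linarith), max_eq_left (by linarith), abs_of_nonpos (by linarith)]
        linarith
    refine h1.trans ?_
    have h2 : |s| ^ p * β ^ (1 - p) = |s| * (|s| / β) ^ (p - 1) := by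
      rw [Real.div_rpow hs.le hβ.le]
      have : |s| ^ p = |s| * |s| ^ (p - 1) := by
        rw [Real.rpow_sub_one hs.ne']; field_simp
      rw [this]
      have h3 : β ^ (1 - p) = (β ^ (p - 1))⁻¹ := by
        rw [← Real.rpow_neg hβ.le]; congr 1; ring
      rw [h3]; field_simp
    rw [h2]
    have h3 : 1 ≤ (|s| / β) ^ (p - 1) :=
      Real.one_le_rpow ((one_le_div hβ).mpr h.le) (by linarith)
    nlinarith

/-! ### Geometric sums over finite sets of integers -/

lemma sum_rpow_nat_le {S : Finset ℕ} {r : ℝ} (hr0 : 0 ≤ r) (hr1 : r < 1) :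
    ∑ n ∈ S, r ^ n ≤ 1 / (1 - r) := by
  have hsum : Summable (fun n : ℕ => r ^ n) := summable_geometric_of_lt_one hr0 hr1
  calc ∑ n ∈ S, r ^ n ≤ ∑' n, r ^ n :=
        hsum.sum_le_tsum S (fun n _ => by positivity)
    _ = 1 / (1 - r) := by rw [tsum_geometric_of_lt_one hr0 hr1]; simp

/-- `lv i ^ q = (2^q)^i`. -/
lemma lv_rpow (i : ℤ) (q : ℝ) : lv i ^ q = ((2:ℝ) ^ q) ^ i := by
  unfold lv
  rw [← Real.rpow_intCast, ← Real.rpow_mul (by norm_num), ← Real.rpow_intCast,
    ← Real.rpow_mul (by norm_num), mul_comm]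

/-- Geometric ratio. -/
noncomputable def gr (q : ℝ) : ℝ := (2:ℝ) ^ (-q)

lemma gr_pos (q : ℝ) : 0 < gr q := by unfold gr; positivity

lemma gr_lt_one {q : ℝ} (hq : 0 < q) : gr q < 1 := by
  unfold gr; exact Real.rpow_lt_one_of_one_lt_of_neg (by norm_num) (by linarith)

/-- Low levels: `∑_{lv i < β} (lv i)^q ≤ β^q/(1-2^{-q})`. -/
lemma sum_low_le (Λ : Finset ℤ) {q β : ℝ} (hq : 0 < q) (hβ : 0 < β) :
    ∑ i ∈ Λ.filter (fun i => lv i < β), lv i ^ q ≤ β ^ q * (1 / (1 - gr q)) := by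
  set S := Λ.filter (fun i => lv i < β) with hS
  have hg1 := gr_lt_one hq
  have hg0 := gr_pos q
  have hden : 0 < 1 / (1 - gr q) := by apply div_pos one_pos; linarith
  by_cases hne : S.Nonempty
  · set m := S.max' hne with hm
    have hmS : m ∈ S := S.max'_mem hne
    have hmβ : lv m < β := (Finset.mem_filter.mp hmS).2
    have hterm : ∀ i ∈ S, lv i ^ q = lv m ^ q * gr q ^ (m - i).toNat := by
      intro i hi
      have hle : i ≤ m := S.le_max' i hi
      have hnn : ((m - i).toNat : ℤ) = m - i := Int.toNat_of_nonneg (by linarith)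
      have h1 : gr q ^ (m - i).toNat = lv (-(m - i)) ^ q := by
        rw [lv_rpow]
        rw [← zpow_natCast, hnn]
        unfold gr
        rw [Real.rpow_neg (by norm_num), inv_zpow, zpow_neg]
      rw [h1, ← Real.mul_rpow (lv_pos _).le (lv_pos _).le, ← lv_add]
      congr 2; ring
    rw [Finset.sum_congr rfl hterm, ← Finset.mul_sum]
    have hinj : Set.InjOn (fun i : ℤ => (m - i).toNat) (S : Set ℤ) := by
      intro a ha b hb hab
      have ha' : a ≤ m := S.le_max' a ha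
      have hb' : b ≤ m := S.le_max' b hb
      simp only at hab
      omega
    have hsum : ∑ i ∈ S, gr q ^ (m - i).toNat ≤ 1 / (1 - gr q) := by
      have := Finset.sum_image (f := fun n : ℕ => gr q ^ n) hinj
      rw [← this]
      exact sum_rpow_nat_le hg0.le hg1
    calc lv m ^ q * ∑ i ∈ S, gr q ^ (m - i).toNat
        ≤ lv m ^ q * (1 / (1 - gr q)) :=
          mul_le_mul_of_nonneg_left hsum (Real.rpow_nonneg (lv_pos _).le _)
      _ ≤ β ^ q * (1 / (1 - gr q)) := by
          apply mul_le_mul_of_nonneg_right _ hden.le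
          exact Real.rpow_le_rpow (lv_pos _).le hmβ.le hq.le
  · rw [Finset.not_nonempty_iff_eq_empty] at hne
    rw [hne, Finset.sum_empty]; positivity

/-- High levels: `∑_{β ≤ lv i} (lv i)^(-q) ≤ β^(-q)/(1-2^{-q})`. -/
lemma sum_high_le (Λ : Finset ℤ) {q β : ℝ} (hq : 0 < q) (hβ : 0 < β) :
    ∑ i ∈ Λ.filter (fun i => β ≤ lv i), lv i ^ (-q) ≤ β ^ (-q) * (1 / (1 - gr q)) := by
  set S := Λ.filter (fun i => β ≤ lv i) with hS
  have hg1 := gr_lt_one hq
  have hg0 := gr_pos q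
  have hden : 0 < 1 / (1 - gr q) := by apply div_pos one_pos; linarith
  by_cases hne : S.Nonempty
  · set m := S.min' hne with hm
    have hmS : m ∈ S := S.min'_mem hne
    have hmβ : β ≤ lv m := (Finset.mem_filter.mp hmS).2
    have hterm : ∀ i ∈ S, lv i ^ (-q) = lv m ^ (-q) * gr q ^ (i - m).toNat := by
      intro i hi
      have hle : m ≤ i := S.min'_le i hi
      have hnn : ((i - m).toNat : ℤ) = i - m := Int.toNat_of_nonneg (by linarith)
      have h1 : gr q ^ (i - m).toNat = lv (i - m) ^ (-q) := by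
        rw [lv_rpow]
        rw [← zpow_natCast, hnn]
        rfl
      rw [h1, ← Real.mul_rpow (lv_pos _).le (lv_pos _).le, ← lv_add]
      congr 2; ring
    rw [Finset.sum_congr rfl hterm, ← Finset.mul_sum]
    have hinj : Set.InjOn (fun i : ℤ => (i - m).toNat) (S : Set ℤ) := by
      intro a ha b hb hab
      have ha' : m ≤ a := S.min'_le a ha
      have hb' : m ≤ b := S.min'_le b hb
      simp only at hab
      omega
    have hsum : ∑ i ∈ S, gr q ^ (i - m).toNat ≤ 1 / (1 - gr q) := by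
      have := Finset.sum_image (f := fun n : ℕ => gr q ^ n) hinj
      rw [← this]
      exact sum_rpow_nat_le hg0.le hg1
    calc lv m ^ (-q) * ∑ i ∈ S, gr q ^ (i - m).toNat
        ≤ lv m ^ (-q) * (1 / (1 - gr q)) :=
          mul_le_mul_of_nonneg_left hsum (Real.rpow_nonneg (lv_pos _).le _)
      _ ≤ β ^ (-q) * (1 / (1 - gr q)) := by
          apply mul_le_mul_of_nonneg_right _ hden.le
          exact Real.rpow_le_rpow_of_nonpos hβ hmβ (by linarith)
  · rw [Finset.not_nonempty_iff_eq_empty] at hne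
    rw [hne, Finset.sum_empty]; positivity


lemma clip_zero {β : ℝ} (hβ : 0 ≤ β) : clip β 0 = 0 :=
  clip_of_abs_le (by simpa using hβ)

/-- Version of `sum_low_le` allowing `β = 0`. -/
lemma sum_low_le' (Λ : Finset ℤ) {q β : ℝ} (hq : 0 < q) (hβ : 0 ≤ β) :
    ∑ i ∈ Λ.filter (fun i => lv i < β), lv i ^ q ≤ β ^ q * (1 / (1 - gr q)) := by
  rcases hβ.eq_or_lt with h | h
  · subst h
    have : Λ.filter (fun i => lv i < 0) = ∅ := by
      apply Finset.filter_eq_empty_iff.mpr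
      intro i _
      exact not_lt.mpr (lv_pos i).le
    rw [this, Finset.sum_empty, Real.zero_rpow hq.ne']; simp
  · exact sum_low_le Λ hq h

/-- Row constant. -/
noncomputable def crow (p : ℝ) : ℝ := 1 / (1 - gr p) + 1 / (1 - gr (2 - p))

lemma one_div_gr_pos {q : ℝ} (hq : 0 < q) : 0 < 1 / (1 - gr q) := by
  have := gr_lt_one hq
  apply div_pos one_pos; linarith

lemma crow_pos {p : ℝ} (hp1 : 1 < p) (hp2 : p < 2) : 0 < crow p := by
  unfold crow
  have h1 := one_div_gr_pos (q := p) (by linarith)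
  have h2 := one_div_gr_pos (q := 2 - p) (by linarith)
  linarith

/-- Row bound for the clips. This is also the `p<2` row bound needed for the kernel. -/
lemma clip_row (Λ : Finset ℤ) {p : ℝ} (hp1 : 1 < p) (hp2 : p < 2) (s : ℝ) :
    ∑ i ∈ Λ, lv i ^ (p - 2) * (clip (lv i) s) ^ 2 ≤ crow p * |s| ^ p := by
  by_cases hs : s = 0
  · subst hs
    have : ∀ i ∈ Λ, lv i ^ (p - 2) * (clip (lv i) 0) ^ 2 = 0 := by
      intro i _
      rw [clip_zero (lv_pos i).le]; simp
    rw [Finset.sum_eq_zero this]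
    have hc := crow_pos hp1 hp2
    simp only [abs_zero]
    have : (0:ℝ) ^ p = 0 := Real.zero_rpow (by linarith)
    rw [this]; simp
  have hs' : 0 < |s| := abs_pos.mpr hs
  have hp0 : 0 < p := by linarith
  rw [← Finset.sum_filter_add_sum_filter_not Λ (fun i => lv i < |s|)]
  have hlow : ∑ i ∈ Λ.filter (fun i => lv i < |s|), lv i ^ (p - 2) * (clip (lv i) s) ^ 2
      ≤ |s| ^ p * (1 / (1 - gr p)) := by
    refine le_trans (Finset.sum_le_sum ?_) (sum_low_le Λ hp0 hs')
    intro i _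
    have hl := lv_pos i
    have h1 : (clip (lv i) s) ^ 2 ≤ (lv i) ^ 2 := by
      apply sq_le_sq'
      · have := abs_le.mp (abs_clip_le hl.le s); linarith [this.1]
      · exact (abs_le.mp (abs_clip_le hl.le s)).2
    calc lv i ^ (p - 2) * (clip (lv i) s) ^ 2 ≤ lv i ^ (p - 2) * (lv i) ^ 2 :=
          mul_le_mul_of_nonneg_left h1 (Real.rpow_nonneg hl.le _)
      _ = lv i ^ p := by
          rw [← Real.rpow_natCast (lv i) 2, ← Real.rpow_add hl]; congr 1; push_cast; ring
  have hhigh : ∑ i ∈ Λ.filter (fun i => ¬ lv i < |s|), lv i ^ (p - 2) * (clip (lv i) s) ^ 2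
      ≤ |s| ^ p * (1 / (1 - gr (2 - p))) := by
    have h2p : 0 < 2 - p := by linarith
    have h := sum_high_le Λ h2p hs'
    have hfil : Λ.filter (fun i => ¬ lv i < |s|) = Λ.filter (fun i => |s| ≤ lv i) := by
      apply Finset.filter_congr; intro i _; exact not_lt
    rw [hfil]
    have hterm : ∀ i ∈ Λ.filter (fun i => |s| ≤ lv i),
        lv i ^ (p - 2) * (clip (lv i) s) ^ 2 = s ^ 2 * lv i ^ (-(2 - p)) := by
      intro i hi
      rw [clip_of_abs_le (Finset.mem_filter.mp hi).2, mul_comm]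
      congr 2; ring
    rw [Finset.sum_congr rfl hterm, ← Finset.mul_sum]
    have h3 : s ^ 2 * |s| ^ (-(2 - p)) = |s| ^ p := by
      rw [← sq_abs s, ← Real.rpow_natCast |s| 2, ← Real.rpow_add hs']; congr 1; push_cast; ring
    calc s ^ 2 * ∑ i ∈ Λ.filter (fun i => |s| ≤ lv i), lv i ^ (-(2 - p))
        ≤ s ^ 2 * (|s| ^ (-(2 - p)) * (1 / (1 - gr (2 - p)))) :=
          mul_le_mul_of_nonneg_left h (sq_nonneg s)
      _ = |s| ^ p * (1 / (1 - gr (2 - p))) := by rw [← mul_assoc, h3]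
  calc _ ≤ |s| ^ p * (1 / (1 - gr p)) + |s| ^ p * (1 / (1 - gr (2 - p))) := add_le_add hlow hhigh
    _ = crow p * |s| ^ p := by unfold crow; ring

/-- The error constant. -/
noncomputable def errC (p W0 : ℝ) : ℝ :=
  1 / (1 - gr (p * (p - 1))) + (2 * W0 + 2 * crow p) ^ (p / 2) * (1 / (1 - gr p)) ^ (1 - p / 2)

section ErrBound

variable {T E : Type*} [Fintype T] [Fintype E]

/-- `|∑ K s|^p ≤ (∑|K|)^(p-1) ∑ |K| |s|^p`. -/
lemma abs_sum_rpow_le (K s : E → ℝ) {p : ℝ} (hp1 : 1 < p) :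
    |∑ e, K e * s e| ^ p ≤ (∑ e, |K e|) ^ (p - 1) * ∑ e, |K e| * |s e| ^ p := by
  have h0 : |∑ e, K e * s e| ≤ ∑ e, |K e| * |s e| := by
    refine (Finset.abs_sum_le_sum_abs _ _).trans (le_of_eq ?_)
    apply Finset.sum_congr rfl; intro e _; rw [abs_mul]
  have hW : 0 ≤ ∑ e, |K e| := Finset.sum_nonneg (fun e _ => abs_nonneg _)
  have hA : 0 ≤ ∑ e, |K e| * |s e| ^ p :=
    Finset.sum_nonneg (fun e _ => mul_nonneg (abs_nonneg _) (Real.rpow_nonneg (abs_nonneg _) _))
  have h1 := Real.inner_le_weight_mul_Lp_of_nonneg (Finset.univ) hp1.le (fun e => |K e|)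
    (fun e => |s e|) (fun e => abs_nonneg _) (fun e => abs_nonneg _)
  have hp0 : 0 < p := by linarith
  calc |∑ e, K e * s e| ^ p ≤ (∑ e, |K e| * |s e|) ^ p :=
        Real.rpow_le_rpow (abs_nonneg _) h0 hp0.le
    _ ≤ ((∑ e, |K e|) ^ (1 - p⁻¹) * (∑ e, |K e| * |s e| ^ p) ^ p⁻¹) ^ p :=
        Real.rpow_le_rpow (Finset.sum_nonneg (fun e _ => mul_nonneg (abs_nonneg _) (abs_nonneg _)))
          h1 hp0.le
    _ = (∑ e, |K e|) ^ (p - 1) * ∑ e, |K e| * |s e| ^ p := by
        rw [Real.mul_rpow (Real.rpow_nonneg hW _) (Real.rpow_nonneg hA _), ← Real.rpow_mul hW,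
          ← Real.rpow_mul hA, inv_mul_cancel₀ hp0.ne', Real.rpow_one]
        congr 2
        field_simp

variable (p C0 W0 : ℝ) (hp1 : 1 < p) (hp2 : p < 2) (hC0 : 1 ≤ C0)
  (K : E → ℝ) (hK : ∑ e, |K e| ≤ C0)
  (s : T → E → ℝ) (hs : ∀ e, ∑ t, |s t e| ^ p ≤ 1)
  (s0 : T → ℝ) (hs0 : ∑ t, |s0 t| ^ p ≤ 1)
  (hrepro : ∀ t, ∑ e, K e * s t e = s0 t)
  (y : T → ℤ → ℝ) (hy : ∀ t i, y t i = ∑ e, K e * clip (lv i) (s t e))
  (Λ : Finset ℤ)
  (hW : ∑ t, ∑ i ∈ Λ, lv i ^ (p - 2) * (y t i) ^ 2 ≤ W0)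

include hp1 hp2 hC0 hK hs hs0 hrepro hy hW

/-- **M6 main estimate.** -/
theorem err_bound :
    ∑ t, ∑ i ∈ Λ, |y t i - clip (lv i) (s0 t)| ^ p ≤ errC p W0 * C0 ^ (2 - p) := by
  classical
  have hp0 : 0 < p := by linarith
  have hC0pos : 0 < C0 := by linarith
  set q := p * (p - 1) with hq
  have hq0 : 0 < q := mul_pos hp0 (by linarith)
  set a : T → ℝ := fun t => ∑ e, |K e| * |s t e| ^ p with ha
  have ha0 : ∀ t, 0 ≤ a t := fun t =>
    Finset.sum_nonneg (fun e _ => mul_nonneg (abs_nonneg _) (Real.rpow_nonneg (abs_nonneg _) _))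
  have hsuma : ∑ t, a t ≤ C0 := by
    calc ∑ t, a t = ∑ e, |K e| * ∑ t, |s t e| ^ p := by
          simp only [ha]; rw [Finset.sum_comm]
          apply Finset.sum_congr rfl; intro e _; rw [Finset.mul_sum]
      _ ≤ ∑ e, |K e| * 1 := Finset.sum_le_sum (fun e _ =>
          mul_le_mul_of_nonneg_left (hs e) (abs_nonneg _))
      _ = ∑ e, |K e| := by simp
      _ ≤ C0 := hK
  set β : T → ℝ := fun t => (C0 * a t) ^ (1 / p) with hβ
  have hβ0 : ∀ t, 0 ≤ β t := fun t => Real.rpow_nonneg (mul_nonneg hC0pos.le (ha0 t)) _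
  have hβp : ∀ t, (β t) ^ p = C0 * a t := by
    intro t
    simp only [hβ]
    rw [← Real.rpow_mul (mul_nonneg hC0pos.le (ha0 t)), one_div, inv_mul_cancel₀ hp0.ne',
      Real.rpow_one]
  -- `|s0 t| ≤ β t`
  have hs0β : ∀ t, |s0 t| ≤ β t := by
    intro t
    have h1 : |s0 t| ^ p ≤ C0 * a t := by
      rw [← hrepro t]
      refine (abs_sum_rpow_le K (s t) hp1).trans ?_
      have hW' : 0 ≤ ∑ e, |K e| := Finset.sum_nonneg (fun e _ => abs_nonneg _)
      refine mul_le_mul_of_nonneg_right ?_ (ha0 t)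
      calc (∑ e, |K e|) ^ (p - 1) ≤ C0 ^ (p - 1) :=
            Real.rpow_le_rpow hW' hK (by linarith)
        _ ≤ C0 ^ (1:ℝ) := Real.rpow_le_rpow_of_exponent_le hC0 (by linarith)
        _ = C0 := Real.rpow_one _
    have h2 := Real.rpow_le_rpow (Real.rpow_nonneg (abs_nonneg _) _) h1 (by positivity : 0 ≤ 1 / p)
    rwa [← Real.rpow_mul (abs_nonneg _), mul_one_div_cancel hp0.ne', Real.rpow_one] at h2
  set g : T → ℤ → ℝ := fun t i => y t i - clip (lv i) (s0 t) with hg
  -- High levels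
  have hHigh : ∀ t, ∑ i ∈ Λ.filter (fun i => β t ≤ lv i), |g t i| ^ p
      ≤ a t * C0 ^ (1 - p) * (1 / (1 - gr q)) := by
    intro t
    rcases (ha0 t).eq_or_lt with h0 | hpos
    · -- `a t = 0`: everything vanishes
      have hterm : ∀ e, K e * s t e = 0 ∧ ∀ i, K e * clip (lv i) (s t e) = 0 := by
        intro e
        have h1 : |K e| * |s t e| ^ p = 0 := by
          have h2 := (Finset.sum_eq_zero_iff_of_nonneg (fun e _ => mul_nonneg (abs_nonneg (K e))
            (Real.rpow_nonneg (abs_nonneg (s t e)) p))).mp h0.symm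
          exact h2 e (Finset.mem_univ e)
        rcases mul_eq_zero.mp h1 with h3 | h3
        · have : K e = 0 := abs_eq_zero.mp h3
          simp [this]
        · have h4 : |s t e| = 0 := by
            by_contra hne
            have := Real.rpow_pos_of_pos (lt_of_le_of_ne (abs_nonneg _) (Ne.symm hne)) p
            linarith
          have h5 : s t e = 0 := abs_eq_zero.mp h4
          refine ⟨by simp [h5], fun i => ?_⟩
          rw [h5, clip_zero (lv_pos i).le]; simp
      have hs00 : s0 t = 0 := by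
        rw [← hrepro t]; exact Finset.sum_eq_zero (fun e _ => (hterm e).1)
      have hg0 : ∀ i, g t i = 0 := by
        intro i
        simp only [hg]
        rw [hy t i, hs00, clip_zero (lv_pos i).le, sub_zero]
        exact Finset.sum_eq_zero (fun e _ => (hterm e).2 i)
      have hz : ∀ i ∈ Λ.filter (fun i => β t ≤ lv i), |g t i| ^ p = 0 := by
        intro i _
        rw [hg0 i, abs_zero, Real.zero_rpow hp0.ne']
      rw [Finset.sum_eq_zero hz, ← h0]; simp
    · have hβpos : 0 < β t := Real.rpow_pos_of_pos (mul_pos hC0pos hpos) _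
      have hbound : ∀ i ∈ Λ.filter (fun i => β t ≤ lv i),
          |g t i| ^ p ≤ (a t) ^ p * lv i ^ (-q) := by
        intro i hi
        have hi' : β t ≤ lv i := (Finset.mem_filter.mp hi).2
        have hl := lv_pos i
        have hclip : clip (lv i) (s0 t) = s0 t := clip_of_abs_le ((hs0β t).trans hi')
        have hgi : g t i = ∑ e, K e * (clip (lv i) (s t e) - s t e) := by
          simp only [hg]
          rw [hclip, hy t i, ← hrepro t, ← Finset.sum_sub_distrib]
          apply Finset.sum_congr rfl; intro e _; ring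
        have h1 : |g t i| ≤ a t * lv i ^ (1 - p) := by
          rw [hgi]
          refine (Finset.abs_sum_le_sum_abs _ _).trans ?_
          simp only [ha]
          rw [Finset.sum_mul]
          apply Finset.sum_le_sum
          intro e _
          rw [abs_mul, mul_assoc]
          apply mul_le_mul_of_nonneg_left _ (abs_nonneg _)
          rw [abs_sub_comm]
          exact abs_sub_clip_le hl hp1.le
        calc |g t i| ^ p ≤ (a t * lv i ^ (1 - p)) ^ p :=
              Real.rpow_le_rpow (abs_nonneg _) h1 hp0.le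
          _ = (a t) ^ p * lv i ^ (-q) := by
              rw [Real.mul_rpow (ha0 t) (Real.rpow_nonneg hl.le _), ← Real.rpow_mul hl.le]
              congr 2; rw [hq]; ring
      refine (Finset.sum_le_sum hbound).trans ?_
      rw [← Finset.mul_sum]
      have h2 := sum_high_le Λ hq0 hβpos
      refine (mul_le_mul_of_nonneg_left h2 (Real.rpow_nonneg (ha0 t) _)).trans (le_of_eq ?_)
      -- arithmetic of exponents
      have h3 : (β t) ^ (-q) = (C0 * a t) ^ (1 - p) := by
        simp only [hβ]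
        rw [← Real.rpow_mul (mul_nonneg hC0pos.le (ha0 t))]
        congr 1; rw [hq]; field_simp; ring
      rw [h3, Real.mul_rpow hC0pos.le hpos.le, ← mul_assoc]
      have h4 : (a t) ^ p * (C0 ^ (1 - p) * (a t) ^ (1 - p)) = a t * C0 ^ (1 - p) := by
        have h5 : (a t) ^ p * (a t) ^ (1 - p) = a t := by
          rw [← Real.rpow_add hpos]; simp
        calc (a t) ^ p * (C0 ^ (1 - p) * (a t) ^ (1 - p))
            = ((a t) ^ p * (a t) ^ (1 - p)) * C0 ^ (1 - p) := by ring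
          _ = a t * C0 ^ (1 - p) := by rw [h5]
      rw [h4]
  have hHighSum : ∑ t, ∑ i ∈ Λ.filter (fun i => β t ≤ lv i), |g t i| ^ p
      ≤ 1 / (1 - gr q) * C0 ^ (2 - p) := by
    have hC1 : 0 ≤ C0 ^ (1 - p) := Real.rpow_nonneg hC0pos.le _
    have hden := one_div_gr_pos hq0
    calc ∑ t, ∑ i ∈ Λ.filter (fun i => β t ≤ lv i), |g t i| ^ p
        ≤ ∑ t, a t * C0 ^ (1 - p) * (1 / (1 - gr q)) := Finset.sum_le_sum (fun t _ => hHigh t)
      _ = (∑ t, a t) * (C0 ^ (1 - p) * (1 / (1 - gr q))) := by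
          rw [Finset.sum_mul]; apply Finset.sum_congr rfl; intro t _; ring
      _ ≤ C0 * (C0 ^ (1 - p) * (1 / (1 - gr q))) :=
          mul_le_mul_of_nonneg_right hsuma (mul_nonneg hC1 hden.le)
      _ = 1 / (1 - gr q) * C0 ^ (2 - p) := by
          have : C0 ^ (2 - p) = C0 * C0 ^ (1 - p) := by
            rw [show (2 - p) = 1 + (1 - p) by ring, Real.rpow_add hC0pos, Real.rpow_one]
          rw [this]; ring
  -- Low levels: Hölder on the product index set
  set F : Finset (T × ℤ) := (Finset.univ ×ˢ Λ).filter (fun x => lv x.2 < β x.1) with hF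
  have hFsum : ∀ f : T × ℤ → ℝ,
      ∑ x ∈ F, f x = ∑ t, ∑ i ∈ Λ.filter (fun i => lv i < β t), f (t, i) := by
    intro f
    rw [hF, Finset.sum_filter, Finset.sum_product]
    apply Finset.sum_congr rfl; intro t _
    rw [Finset.sum_filter]
  have hW0 : 0 ≤ W0 := le_trans (Finset.sum_nonneg (fun t _ => Finset.sum_nonneg (fun i _ =>
    mul_nonneg (Real.rpow_nonneg (lv_pos i).le _) (sq_nonneg _)))) hW
  have hcr := crow_pos hp1 hp2
  have hA : ∑ x ∈ F, lv x.2 ^ (p - 2) * (g x.1 x.2) ^ 2 ≤ 2 * W0 + 2 * crow p := by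
    rw [hFsum (fun x => lv x.2 ^ (p - 2) * (g x.1 x.2) ^ 2)]
    have h1 : ∀ t, ∑ i ∈ Λ.filter (fun i => lv i < β t), lv i ^ (p - 2) * (g t i) ^ 2
        ≤ 2 * ∑ i ∈ Λ, lv i ^ (p - 2) * (y t i) ^ 2 + 2 * (crow p * |s0 t| ^ p) := by
      intro t
      have h2 : ∑ i ∈ Λ.filter (fun i => lv i < β t), lv i ^ (p - 2) * (g t i) ^ 2
          ≤ ∑ i ∈ Λ, lv i ^ (p - 2) * (g t i) ^ 2 :=
        Finset.sum_le_sum_of_subset_of_nonneg (Finset.filter_subset _ _)
          (fun i _ _ => mul_nonneg (Real.rpow_nonneg (lv_pos i).le _) (sq_nonneg _))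
      refine h2.trans ?_
      have h3 : ∀ i ∈ Λ, lv i ^ (p - 2) * (g t i) ^ 2
          ≤ 2 * (lv i ^ (p - 2) * (y t i) ^ 2) + 2 * (lv i ^ (p - 2) * (clip (lv i) (s0 t)) ^ 2) := by
        intro i _
        have hn := Real.rpow_nonneg (lv_pos i).le (p - 2)
        have : (g t i) ^ 2 ≤ 2 * (y t i) ^ 2 + 2 * (clip (lv i) (s0 t)) ^ 2 := by
          simp only [hg]
          nlinarith [sq_nonneg (y t i + clip (lv i) (s0 t))]
        nlinarith
      refine (Finset.sum_le_sum h3).trans ?_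
      rw [Finset.sum_add_distrib, ← Finset.mul_sum, ← Finset.mul_sum]
      have h4 := clip_row Λ hp1 hp2 (s0 t)
      linarith
    calc ∑ t, ∑ i ∈ Λ.filter (fun i => lv i < β t), lv i ^ (p - 2) * (g t i) ^ 2
        ≤ ∑ t, (2 * ∑ i ∈ Λ, lv i ^ (p - 2) * (y t i) ^ 2 + 2 * (crow p * |s0 t| ^ p)) :=
          Finset.sum_le_sum (fun t _ => h1 t)
      _ = 2 * ∑ t, ∑ i ∈ Λ, lv i ^ (p - 2) * (y t i) ^ 2 + 2 * (crow p * ∑ t, |s0 t| ^ p) := by
          rw [Finset.sum_add_distrib, ← Finset.mul_sum, ← Finset.mul_sum, ← Finset.mul_sum]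
      _ ≤ 2 * W0 + 2 * crow p := by nlinarith
  have hB : ∑ x ∈ F, lv x.2 ^ p ≤ C0 ^ (2:ℝ) * (1 / (1 - gr p)) := by
    rw [hFsum (fun x => lv x.2 ^ p)]
    have hd := one_div_gr_pos (q := p) hp0
    calc ∑ t, ∑ i ∈ Λ.filter (fun i => lv i < β t), lv i ^ p
        ≤ ∑ t, (β t) ^ p * (1 / (1 - gr p)) :=
          Finset.sum_le_sum (fun t _ => sum_low_le' Λ hp0 (hβ0 t))
      _ = (∑ t, C0 * a t) * (1 / (1 - gr p)) := by
          rw [Finset.sum_mul]; apply Finset.sum_congr rfl; intro t _; rw [hβp t]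
      _ ≤ C0 ^ (2:ℝ) * (1 / (1 - gr p)) := by
          apply mul_le_mul_of_nonneg_right _ hd.le
          rw [← Finset.mul_sum, Real.rpow_two]
          nlinarith
  have hhold : ∑ x ∈ F, |g x.1 x.2| ^ p
      ≤ (2 * W0 + 2 * crow p) ^ (p / 2) * (1 / (1 - gr p)) ^ (1 - p / 2) * C0 ^ (2 - p) := by
    have hP : (2 / p).HolderConjugate (2 / (2 - p)) := by
      rw [Real.holderConjugate_iff]
      constructor
      · rw [lt_div_iff₀ hp0]; linarith
      · have h2p : 2 - p ≠ 0 := by linarith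
        field_simp; ring
    have hmain := Real.inner_le_Lp_mul_Lq_of_nonneg (s := F)
      (f := fun x => (lv x.2 ^ (p - 2) * (g x.1 x.2) ^ 2) ^ (p / 2))
      (g := fun x => (lv x.2 ^ p) ^ (1 - p / 2)) hP
      (fun x _ => Real.rpow_nonneg (mul_nonneg (Real.rpow_nonneg (lv_pos _).le _) (sq_nonneg _)) _)
      (fun x _ => Real.rpow_nonneg (Real.rpow_nonneg (lv_pos _).le _) _)
    have hl : ∀ x ∈ F, (lv x.2 ^ (p - 2) * (g x.1 x.2) ^ 2) ^ (p / 2) * (lv x.2 ^ p) ^ (1 - p / 2)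
        = |g x.1 x.2| ^ p := by
      intro x _
      have hl := lv_pos x.2
      rw [Real.mul_rpow (Real.rpow_nonneg hl.le _) (sq_nonneg _), ← Real.rpow_mul hl.le,
        ← Real.rpow_mul hl.le, mul_right_comm, ← Real.rpow_add hl]
      have e1 : (p - 2) * (p / 2) + p * (1 - p / 2) = 0 := by ring
      rw [e1, Real.rpow_zero, one_mul, ← sq_abs (g x.1 x.2), ← Real.rpow_natCast |g x.1 x.2| 2,
        ← Real.rpow_mul (abs_nonneg _)]
      congr 1; push_cast; ring
    rw [Finset.sum_congr rfl hl] at hmain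
    have hr1 : ∀ x ∈ F, ((lv x.2 ^ (p - 2) * (g x.1 x.2) ^ 2) ^ (p / 2)) ^ (2 / p)
        = lv x.2 ^ (p - 2) * (g x.1 x.2) ^ 2 := by
      intro x _
      rw [← Real.rpow_mul (mul_nonneg (Real.rpow_nonneg (lv_pos _).le _) (sq_nonneg _))]
      have : p / 2 * (2 / p) = 1 := by field_simp
      rw [this, Real.rpow_one]
    have hr2 : ∀ x ∈ F, ((lv x.2 ^ p) ^ (1 - p / 2)) ^ (2 / (2 - p)) = lv x.2 ^ p := by
      intro x _
      rw [← Real.rpow_mul (Real.rpow_nonneg (lv_pos _).le _)]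
      have h2p : 2 - p ≠ 0 := by linarith
      have : (1 - p / 2) * (2 / (2 - p)) = 1 := by field_simp
      rw [this, Real.rpow_one]
    rw [Finset.sum_congr rfl hr1, Finset.sum_congr rfl hr2] at hmain
    refine hmain.trans ?_
    have e1 : 1 / (2 / p) = p / 2 := by field_simp
    have e2 : 1 / (2 / (2 - p)) = 1 - p / 2 := by
      have h2p : 2 - p ≠ 0 := by linarith
      field_simp
    rw [e1, e2]
    have hexp1 : 0 ≤ p / 2 := by positivity
    have hexp2 : 0 ≤ 1 - p / 2 := by linarith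
    have hnn1 : 0 ≤ ∑ x ∈ F, lv x.2 ^ (p - 2) * (g x.1 x.2) ^ 2 :=
      Finset.sum_nonneg (fun x _ => mul_nonneg (Real.rpow_nonneg (lv_pos _).le _) (sq_nonneg _))
    have hnn2 : 0 ≤ ∑ x ∈ F, lv x.2 ^ p :=
      Finset.sum_nonneg (fun x _ => Real.rpow_nonneg (lv_pos _).le _)
    have h1 := Real.rpow_le_rpow hnn1 hA hexp1
    have h2 := Real.rpow_le_rpow hnn2 hB hexp2
    have hd := one_div_gr_pos (q := p) hp0
    have h3 : (C0 ^ (2:ℝ) * (1 / (1 - gr p))) ^ (1 - p / 2)
        = (1 / (1 - gr p)) ^ (1 - p / 2) * C0 ^ (2 - p) := by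
      rw [Real.mul_rpow (Real.rpow_nonneg hC0pos.le _) hd.le, ← Real.rpow_mul hC0pos.le, mul_comm]
      congr 2; ring
    calc _ ≤ (2 * W0 + 2 * crow p) ^ (p / 2) * (C0 ^ (2:ℝ) * (1 / (1 - gr p))) ^ (1 - p / 2) :=
          mul_le_mul h1 h2 (Real.rpow_nonneg hnn2 _) (Real.rpow_nonneg (by positivity) _)
      _ = _ := by rw [h3, mul_assoc]
  have hsplit : ∀ t, ∑ i ∈ Λ, |g t i| ^ p
      = ∑ i ∈ Λ.filter (fun i => lv i < β t), |g t i| ^ p
        + ∑ i ∈ Λ.filter (fun i => β t ≤ lv i), |g t i| ^ p := by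
    intro t
    rw [← Finset.sum_filter_add_sum_filter_not Λ (fun i => lv i < β t)]
    congr 1
    apply Finset.sum_congr _ (fun _ _ => rfl)
    apply Finset.filter_congr; intro i _; exact not_lt
  have hfin : ∑ t, ∑ i ∈ Λ, |g t i| ^ p
      = ∑ x ∈ F, |g x.1 x.2| ^ p + ∑ t, ∑ i ∈ Λ.filter (fun i => β t ≤ lv i), |g t i| ^ p := by
    rw [hFsum (fun x => |g x.1 x.2| ^ p), ← Finset.sum_add_distrib]
    exact Finset.sum_congr rfl (fun t _ => hsplit t)
  rw [hfin]
  unfold errC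
  rw [add_mul]
  have := hHighSum
  linarith

end ErrBound


/-! ### The ideal kernel -/

/-- Annulus function. -/
noncomputable def ann (L : ℕ) (s : ℝ) (i : ℤ) : ℝ := clip (lv (i + L)) s - clip (lv i) s

/-- constant in the upper bound -/
noncomputable def cann (p : ℝ) : ℝ := 1 / (1 - gr p)

lemma card_window_le {S : Finset ℤ} {L : ℕ} (hL : 1 ≤ L)
    (h : ∀ i ∈ S, ∀ j ∈ S, i < j → j < i + L) : S.card ≤ L := by
  classical
  by_cases hne : S.Nonempty
  · have hsub : S ⊆ Finset.Ico (S.min' hne) (S.min' hne + L) := by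
      intro j hj
      have h1 : S.min' hne ≤ j := S.min'_le j hj
      rw [Finset.mem_Ico]
      refine ⟨h1, ?_⟩
      rcases h1.eq_or_lt with h2 | h2
      · rw [← h2]; omega
      · exact h _ (S.min'_mem hne) j hj h2
    have := Finset.card_le_card hsub
    simpa using this
  · rw [Finset.not_nonempty_iff_eq_empty] at hne
    simp [hne]

lemma ann_abs_le_abs {L : ℕ} (s : ℝ) (i : ℤ) : |ann L s i| ≤ |s| := by
  -- both clips lie between `0` and `s`
  unfold ann clip
  have hl := lv_pos i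
  have hl' := lv_pos (i + L)
  rcases le_total 0 s with h | h
  · rw [abs_of_nonneg h]
    rw [max_eq_right (le_min (by linarith) (by linarith)),
      max_eq_right (le_min (by linarith) (by linarith))]
    rw [abs_le]
    constructor
    · have := min_le_left s (lv i); have := le_min h hl'.le; linarith
    · have := min_le_left s (lv (i + L)); have := le_min h hl.le; linarith
  · rw [abs_of_nonpos h]
    rw [min_eq_left (by linarith), min_eq_left (by linarith)]
    rw [abs_le]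
    constructor
    · have h1 := le_max_right (-(lv (i + L))) s
      have h2 : max (-(lv i)) s ≤ 0 := max_le (by linarith) h
      linarith
    · have h1 := le_max_right (-(lv i)) s
      have h2 : max (-(lv (i + L))) s ≤ 0 := max_le (by linarith) h
      linarith

/-- Upper bound for the ideal kernel. -/
lemma ann_upper (Λ : Finset ℤ) {p : ℝ} (hp1 : 1 < p) {L : ℕ} (hL : 1 ≤ L) (s : ℝ) :
    ∑ i ∈ Λ, |ann L s i| ^ p ≤ |s| ^ p * (L + cann p) := by
  classical
  have hp0 : 0 < p := by linarith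
  by_cases hs : s = 0
  · subst hs
    have : ∀ i ∈ Λ, |ann L 0 i| ^ p = 0 := by
      intro i _
      unfold ann
      rw [clip_zero (lv_pos _).le, clip_zero (lv_pos _).le]
      simp [Real.zero_rpow hp0.ne']
    rw [Finset.sum_eq_zero this]
    simp [Real.zero_rpow hp0.ne']
  have hs' : 0 < |s| := abs_pos.mpr hs
  have hc : 0 ≤ |s| ^ p := Real.rpow_nonneg hs'.le _
  -- three regions
  set A := Λ.filter (fun i => lv (i + L) < |s|) with hA
  set B := Λ.filter (fun i => lv i < |s| ∧ |s| ≤ lv (i + L)) with hB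
  set D := Λ.filter (fun i => |s| ≤ lv i) with hD
  have hcover : Λ ⊆ A ∪ B ∪ D := by
    intro i hi
    simp only [hA, hB, hD, Finset.mem_union, Finset.mem_filter]
    by_cases h1 : lv (i + L) < |s|
    · exact Or.inl (Or.inl ⟨hi, h1⟩)
    · by_cases h2 : lv i < |s|
      · exact Or.inl (Or.inr ⟨hi, h2, not_lt.mp h1⟩)
      · exact Or.inr ⟨hi, not_lt.mp h2⟩
  have hnn : ∀ i, 0 ≤ |ann L s i| ^ p := fun i => Real.rpow_nonneg (abs_nonneg _) _
  have hsub : ∑ i ∈ Λ, |ann L s i| ^ p ≤ ∑ i ∈ A ∪ B ∪ D, |ann L s i| ^ p :=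
    Finset.sum_le_sum_of_subset_of_nonneg hcover (fun i _ _ => hnn i)
  have hU : ∑ i ∈ A ∪ B ∪ D, |ann L s i| ^ p
      ≤ ∑ i ∈ A, |ann L s i| ^ p + ∑ i ∈ B, |ann L s i| ^ p + ∑ i ∈ D, |ann L s i| ^ p := by
    have h1 := Finset.sum_union_inter (s₁ := A ∪ B) (s₂ := D) (f := fun i => |ann L s i| ^ p)
    have h2 := Finset.sum_union_inter (s₁ := A) (s₂ := B) (f := fun i => |ann L s i| ^ p)
    have h3 : 0 ≤ ∑ i ∈ (A ∪ B) ∩ D, |ann L s i| ^ p := Finset.sum_nonneg (fun i _ => hnn i)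
    have h4 : 0 ≤ ∑ i ∈ A ∩ B, |ann L s i| ^ p := Finset.sum_nonneg (fun i _ => hnn i)
    linarith
  -- region D: zero
  have hDz : ∑ i ∈ D, |ann L s i| ^ p = 0 := by
    apply Finset.sum_eq_zero
    intro i hi
    have h1 : |s| ≤ lv i := (Finset.mem_filter.mp hi).2
    have h2 : lv i ≤ lv (i + L) := lv_mono (by omega)
    unfold ann
    rw [clip_of_abs_le h1, clip_of_abs_le (h1.trans h2)]
    simp [Real.zero_rpow hp0.ne']
  -- region B: at most `L` terms, each at most `|s|^p`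
  have hBb : ∑ i ∈ B, |ann L s i| ^ p ≤ |s| ^ p * L := by
    have hcard : B.card ≤ L := by
      apply card_window_le hL
      intro i hi j hj hij
      have h1 : |s| ≤ lv (i + L) := (Finset.mem_filter.mp hi).2.2
      have h2 : lv j < |s| := (Finset.mem_filter.mp hj).2.1
      by_contra hcon
      have : lv (i + L) ≤ lv j := lv_mono (by omega)
      linarith
    calc ∑ i ∈ B, |ann L s i| ^ p ≤ ∑ i ∈ B, |s| ^ p :=
          Finset.sum_le_sum (fun i _ =>
            Real.rpow_le_rpow (abs_nonneg _) (ann_abs_le_abs s i) hp0.le)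
      _ = (B.card : ℝ) * |s| ^ p := by simp
      _ ≤ (L : ℝ) * |s| ^ p := by
          apply mul_le_mul_of_nonneg_right _ hc
          exact_mod_cast hcard
      _ = |s| ^ p * L := by ring
  -- region A: geometric
  have hAb : ∑ i ∈ A, |ann L s i| ^ p ≤ |s| ^ p * cann p := by
    have h1 : ∀ i ∈ A, |ann L s i| ^ p ≤ lv (i + L) ^ p := by
      intro i _
      apply Real.rpow_le_rpow (abs_nonneg _) _ hp0.le
      -- |clip_hi - clip_lo| ≤ lv (i+L)
      have hl := lv_pos i
      have hl' := lv_pos (i + L)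
      have hle : lv i ≤ lv (i + L) := lv_mono (by omega)
      unfold ann clip
      rcases le_total 0 s with h | h
      · rw [max_eq_right (le_min (by linarith) (by linarith)),
          max_eq_right (le_min (by linarith) (by linarith))]
        rw [abs_le]
        constructor
        · have h3 := min_le_right s (lv i)
          have h4 : 0 ≤ min s (lv (i + L)) := le_min h hl'.le
          linarith
        · have h3 := min_le_right s (lv (i + L))
          have h4 : 0 ≤ min s (lv i) := le_min h hl.le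
          linarith
      · rw [min_eq_left (by linarith), min_eq_left (by linarith)]
        rw [abs_le]
        constructor
        · have h3 := le_max_left (-(lv (i + L))) s
          have h4 : max (-(lv i)) s ≤ 0 := max_le (by linarith) h
          linarith
        · have h3 := le_max_left (-(lv i)) s
          have h4 : max (-(lv (i + L))) s ≤ 0 := max_le (by linarith) h
          linarith
    refine (Finset.sum_le_sum h1).trans ?_
    -- shift
    have hinj : Set.InjOn (fun i : ℤ => i + (L:ℤ)) (A : Set ℤ) := by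
      intro a _ b _ hab; simpa using hab
    have h2 := Finset.sum_image (f := fun j : ℤ => lv j ^ p) hinj
    rw [← h2]
    have h3 := sum_low_le (A.image (fun i : ℤ => i + (L:ℤ))) hp0 hs'
    have h4 : (A.image (fun i : ℤ => i + (L:ℤ))).filter (fun j => lv j < |s|)
        = A.image (fun i : ℤ => i + (L:ℤ)) := by
      apply Finset.filter_true_of_mem
      intro j hj
      obtain ⟨i, hi, rfl⟩ := Finset.mem_image.mp hj
      exact (Finset.mem_filter.mp hi).2
    rw [h4] at h3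
    exact h3
  calc ∑ i ∈ Λ, |ann L s i| ^ p ≤ |s| ^ p * cann p + |s| ^ p * L + 0 := by
        have := hsub.trans hU
        linarith
    _ = |s| ^ p * (L + cann p) := by ring

/-- Lower bound for the ideal kernel, when `lv (imin + L) ≤ |s| ≤ 1`. -/
lemma ann_lower {p : ℝ} (hp1 : 1 < p) {L : ℕ} (hL : 1 ≤ L) (imin : ℤ) {s : ℝ}
    (hs1 : |s| ≤ 1) (hs2 : lv (imin + L) ≤ |s|) :
    |s| ^ p * (L - 1 - 2 * p) ≤ ∑ i ∈ Finset.Ico imin 0, |ann L s i| ^ p := by
  classical
  have hp0 : 0 < p := by linarith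
  have hs' : 0 < |s| := lt_of_lt_of_le (lv_pos _) hs2
  have hc : 0 < |s| ^ p := Real.rpow_pos_of_pos hs' _
  set i0 : ℤ := Int.log 2 |s| with hi0
  have h0le : lv i0 ≤ |s| := Int.zpow_log_le_self (by norm_num) hs'
  have h0lt : |s| < lv (i0 + 1) := Int.lt_zpow_succ_log_self (by norm_num) |s|
  have hi0nonpos : i0 ≤ 0 := by
    by_contra hcon
    have : lv 1 ≤ lv i0 := lv_mono (by omega)
    have h2 : lv 1 = 2 := by simp [lv]
    linarith
  have himin : imin + L ≤ i0 := by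
    by_contra hcon
    have : lv (i0 + 1) ≤ lv (imin + L) := lv_mono (by omega)
    linarith
  set W := Finset.Ico (i0 + 1 - L) i0 with hWdef
  have hWsub : W ⊆ Finset.Ico imin 0 := by
    intro i hi
    rw [Finset.mem_Ico] at hi ⊢
    omega
  have hnn : ∀ i, 0 ≤ |ann L s i| ^ p := fun i => Real.rpow_nonneg (abs_nonneg _) _
  have hterm : ∀ i ∈ W, |s| ^ p - |s| ^ p * (p * (lv i / |s|)) ≤ |ann L s i| ^ p := by
    intro i hi
    rw [Finset.mem_Ico] at hi
    have hl := lv_pos i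
    have h1 : |s| ≤ lv (i + L) := h0lt.le.trans (lv_mono (by omega))
    have h2 : lv i < |s| := lt_of_lt_of_le (lv_strictMono hi.2) h0le
    have hann : |ann L s i| = |s| - lv i := by
      unfold ann
      rw [clip_of_abs_le h1]
      unfold clip
      rcases le_total 0 s with h | h
      · rw [abs_of_nonneg h] at h2 ⊢
        rw [min_eq_right h2.le, max_eq_right (by linarith), abs_of_nonneg (by linarith)]
      · rw [abs_of_nonpos h] at h2 ⊢
        rw [min_eq_left (by linarith), max_eq_left (by linarith), abs_of_nonpos (by linarith)]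
        ring
    rw [hann]
    have hb := one_add_mul_self_le_rpow_one_add (s := -(lv i / |s|)) (p := p)
      (by
        have : lv i / |s| ≤ 1 := (div_le_one hs').mpr h2.le
        linarith) hp1.le
    have h3 : |s| - lv i = |s| * (1 + -(lv i / |s|)) := by field_simp; ring
    rw [h3, Real.mul_rpow hs'.le (by
        have : lv i / |s| ≤ 1 := (div_le_one hs').mpr h2.le
        linarith)]
    nlinarith
  have hgeo : ∑ i ∈ W, lv i ≤ 2 * |s| := by
    have h1 := sum_low_le W (q := 1) one_pos (lv_pos i0)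
    have h2 : W.filter (fun i => lv i < lv i0) = W := by
      apply Finset.filter_true_of_mem
      intro i hi
      exact lv_strictMono (Finset.mem_Ico.mp hi).2
    rw [h2] at h1
    simp only [Real.rpow_one] at h1
    have h3 : gr 1 = 1 / 2 := by
      unfold gr; rw [Real.rpow_neg (by norm_num), Real.rpow_one]; norm_num
    rw [h3] at h1
    norm_num at h1
    linarith
  have hcardW : (W.card : ℝ) = (L : ℝ) - 1 := by
    have h : W.card = L - 1 := by
      rw [hWdef, Int.card_Ico]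
      omega
    rw [h, Nat.cast_sub hL]; simp
  have hsum1 : ∑ i ∈ W, (|s| ^ p - |s| ^ p * (p * (lv i / |s|)))
      = |s| ^ p * ((L : ℝ) - 1) - |s| ^ p * (p * (∑ i ∈ W, lv i) / |s|) := by
    rw [Finset.sum_sub_distrib, Finset.sum_const, nsmul_eq_mul, hcardW]
    congr 1
    · ring
    · rw [← Finset.mul_sum, ← Finset.mul_sum, mul_div_assoc, Finset.sum_div]
  have hb : |s| ^ p * (p * (∑ i ∈ W, lv i) / |s|) ≤ |s| ^ p * (2 * p) := by
    apply mul_le_mul_of_nonneg_left _ hc.le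
    rw [div_le_iff₀ hs']
    nlinarith
  calc |s| ^ p * ((L : ℝ) - 1 - 2 * p) = |s| ^ p * ((L : ℝ) - 1) - |s| ^ p * (2 * p) := by ring
    _ ≤ ∑ i ∈ W, (|s| ^ p - |s| ^ p * (p * (lv i / |s|))) := by rw [hsum1]; linarith
    _ ≤ ∑ i ∈ W, |ann L s i| ^ p := Finset.sum_le_sum hterm
    _ ≤ ∑ i ∈ Finset.Ico imin 0, |ann L s i| ^ p :=
        Finset.sum_le_sum_of_subset_of_nonneg hWsub (fun i _ _ => hnn i)

section Ker

variable {T : Type*} [Fintype T]

variable (p E0 η : ℝ) (hp1 : 1 < p) (hp2 : p < 2) (L : ℕ) (hL : 1 ≤ L) (imin : ℤ)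
  (s0 : T → ℝ) (y : T → ℤ → ℝ)
  (hE : ∑ t, ∑ i ∈ Finset.Ico imin (L : ℤ), |y t i - clip (lv i) (s0 t)| ^ p ≤ E0)

/-- The kernel functions `ψ t i = y t (i+L) - y t i`. -/
noncomputable def kerSum (p : ℝ) (L : ℕ) (imin : ℤ) (y : T → ℤ → ℝ) : ℝ :=
  ∑ t, ∑ i ∈ Finset.Ico imin (0:ℤ), |y t (i + L) - y t i| ^ p

/-- Sum of `|ann|^p` over `t`. -/
noncomputable def annSum (p : ℝ) (L : ℕ) (imin : ℤ) (s0 : T → ℝ) : ℝ :=
  ∑ t, ∑ i ∈ Finset.Ico imin (0:ℤ), |ann L (s0 t) i| ^ p

lemma sum_prod_eq (S : Finset ℤ) (f : T × ℤ → ℝ) :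
    ∑ x ∈ (Finset.univ : Finset T) ×ˢ S, f x = ∑ t, ∑ i ∈ S, f (t, i) := by
  rw [Finset.sum_product]

include hL hE in
/-- The `g` error at the two levels, both bounded by `E0`. -/
lemma err_two :
    ∑ t, ∑ i ∈ Finset.Ico imin (0:ℤ), |y t i - clip (lv i) (s0 t)| ^ p ≤ E0 ∧
    ∑ t, ∑ i ∈ Finset.Ico imin (0:ℤ),
      |y t (i + L) - clip (lv (i + L)) (s0 t)| ^ p ≤ E0 := by
  have hnn : ∀ t i, 0 ≤ |y t i - clip (lv i) (s0 t)| ^ p :=
    fun t i => Real.rpow_nonneg (abs_nonneg _) _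
  constructor
  · refine le_trans (Finset.sum_le_sum (fun t _ => ?_)) hE
    apply Finset.sum_le_sum_of_subset_of_nonneg
    · intro i hi
      rw [Finset.mem_Ico] at hi ⊢
      omega
    · intro i _ _; exact hnn t i
  · refine le_trans (Finset.sum_le_sum (fun t _ => ?_)) hE
    have hinj : Set.InjOn (fun i : ℤ => i + (L:ℤ)) ((Finset.Ico imin (0:ℤ) : Finset ℤ) : Set ℤ) := by
      intro a _ b _ hab; simpa using hab
    have h2 := Finset.sum_image (f := fun j : ℤ => |y t j - clip (lv j) (s0 t)| ^ p) hinj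
    rw [← h2]
    apply Finset.sum_le_sum_of_subset_of_nonneg
    · intro j hj
      obtain ⟨i, hi, rfl⟩ := Finset.mem_image.mp hj
      rw [Finset.mem_Ico] at hi ⊢
      omega
    · intro i _ _; exact hnn t i

include hp1 hL hE in
/-- Minkowski: kernel upper bound in terms of the ideal kernel. -/
lemma ker_rpow_le :
    (kerSum p L imin y) ^ (1 / p) ≤ (annSum p L imin s0) ^ (1 / p) + 2 * E0 ^ (1 / p) := by
  classical
  set S := (Finset.univ : Finset T) ×ˢ (Finset.Ico imin (0:ℤ)) with hS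
  have hp1' : 1 ≤ p := hp1.le
  have hp0 : 0 < p := by linarith
  obtain ⟨h1, h2⟩ := err_two p E0 L hL imin s0 y hE
  have hker : kerSum p L imin y = ∑ x ∈ S, |y x.1 (x.2 + L) - y x.1 x.2| ^ p := by
    rw [hS, sum_prod_eq]; rfl
  have hann : annSum p L imin s0 = ∑ x ∈ S, |ann L (s0 x.1) x.2| ^ p := by
    rw [hS, sum_prod_eq]; rfl
  have hA : ∑ x ∈ S, |y x.1 x.2 - clip (lv x.2) (s0 x.1)| ^ p ≤ E0 := by
    rw [hS, sum_prod_eq]; exact h1
  have hB : ∑ x ∈ S, |y x.1 (x.2 + L) - clip (lv (x.2 + L)) (s0 x.1)| ^ p ≤ E0 := by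
    rw [hS, sum_prod_eq]; exact h2
  have hdec : ∀ x : T × ℤ, y x.1 (x.2 + L) - y x.1 x.2
      = ann L (s0 x.1) x.2 + ((y x.1 (x.2 + L) - clip (lv (x.2 + L)) (s0 x.1))
        + -(y x.1 x.2 - clip (lv x.2) (s0 x.1))) := by
    intro x; unfold ann; ring
  have hexp : 0 ≤ 1 / p := by positivity
  have hM1 := Real.Lp_add_le S (fun x => ann L (s0 x.1) x.2)
    (fun x => (y x.1 (x.2 + L) - clip (lv (x.2 + L)) (s0 x.1))
        + -(y x.1 x.2 - clip (lv x.2) (s0 x.1))) hp1'
  have hM2 := Real.Lp_add_le S (fun x => y x.1 (x.2 + L) - clip (lv (x.2 + L)) (s0 x.1))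
    (fun x => -(y x.1 x.2 - clip (lv x.2) (s0 x.1))) hp1'
  simp only [abs_neg] at hM2
  have hnnA : 0 ≤ ∑ x ∈ S, |y x.1 x.2 - clip (lv x.2) (s0 x.1)| ^ p :=
    Finset.sum_nonneg (fun x _ => Real.rpow_nonneg (abs_nonneg _) _)
  have hnnB : 0 ≤ ∑ x ∈ S, |y x.1 (x.2 + L) - clip (lv (x.2 + L)) (s0 x.1)| ^ p :=
    Finset.sum_nonneg (fun x _ => Real.rpow_nonneg (abs_nonneg _) _)
  have h3 := Real.rpow_le_rpow hnnA hA hexp
  have h4 := Real.rpow_le_rpow hnnB hB hexp
  rw [hker, hann]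
  simp only [hdec]
  linarith

include hp1 hL hE in
/-- Minkowski: ideal kernel bounded in terms of kernel. -/
lemma ann_rpow_le :
    (annSum p L imin s0) ^ (1 / p) ≤ (kerSum p L imin y) ^ (1 / p) + 2 * E0 ^ (1 / p) := by
  classical
  set S := (Finset.univ : Finset T) ×ˢ (Finset.Ico imin (0:ℤ)) with hS
  have hp1' : 1 ≤ p := hp1.le
  have hp0 : 0 < p := by linarith
  obtain ⟨h1, h2⟩ := err_two p E0 L hL imin s0 y hE
  have hker : kerSum p L imin y = ∑ x ∈ S, |y x.1 (x.2 + L) - y x.1 x.2| ^ p := by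
    rw [hS, sum_prod_eq]; rfl
  have hann : annSum p L imin s0 = ∑ x ∈ S, |ann L (s0 x.1) x.2| ^ p := by
    rw [hS, sum_prod_eq]; rfl
  have hA : ∑ x ∈ S, |y x.1 x.2 - clip (lv x.2) (s0 x.1)| ^ p ≤ E0 := by
    rw [hS, sum_prod_eq]; exact h1
  have hB : ∑ x ∈ S, |y x.1 (x.2 + L) - clip (lv (x.2 + L)) (s0 x.1)| ^ p ≤ E0 := by
    rw [hS, sum_prod_eq]; exact h2
  have hdec : ∀ x : T × ℤ, ann L (s0 x.1) x.2
      = (y x.1 (x.2 + L) - y x.1 x.2) + (-(y x.1 (x.2 + L) - clip (lv (x.2 + L)) (s0 x.1))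
        + (y x.1 x.2 - clip (lv x.2) (s0 x.1))) := by
    intro x; unfold ann; ring
  have hexp : 0 ≤ 1 / p := by positivity
  have hM1 := Real.Lp_add_le S (fun x => y x.1 (x.2 + L) - y x.1 x.2)
    (fun x => -(y x.1 (x.2 + L) - clip (lv (x.2 + L)) (s0 x.1))
        + (y x.1 x.2 - clip (lv x.2) (s0 x.1))) hp1'
  have hM2 := Real.Lp_add_le S (fun x => -(y x.1 (x.2 + L) - clip (lv (x.2 + L)) (s0 x.1)))
    (fun x => (y x.1 x.2 - clip (lv x.2) (s0 x.1))) hp1'
  simp only [abs_neg] at hM2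
  have hnnA : 0 ≤ ∑ x ∈ S, |y x.1 x.2 - clip (lv x.2) (s0 x.1)| ^ p :=
    Finset.sum_nonneg (fun x _ => Real.rpow_nonneg (abs_nonneg _) _)
  have hnnB : 0 ≤ ∑ x ∈ S, |y x.1 (x.2 + L) - clip (lv (x.2 + L)) (s0 x.1)| ^ p :=
    Finset.sum_nonneg (fun x _ => Real.rpow_nonneg (abs_nonneg _) _)
  have h3 := Real.rpow_le_rpow hnnA hA hexp
  have h4 := Real.rpow_le_rpow hnnB hB hexp
  rw [hker, hann]
  have hcongr : ∑ x ∈ S, |ann L (s0 x.1) x.2| ^ p = ∑ x ∈ S, |(y x.1 (x.2 + L) - y x.1 x.2) +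
      (-(y x.1 (x.2 + L) - clip (lv (x.2 + L)) (s0 x.1))
        + (y x.1 x.2 - clip (lv x.2) (s0 x.1)))| ^ p := by
    apply Finset.sum_congr rfl; intro x _; rw [← hdec x]
  rw [hcongr]
  linarith

include hp1 hL in
lemma annSum_upper (hs0 : ∑ t, |s0 t| ^ p ≤ 1) : annSum p L imin s0 ≤ L + cann p := by
  have hc : 0 ≤ (L : ℝ) + cann p := by
    have : 0 < cann p := one_div_gr_pos (by linarith)
    positivity
  unfold annSum
  calc ∑ t, ∑ i ∈ Finset.Ico imin (0:ℤ), |ann L (s0 t) i| ^ p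
      ≤ ∑ t, |s0 t| ^ p * (L + cann p) :=
        Finset.sum_le_sum (fun t _ => ann_upper _ hp1 hL (s0 t))
    _ = (∑ t, |s0 t| ^ p) * (L + cann p) := by rw [Finset.sum_mul]
    _ ≤ 1 * (L + cann p) := mul_le_mul_of_nonneg_right hs0 hc
    _ = L + cann p := one_mul _

include hp1 hL in
lemma annSum_lower (hs0 : ∑ t, |s0 t| ^ p = 1) (hs1 : ∀ t, |s0 t| ≤ 1)
    (hL2 : 1 + 2 * p ≤ L)
    (hη : (Fintype.card T : ℝ) * lv (imin + L) ^ p ≤ η) :
    (1 - η) * (L - 1 - 2 * p) ≤ annSum p L imin s0 := by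
  classical
  have hp0 : 0 < p := by linarith
  have hLL : 0 ≤ (L : ℝ) - 1 - 2 * p := by linarith
  set β := lv (imin + L) with hβ
  have hβ0 : 0 < β := lv_pos _
  have hsmall : ∑ t ∈ Finset.univ.filter (fun t => |s0 t| < β), |s0 t| ^ p ≤ η := by
    calc ∑ t ∈ Finset.univ.filter (fun t => |s0 t| < β), |s0 t| ^ p
        ≤ ∑ t ∈ Finset.univ.filter (fun t => |s0 t| < β), β ^ p :=
          Finset.sum_le_sum (fun t ht => Real.rpow_le_rpow (abs_nonneg _)
            (Finset.mem_filter.mp ht).2.le hp0.le)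
      _ ≤ ∑ t : T, β ^ p := Finset.sum_le_sum_of_subset_of_nonneg (Finset.filter_subset _ _)
          (fun t _ _ => Real.rpow_nonneg hβ0.le _)
      _ = (Fintype.card T : ℝ) * β ^ p := by simp
      _ ≤ η := hη
  have hlarge : 1 - η ≤ ∑ t ∈ Finset.univ.filter (fun t => ¬ |s0 t| < β), |s0 t| ^ p := by
    have := Finset.sum_filter_add_sum_filter_not (Finset.univ : Finset T)
      (fun t => |s0 t| < β) (fun t => |s0 t| ^ p)
    linarith
  unfold annSum
  calc (1 - η) * ((L : ℝ) - 1 - 2 * p)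
      ≤ (∑ t ∈ Finset.univ.filter (fun t => ¬ |s0 t| < β), |s0 t| ^ p) * ((L : ℝ) - 1 - 2 * p) :=
        mul_le_mul_of_nonneg_right hlarge hLL
    _ = ∑ t ∈ Finset.univ.filter (fun t => ¬ |s0 t| < β), |s0 t| ^ p * ((L : ℝ) - 1 - 2 * p) := by
        rw [Finset.sum_mul]
    _ ≤ ∑ t ∈ Finset.univ.filter (fun t => ¬ |s0 t| < β),
          ∑ i ∈ Finset.Ico imin (0:ℤ), |ann L (s0 t) i| ^ p :=
        Finset.sum_le_sum (fun t ht => ann_lower hp1 hL imin (hs1 t)
          (not_lt.mp (Finset.mem_filter.mp ht).2))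
    _ ≤ ∑ t, ∑ i ∈ Finset.Ico imin (0:ℤ), |ann L (s0 t) i| ^ p :=
        Finset.sum_le_sum_of_subset_of_nonneg (Finset.filter_subset _ _)
          (fun t _ _ => Finset.sum_nonneg (fun i _ => Real.rpow_nonneg (abs_nonneg _) _))

end Ker

end Crest.Agent.LpDimRed.Low
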