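/-
Row 232, S0358 (metric dimension reduction in `L^p`): shared definitions.
Paper proof: findings topic `row232-plan` (#1151 and following).
-/
import Mathlib

set_option autoImplicit false

namespace Crest.Agent.LpDimRed

noncomputable section

open Finset

/-- Slope of `g` on the ordered pair `e` w.r.t. the distance function `d`.
On the diagonal it is `0` whatever `d` is. -/
def sl {X : Type*} (d : X → X → ℝ) (g : X → ℝ) (e : X × X) : ℝ :=
  (g e.1 - g e.2) / d e.1 e.2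

/-- Clipping of `s` at height `β ≥ 0`. -/
def clip (β s : ℝ) : ℝ := max (-β) (min s β)

/-- Dyadic level. -/
def lev (j : ℕ) : ℝ := (1 / 2 : ℝ) ^ j

section sl
variable {X : Type*} (d : X → X → ℝ)

@[simp] theorem sl_diag (g : X → ℝ) (a : X) : sl d g (a, a) = 0 := by simp [sl]

theorem sl_add (g h : X → ℝ) (e : X × X) : sl d (g + h) e = sl d g e + sl d h e := by
  simp only [sl, Pi.add_apply]; ring

theorem sl_sub (g h : X → ℝ) (e : X × X) : sl d (g - h) e = sl d g e - sl d h e := by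
  simp only [sl, Pi.sub_apply]; ring

theorem sl_smul (c : ℝ) (g : X → ℝ) (e : X × X) : sl d (c • g) e = c * sl d g e := by
  simp only [sl, Pi.smul_apply, smul_eq_mul]; ring

theorem sl_sum {ι : Type*} (s : Finset ι) (g : ι → X → ℝ) (e : X × X) :
    sl d (∑ i ∈ s, g i) e = ∑ i ∈ s, sl d (g i) e := by
  classical
  simp only [sl, Finset.sum_apply, ← Finset.sum_sub_distrib, Finset.sum_div]

end sl

section clip

theorem lev_pos (j : ℕ) : 0 < lev j := by unfold lev; positivity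

theorem lev_le_one (j : ℕ) : lev j ≤ 1 := by
  unfold lev; exact pow_le_one₀ (by norm_num) (by norm_num)

@[simp] theorem lev_zero : lev 0 = 1 := by simp [lev]

theorem lev_succ (j : ℕ) : lev (j + 1) = lev j / 2 := by
  unfold lev; rw [pow_succ]; ring

theorem lev_antitone : Antitone lev := by
  intro a b h
  unfold lev
  exact pow_le_pow_of_le_one (by norm_num) (by norm_num) h

theorem clip_of_abs_le {β s : ℝ} (h : |s| ≤ β) : clip β s = s := by
  have h1 := abs_le.mp h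
  unfold clip
  rw [min_eq_left h1.2, max_eq_right h1.1]

theorem abs_clip {β s : ℝ} (hβ : 0 ≤ β) : |clip β s| = min |s| β := by
  unfold clip
  rcases le_total s β with h1 | h1
  · rw [min_eq_left h1]
    rcases le_total (-β) s with h2 | h2
    · rw [max_eq_right h2, min_eq_left (abs_le.mpr ⟨h2, h1⟩)]
    · rw [max_eq_left h2, abs_neg, abs_of_nonneg hβ, min_eq_right]
      rw [le_abs]; right; linarith
  · rw [min_eq_right h1, max_eq_right (by linarith), abs_of_nonneg hβ, min_eq_right]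
    rw [le_abs]; left; linarith

theorem abs_clip_le {β s : ℝ} (hβ : 0 ≤ β) : |clip β s| ≤ β := by
  rw [abs_clip hβ]; exact min_le_right _ _

theorem abs_clip_le_abs {β s : ℝ} (hβ : 0 ≤ β) : |clip β s| ≤ |s| := by
  rw [abs_clip hβ]; exact min_le_left _ _

@[simp] theorem clip_zero_right (β : ℝ) (hβ : 0 ≤ β) : clip β 0 = 0 :=
  clip_of_abs_le (by simpa using hβ)

end clip

/-- The convexity inequality used everywhere:
`|a + b|^p ≤ (1 + 1/η)^(p-1) |a|^p + (1 + η)^(p-1) |b|^p`. -/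
theorem abs_add_rpow_le (p η : ℝ) (hp : 1 ≤ p) (hη : 0 < η) (a b : ℝ) :
    |a + b| ^ p ≤ (1 + 1 / η) ^ (p - 1) * |a| ^ p + (1 + η) ^ (p - 1) * |b| ^ p := by
  have h1η : 0 < 1 + η := by linarith
  have hA : 0 < 1 + 1 / η := by positivity
  set w₁ : ℝ := η / (1 + η) with hw₁
  set w₂ : ℝ := 1 / (1 + η) with hw₂
  have hw₁p : 0 < w₁ := by positivity
  have hw₂p : 0 < w₂ := by positivity
  have hw : w₁ + w₂ = 1 := by rw [hw₁, hw₂]; field_simp; ring
  have hinv₁ : w₁⁻¹ = 1 + 1 / η := by rw [hw₁]; field_simp; ring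
  have hinv₂ : w₂⁻¹ = 1 + η := by rw [hw₂]; field_simp
  have h0 : |a + b| ≤ w₁ * (|a| * w₁⁻¹) + w₂ * (|b| * w₂⁻¹) := by
    have e1 : w₁ * (|a| * w₁⁻¹) = |a| := by field_simp
    have e2 : w₂ * (|b| * w₂⁻¹) = |b| := by field_simp
    rw [e1, e2]; exact abs_add_le a b
  have h2 : (w₁ * (|a| * w₁⁻¹) + w₂ * (|b| * w₂⁻¹)) ^ p ≤
      w₁ * (|a| * w₁⁻¹) ^ p + w₂ * (|b| * w₂⁻¹) ^ p := by
    have := (convexOn_rpow hp).2 (x := |a| * w₁⁻¹) (y := |b| * w₂⁻¹)
      (Set.mem_Ici.2 (by positivity)) (Set.mem_Ici.2 (by positivity)) hw₁p.le hw₂p.le hw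
    simpa [smul_eq_mul] using this
  have h3 : |a + b| ^ p ≤ (w₁ * (|a| * w₁⁻¹) + w₂ * (|b| * w₂⁻¹)) ^ p :=
    Real.rpow_le_rpow (abs_nonneg _) h0 (by linarith)
  refine h3.trans (h2.trans (le_of_eq ?_))
  have hp1 : p = (p - 1) + 1 := by ring
  have e1 : w₁ * (|a| * w₁⁻¹) ^ p = (1 + 1 / η) ^ (p - 1) * |a| ^ p := by
    rw [Real.mul_rpow (abs_nonneg a) (by positivity), ← hinv₁]
    have : w₁⁻¹ ^ p = w₁⁻¹ ^ (p - 1) * w₁⁻¹ := by
      conv_lhs => rw [hp1]
      rw [Real.rpow_add (by positivity), Real.rpow_one]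
    rw [this]; field_simp
  have e2 : w₂ * (|b| * w₂⁻¹) ^ p = (1 + η) ^ (p - 1) * |b| ^ p := by
    rw [Real.mul_rpow (abs_nonneg b) (by positivity), ← hinv₂]
    have : w₂⁻¹ ^ p = w₂⁻¹ ^ (p - 1) * w₂⁻¹ := by
      conv_lhs => rw [hp1]
      rw [Real.rpow_add (by positivity), Real.rpow_one]
    rw [this]; field_simp
  rw [e1, e2]

end

end Crest.Agent.LpDimRed
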