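/-
Row 232 (S0358): bridge of `AnalysisLow` to the statements of `Analysis.lean` (pieces D1, D2).
-/
import Crest.Agent.Lib.LpDimRed.Basic
import Crest.Agent.Lib.LpDimRed.AnalysisLow

set_option autoImplicit false

namespace Crest.Agent.LpDimRed

noncomputable section

open Finset

lemma lev_eq_lv (j : ℕ) : lev j = Low.lv (-(j : ℤ)) := by
  unfold lev Low.lv
  rw [zpow_neg, zpow_natCast, one_div, inv_pow]

lemma clip_eq_low (β s : ℝ) : clip β s = Low.clip β s := rfl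

lemma neg_inj_on (S : Finset ℕ) :
    Set.InjOn (fun j : ℕ => (-(j : ℤ))) (S : Set ℕ) := by
  intro a _ b _ hab
  simp only at hab
  omega

lemma sum_range_eq_image (N : ℕ) (f : ℤ → ℝ) :
    ∑ j ∈ range N, f (-(j : ℤ)) = ∑ i ∈ (range N).image (fun j : ℕ => (-(j : ℤ))), f i := by
  rw [Finset.sum_image (neg_inj_on _)]

/-- Dyadic sum, `p < 2`. -/
theorem dyadic_clip_lt2' (p : ℝ) (hp1 : 1 < p) (hp2 : p < 2) :
    ∃ B : ℝ, 0 < B ∧ ∀ (N : ℕ) (s : ℝ), |s| ≤ 1 →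
      ∑ j ∈ range N, lev j ^ (p - 2) * clip (lev j) s ^ 2 ≤ B * |s| ^ p := by
  refine ⟨Low.crow p, Low.crow_pos hp1 hp2, fun N s _ => ?_⟩
  have h := Low.clip_row ((range N).image (fun j : ℕ => (-(j : ℤ)))) hp1 hp2 s
  rw [← sum_range_eq_image N (fun i => Low.lv i ^ (p - 2) * (Low.clip (Low.lv i) s) ^ 2)] at h
  simpa only [lev_eq_lv, clip_eq_low] using h

/-- Dyadic sum, `p > 2`. -/
theorem dyadic_exc_gt2' (p : ℝ) (hp : 2 < p) :
    ∃ B : ℝ, 0 < B ∧ ∀ (N : ℕ) (s : ℝ), |s| ≤ 1 →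
      ∑ j ∈ range N, lev j ^ (p - 2) * (s - clip (lev j) s) ^ 2 ≤ B * |s| ^ p := by
  have hq : 0 < p - 2 := by linarith
  refine ⟨1 / (1 - Low.gr (p - 2)), Low.one_div_gr_pos hq, fun N s _ => ?_⟩
  by_cases hs : s = 0
  · subst hs
    have hz : ∀ j ∈ range N, lev j ^ (p - 2) * ((0:ℝ) - clip (lev j) 0) ^ 2 = 0 := by
      intro j _
      rw [clip_zero_right _ (lev_pos j).le]; simp
    rw [Finset.sum_eq_zero hz, abs_zero, Real.zero_rpow (by linarith)]; simp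
  have hs' : 0 < |s| := abs_pos.mpr hs
  set Λ := (range N).image (fun j : ℕ => (-(j : ℤ))) with hΛ
  have h1 : ∑ j ∈ range N, lev j ^ (p - 2) * (s - clip (lev j) s) ^ 2
      = ∑ i ∈ Λ, Low.lv i ^ (p - 2) * (s - Low.clip (Low.lv i) s) ^ 2 := by
    rw [hΛ, ← sum_range_eq_image N (fun i => Low.lv i ^ (p - 2) * (s - Low.clip (Low.lv i) s) ^ 2)]
    simp only [lev_eq_lv, clip_eq_low]
  rw [h1]
  rw [← Finset.sum_filter_add_sum_filter_not Λ (fun i => Low.lv i < |s|)]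
  have hlow : ∑ i ∈ Λ.filter (fun i => Low.lv i < |s|),
      Low.lv i ^ (p - 2) * (s - Low.clip (Low.lv i) s) ^ 2
      ≤ s ^ 2 * ∑ i ∈ Λ.filter (fun i => Low.lv i < |s|), Low.lv i ^ (p - 2) := by
    rw [Finset.mul_sum]
    apply Finset.sum_le_sum
    intro i _
    have hl := Low.lv_pos i
    have h2 : (s - Low.clip (Low.lv i) s) ^ 2 ≤ s ^ 2 := by
      -- the excess has smaller modulus than `s`
      have h3 : |s - Low.clip (Low.lv i) s| ≤ |s| := by
        unfold Low.clip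
        rcases le_total 0 s with h0 | h0
        · rw [abs_of_nonneg h0]
          rw [max_eq_right (le_min (by linarith) (by linarith))]
          rw [abs_of_nonneg (by linarith [min_le_left s (Low.lv i)])]
          linarith [le_min h0 hl.le]
        · rw [abs_of_nonpos h0]
          rw [min_eq_left (by linarith)]
          rw [abs_of_nonpos (by linarith [le_max_right (-(Low.lv i)) s])]
          have : max (-(Low.lv i)) s ≤ 0 := max_le (by linarith) h0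
          linarith
      exact sq_le_sq.mpr h3
    have hn := Real.rpow_nonneg hl.le (p - 2)
    nlinarith
  have hhigh : ∑ i ∈ Λ.filter (fun i => ¬ Low.lv i < |s|),
      Low.lv i ^ (p - 2) * (s - Low.clip (Low.lv i) s) ^ 2 = 0 := by
    apply Finset.sum_eq_zero
    intro i hi
    have h2 : |s| ≤ Low.lv i := not_lt.mp (Finset.mem_filter.mp hi).2
    rw [Low.clip_of_abs_le h2]; simp
  rw [hhigh, add_zero]
  refine hlow.trans ?_
  have h3 := Low.sum_low_le Λ hq hs'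
  have h4 : s ^ 2 * |s| ^ (p - 2) = |s| ^ p := by
    rw [← sq_abs s, ← Real.rpow_natCast |s| 2, ← Real.rpow_add hs']; congr 1; push_cast; ring
  calc s ^ 2 * ∑ i ∈ Λ.filter (fun i => Low.lv i < |s|), Low.lv i ^ (p - 2)
      ≤ s ^ 2 * (|s| ^ (p - 2) * (1 / (1 - Low.gr (p - 2)))) :=
        mul_le_mul_of_nonneg_left h3 (sq_nonneg s)
    _ = 1 / (1 - Low.gr (p - 2)) * |s| ^ p := by rw [← mul_assoc, h4]; ring

/-- M6, the heart of `p < 2`, with exact exponent `2 - p`. -/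
theorem analysis_lt2' (p : ℝ) (hp1 : 1 < p) (hp2 : p < 2) :
    ∃ Cp : ℝ, 0 < Cp ∧ ∀ {T E : Type} [Fintype T] [Fintype E] (κ : E → ℝ) (σ : T → E → ℝ)
      (s : T → ℝ) (C0 W0 : ℝ) (N : ℕ), 1 ≤ C0 → 0 ≤ W0 → ∑ e, |κ e| ≤ C0 →
      (∀ e, ∑ t, |σ t e| ^ p ≤ 1) → (∀ t, ∑ e, κ e * σ t e = s t) → (∑ t, |s t| ^ p ≤ 1) →
      (∑ t, ∑ j ∈ range N, lev j ^ (p - 2) * (∑ e, κ e * clip (lev j) (σ t e)) ^ 2 ≤ W0) →
      ∑ t, ∑ j ∈ range N, |(∑ e, κ e * clip (lev j) (σ t e)) - clip (lev j) (s t)| ^ p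
        ≤ Cp * (1 + W0) * C0 ^ (2 - p) := by
  have hp0 : 0 < p := by linarith
  have hq : 0 < p * (p - 1) := mul_pos hp0 (by linarith)
  have hcr := Low.crow_pos hp1 hp2
  have hd1 := Low.one_div_gr_pos hq
  have hd2 := Low.one_div_gr_pos hp0
  refine ⟨1 / (1 - Low.gr (p * (p - 1))) + (2 + 2 * Low.crow p) * (1 / (1 - Low.gr p)) ^ (1 - p / 2),
    by positivity, ?_⟩
  intro T E _ _ κ σ s C0 W0 N hC0 hW0 hK hσ hrepro hs hW
  set Λ := (range N).image (fun j : ℕ => (-(j : ℤ))) with hΛ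
  have hmain := Low.err_bound p C0 W0 hp1 hp2 hC0 κ hK σ hσ s hs hrepro
    (fun t i => ∑ e, κ e * Low.clip (Low.lv i) (σ t e)) (fun _ _ => rfl) Λ
    (by
      refine le_trans (le_of_eq ?_) hW
      apply Finset.sum_congr rfl; intro t _
      rw [hΛ, ← sum_range_eq_image N
        (fun i => Low.lv i ^ (p - 2) * (∑ e, κ e * Low.clip (Low.lv i) (σ t e)) ^ 2)]
      simp only [lev_eq_lv, clip_eq_low])
  have heq : ∑ t, ∑ j ∈ range N, |(∑ e, κ e * clip (lev j) (σ t e)) - clip (lev j) (s t)| ^ p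
      = ∑ t, ∑ i ∈ Λ, |(∑ e, κ e * Low.clip (Low.lv i) (σ t e)) - Low.clip (Low.lv i) (s t)| ^ p := by
    apply Finset.sum_congr rfl; intro t _
    rw [hΛ, ← sum_range_eq_image N
      (fun i => |(∑ e, κ e * Low.clip (Low.lv i) (σ t e)) - Low.clip (Low.lv i) (s t)| ^ p)]
    simp only [lev_eq_lv, clip_eq_low]
  rw [heq]
  refine hmain.trans ?_
  have hC : 0 ≤ C0 ^ (2 - p) := Real.rpow_nonneg (by linarith) _
  have hmono : Low.errC p W0 ≤
      (1 / (1 - Low.gr (p * (p - 1))) + (2 + 2 * Low.crow p) * (1 / (1 - Low.gr p)) ^ (1 - p / 2))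
        * (1 + W0) := by
    unfold Low.errC
    have h1 : (2 * W0 + 2 * Low.crow p) ^ (p / 2) ≤ (2 + 2 * Low.crow p) * (1 + W0) := by
      have hbase : 2 * W0 + 2 * Low.crow p ≤ (2 + 2 * Low.crow p) * (1 + W0) := by nlinarith
      have hge1 : 1 ≤ (2 + 2 * Low.crow p) * (1 + W0) := by nlinarith
      calc (2 * W0 + 2 * Low.crow p) ^ (p / 2)
          ≤ ((2 + 2 * Low.crow p) * (1 + W0)) ^ (p / 2) :=
            Real.rpow_le_rpow (by positivity) hbase (by positivity)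
        _ ≤ ((2 + 2 * Low.crow p) * (1 + W0)) ^ (1:ℝ) :=
            Real.rpow_le_rpow_of_exponent_le hge1 (by linarith)
        _ = _ := Real.rpow_one _
    have h2 : 0 ≤ (1 / (1 - Low.gr p)) ^ (1 - p / 2) := Real.rpow_nonneg hd2.le _
    have h3 : (2 * W0 + 2 * Low.crow p) ^ (p / 2) * (1 / (1 - Low.gr p)) ^ (1 - p / 2)
        ≤ (2 + 2 * Low.crow p) * (1 + W0) * (1 / (1 - Low.gr p)) ^ (1 - p / 2) :=
      mul_le_mul_of_nonneg_right h1 h2
    nlinarith
  exact mul_le_mul_of_nonneg_right hmono hC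

end

end Crest.Agent.LpDimRed
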