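/-
Row 232, S0358: proofs of the dyadic lemmas D1, the `p > 2` analysis D3 and the window lemmas D4
of `Crest.Agent.Lib.LpDimRed.Analysis` (helper56).
-/
import Crest.Agent.Lib.LpDimRed.Basic

set_option autoImplicit false

namespace Crest.Agent.LpDimRed.Gt2

noncomputable section

open Finset

theorem lev_add (a b : ℕ) : lev (a + b) = lev a * lev b := by
  unfold lev; rw [pow_add]

theorem half_rpow_lt {q : ℝ} (hq : 0 < q) : ((1 : ℝ) / 2) ^ q < 1 :=
  Real.rpow_lt_one (by norm_num) (by norm_num) hq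

theorem half_rpow_nonneg (q : ℝ) : 0 ≤ ((1 : ℝ) / 2) ^ q :=
  Real.rpow_nonneg (by norm_num) q

theorem lev_rpow (j : ℕ) (q : ℝ) : lev j ^ q = (((1 : ℝ) / 2) ^ q) ^ j := by
  unfold lev
  rw [← Real.rpow_natCast ((1 / 2 : ℝ)) j, ← Real.rpow_natCast (((1 : ℝ) / 2) ^ q) j,
    ← Real.rpow_mul (by norm_num), ← Real.rpow_mul (by norm_num), mul_comm]

/-- Geometric sum along an injective exponent map. -/
theorem sum_geom_inj {r : ℝ} (hr0 : 0 ≤ r) (hr1 : r < 1) (F : Finset ℕ) (f : ℕ → ℕ)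
    (hf : Set.InjOn f F) : ∑ j ∈ F, r ^ f j ≤ 1 / (1 - r) := by
  have h1 : ∑ j ∈ F, r ^ f j = ∑ i ∈ F.image f, r ^ i := (Finset.sum_image hf).symm
  rw [h1, one_div, ← tsum_geometric_of_lt_one hr0 hr1]
  exact (summable_geometric_of_lt_one hr0 hr1).sum_le_tsum _ (fun i _ => pow_nonneg hr0 i)

/-- Levels below `x`: geometric sum. -/
theorem sum_rpow_lev_of_le {q x : ℝ} (hq : 0 < q) (hx : 0 < x) (F : Finset ℕ)
    (hF : ∀ j ∈ F, lev j ≤ x) :
    ∑ j ∈ F, (lev j / x) ^ q ≤ 1 / (1 - ((1 : ℝ) / 2) ^ q) := by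
  have hr1 := half_rpow_lt hq
  have hr0 := half_rpow_nonneg q
  rcases F.eq_empty_or_nonempty with rfl | hne
  · simp only [Finset.sum_empty]
    exact div_nonneg zero_le_one (by linarith)
  set j0 := F.min' hne
  have hj0 : j0 ∈ F := F.min'_mem hne
  calc ∑ j ∈ F, (lev j / x) ^ q ≤ ∑ j ∈ F, (((1 : ℝ) / 2) ^ q) ^ (j - j0) := by
        apply Finset.sum_le_sum
        intro j hj
        have hle : j0 ≤ j := F.min'_le j hj
        rw [← lev_rpow]
        apply Real.rpow_le_rpow (div_nonneg (lev_pos j).le hx.le) _ hq.le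
        have : lev j = lev j0 * lev (j - j0) := by
          rw [← lev_add]; congr 1; omega
        rw [this, div_le_iff₀ hx]
        have h2 := hF j0 hj0
        have h3 := lev_pos (j - j0)
        nlinarith
    _ ≤ _ := sum_geom_inj hr0 hr1 F _ (by
        intro a ha b hb hab
        have h1 : j0 ≤ a := F.min'_le a ha
        have h2 : j0 ≤ b := F.min'_le b hb
        have hab' : a - j0 = b - j0 := hab
        omega)

/-- Levels above `x`: geometric sum. -/
theorem sum_rpow_lev_of_ge {q x : ℝ} (hq : 0 < q) (hx : 0 < x) (F : Finset ℕ)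
    (hF : ∀ j ∈ F, x ≤ lev j) :
    ∑ j ∈ F, (x / lev j) ^ q ≤ 1 / (1 - ((1 : ℝ) / 2) ^ q) := by
  have hr1 := half_rpow_lt hq
  have hr0 := half_rpow_nonneg q
  rcases F.eq_empty_or_nonempty with rfl | hne
  · simp only [Finset.sum_empty]
    exact div_nonneg zero_le_one (by linarith)
  set j1 := F.max' hne
  have hj1 : j1 ∈ F := F.max'_mem hne
  calc ∑ j ∈ F, (x / lev j) ^ q ≤ ∑ j ∈ F, (((1 : ℝ) / 2) ^ q) ^ (j1 - j) := by
        apply Finset.sum_le_sum
        intro j hj
        have hle : j ≤ j1 := F.le_max' j hj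
        rw [← lev_rpow]
        apply Real.rpow_le_rpow (div_nonneg hx.le (lev_pos j).le) _ hq.le
        have h : lev j1 = lev j * lev (j1 - j) := by
          rw [← lev_add]; congr 1; omega
        rw [div_le_iff₀ (lev_pos j)]
        have h2 := hF j1 hj1
        rw [h] at h2
        linarith [mul_comm (lev j) (lev (j1 - j))]
    _ ≤ _ := sum_geom_inj hr0 hr1 F _ (by
        intro a ha b hb hab
        have h1 : a ≤ j1 := F.le_max' a ha
        have h2 : b ≤ j1 := F.le_max' b hb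
        have hab' : j1 - a = j1 - b := hab
        omega)

/-- The levels below `x` sum to at most `2 x`. -/
theorem sum_lev_lt_le {x : ℝ} (F : Finset ℕ) (hF : ∀ j ∈ F, lev j < x) (hx : 0 ≤ x) :
    ∑ j ∈ F, lev j ≤ 2 * x := by
  rcases F.eq_empty_or_nonempty with rfl | hne
  · simp only [Finset.sum_empty]; linarith
  obtain ⟨j, hj⟩ := hne
  have hx' : 0 < x := (lev_pos j).trans (hF j hj)
  have h := sum_rpow_lev_of_le (q := 1) one_pos hx' F (fun j hj => (hF j hj).le)
  simp only [Real.rpow_one] at h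
  have h2 : (1 : ℝ) / (1 - 1 / 2) = 2 := by norm_num
  rw [h2, ← Finset.sum_div, div_le_iff₀ hx'] at h
  linarith

theorem abs_sub_clip_le {β : ℝ} (hβ : 0 ≤ β) (s : ℝ) : |s - clip β s| ≤ |s| := by
  unfold clip
  rcases le_total s β with h1 | h1
  · rw [min_eq_left h1]
    rcases le_total (-β) s with h2 | h2
    · rw [max_eq_right h2]; simp
    · rw [max_eq_left h2, abs_of_nonpos (by linarith), abs_of_nonpos (by linarith)]; linarith
  · rw [min_eq_right h1, max_eq_right (by linarith), abs_of_nonneg (by linarith),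
      abs_of_nonneg (by linarith)]
    linarith

/-! ### D1 -/

theorem dyadic_clip_lt2 (p : ℝ) (hp1 : 1 < p) (hp2 : p < 2) :
    ∃ B : ℝ, 0 < B ∧ ∀ (N : ℕ) (s : ℝ), |s| ≤ 1 →
      ∑ j ∈ range N, lev j ^ (p - 2) * clip (lev j) s ^ 2 ≤ B * |s| ^ p := by
  have hq1 : 0 < 2 - p := by linarith
  have hq2 : 0 < p := by linarith
  have hr1 := half_rpow_lt hq1
  have hr2 := half_rpow_lt hq2
  refine ⟨1 / (1 - ((1 : ℝ) / 2) ^ (2 - p)) + 1 / (1 - ((1 : ℝ) / 2) ^ p), ?_, ?_⟩
  · have h1 : 0 < 1 - ((1 : ℝ) / 2) ^ (2 - p) := by linarith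
    have h2 : 0 < 1 - ((1 : ℝ) / 2) ^ p := by linarith
    positivity
  intro N s _
  rcases eq_or_ne s 0 with rfl | hs0
  · simp only [clip_zero_right _ (lev_pos _).le, abs_zero, Real.zero_rpow hq2.ne']
    simp
  have ha : 0 < |s| := abs_pos.mpr hs0
  rw [← Finset.sum_filter_add_sum_filter_not (range N) (fun j => |s| ≤ lev j), add_mul]
  apply add_le_add
  · calc _ ≤ ∑ j ∈ (range N).filter (fun j => |s| ≤ lev j), |s| ^ p * (|s| / lev j) ^ (2 - p) := by
          apply Finset.sum_le_sum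
          intro j hj
          have hj' := (Finset.mem_filter.mp hj).2
          have hl := lev_pos j
          rw [clip_of_abs_le hj', ← sq_abs s, Real.div_rpow ha.le hl.le]
          have h1 : |s| ^ p * (|s| ^ (2 - p) / lev j ^ (2 - p)) =
              (|s| ^ p * |s| ^ (2 - p)) * (lev j ^ (2 - p))⁻¹ := by
            rw [div_eq_mul_inv]; ring
          rw [h1, ← Real.rpow_add ha, ← Real.rpow_neg hl.le]
          have h2 : p + (2 - p) = 2 := by ring
          have h3 : -(2 - p) = p - 2 := by ring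
          rw [h2, h3, Real.rpow_two, mul_comm]
      _ = |s| ^ p * ∑ j ∈ (range N).filter (fun j => |s| ≤ lev j), (|s| / lev j) ^ (2 - p) := by
          rw [Finset.mul_sum]
      _ ≤ |s| ^ p * (1 / (1 - ((1 : ℝ) / 2) ^ (2 - p))) := by
          apply mul_le_mul_of_nonneg_left _ (Real.rpow_nonneg ha.le p)
          exact sum_rpow_lev_of_ge hq1 ha _ (fun j hj => (Finset.mem_filter.mp hj).2)
      _ = _ := by ring
  · calc _ ≤ ∑ j ∈ (range N).filter (fun j => ¬ |s| ≤ lev j), |s| ^ p * (lev j / |s|) ^ p := by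
          apply Finset.sum_le_sum
          intro j hj
          have hj' : lev j < |s| := not_le.mp (Finset.mem_filter.mp hj).2
          have hl := lev_pos j
          have hc : clip (lev j) s ^ 2 = lev j ^ 2 := by
            rw [← sq_abs, abs_clip hl.le, min_eq_right hj'.le]
          rw [hc, Real.div_rpow hl.le ha.le]
          have h1 : |s| ^ p * (lev j ^ p / |s| ^ p) = lev j ^ p := by
            have := (Real.rpow_pos_of_pos ha p).ne'
            field_simp
          rw [h1, ← Real.rpow_two (lev j), ← Real.rpow_add hl]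
          have h2 : p - 2 + 2 = p := by ring
          rw [h2]
      _ = |s| ^ p * ∑ j ∈ (range N).filter (fun j => ¬ |s| ≤ lev j), (lev j / |s|) ^ p := by
          rw [Finset.mul_sum]
      _ ≤ |s| ^ p * (1 / (1 - ((1 : ℝ) / 2) ^ p)) := by
          apply mul_le_mul_of_nonneg_left _ (Real.rpow_nonneg ha.le p)
          exact sum_rpow_lev_of_le hq2 ha _
            (fun j hj => (not_le.mp (Finset.mem_filter.mp hj).2).le)
      _ = _ := by ring

theorem dyadic_exc_gt2 (p : ℝ) (hp : 2 < p) :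
    ∃ B : ℝ, 0 < B ∧ ∀ (N : ℕ) (s : ℝ), |s| ≤ 1 →
      ∑ j ∈ range N, lev j ^ (p - 2) * (s - clip (lev j) s) ^ 2 ≤ B * |s| ^ p := by
  have hq : 0 < p - 2 := by linarith
  have hp0 : 0 < p := by linarith
  have hr := half_rpow_lt hq
  refine ⟨1 / (1 - ((1 : ℝ) / 2) ^ (p - 2)), ?_, ?_⟩
  · have h1 : 0 < 1 - ((1 : ℝ) / 2) ^ (p - 2) := by linarith
    positivity
  intro N s _
  rcases eq_or_ne s 0 with rfl | hs0
  · simp only [clip_zero_right _ (lev_pos _).le, abs_zero, Real.zero_rpow hp0.ne']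
    simp
  have ha : 0 < |s| := abs_pos.mpr hs0
  rw [← Finset.sum_filter_add_sum_filter_not (range N) (fun j => |s| ≤ lev j)]
  have h0 : ∑ j ∈ (range N).filter (fun j => |s| ≤ lev j),
      lev j ^ (p - 2) * (s - clip (lev j) s) ^ 2 = 0 := by
    apply Finset.sum_eq_zero
    intro j hj
    rw [clip_of_abs_le (Finset.mem_filter.mp hj).2]; simp
  rw [h0, zero_add]
  calc _ ≤ ∑ j ∈ (range N).filter (fun j => ¬ |s| ≤ lev j), |s| ^ p * (lev j / |s|) ^ (p - 2) := by
        apply Finset.sum_le_sum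
        intro j hj
        have hl := lev_pos j
        have h1 : (s - clip (lev j) s) ^ 2 ≤ |s| ^ 2 := by
          rw [← sq_abs (s - _)]
          exact pow_le_pow_left₀ (abs_nonneg _) (abs_sub_clip_le hl.le s) 2
        have h2 : |s| ^ p * (lev j / |s|) ^ (p - 2) = lev j ^ (p - 2) * |s| ^ 2 := by
          rw [Real.div_rpow hl.le ha.le]
          have h3 : |s| ^ p = |s| ^ (p - 2) * |s| ^ 2 := by
            rw [← Real.rpow_two |s|, ← Real.rpow_add ha]; congr 1; ring
          rw [h3]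
          have := (Real.rpow_pos_of_pos ha (p - 2)).ne'
          field_simp
        rw [h2]
        exact mul_le_mul_of_nonneg_left h1 (Real.rpow_nonneg hl.le _)
    _ = |s| ^ p * ∑ j ∈ (range N).filter (fun j => ¬ |s| ≤ lev j), (lev j / |s|) ^ (p - 2) := by
        rw [Finset.mul_sum]
    _ ≤ |s| ^ p * (1 / (1 - ((1 : ℝ) / 2) ^ (p - 2))) := by
        apply mul_le_mul_of_nonneg_left _ (Real.rpow_nonneg ha.le p)
        exact sum_rpow_lev_of_le hq ha _
          (fun j hj => (not_le.mp (Finset.mem_filter.mp hj).2).le)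
    _ = _ := by ring

/-! ### D3 -/

theorem add_rpow_le {u v p : ℝ} (hu : 0 ≤ u) (hv : 0 ≤ v) (hp : 1 ≤ p) :
    (u + v) ^ p ≤ 2 ^ (p - 1) * (u ^ p + v ^ p) := by
  lift u to NNReal using hu
  lift v to NNReal using hv
  exact_mod_cast NNReal.rpow_add_le_mul_rpow_add_rpow u v hp

/-- The constant of the high-level sequence lemma. -/
def cHigh (p : ℝ) : ℝ := 3 + 1 / (4 * (1 - ((1 : ℝ) / 2) ^ (p - 2)))

theorem cHigh_pos {p : ℝ} (hp : 2 < p) : 0 < cHigh p := by
  have hr := half_rpow_lt (q := p - 2) (by linarith)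
  have h1 : 0 < 1 - ((1 : ℝ) / 2) ^ (p - 2) := by linarith
  unfold cHigh; positivity

/-- `ℓ¹` bound from a pointwise bound and a weighted `ℓ²` bound. -/
theorem seq_high {p : ℝ} (hp : 2 < p) (H : Finset ℕ) (δ : ℕ → ℝ) (M A : ℝ) (hM : 0 < M)
    (hA : 0 ≤ A) (hδ : ∀ j ∈ H, |δ j| ≤ M * lev j)
    (hS : ∑ j ∈ H, lev j ^ (p - 2) * δ j ^ 2 ≤ A) :
    (∑ j ∈ H, |δ j|) ^ p ≤ cHigh p ^ p * (M ^ (p - 2) * A) := by
  have hp0 : 0 < p := by linarith
  have hq : 0 < p - 2 := by linarith
  rcases hA.eq_or_lt with rfl | hApos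
  · have h0 : ∀ j ∈ H, δ j = 0 := by
      intro j hj
      have hnn : ∀ i ∈ H, 0 ≤ lev i ^ (p - 2) * δ i ^ 2 := fun i _ =>
        mul_nonneg (Real.rpow_nonneg (lev_pos i).le _) (sq_nonneg _)
      have h1 := (Finset.sum_eq_zero_iff_of_nonneg hnn).mp (le_antisymm hS
        (Finset.sum_nonneg hnn)) j hj
      have h2 : lev j ^ (p - 2) ≠ 0 := (Real.rpow_pos_of_pos (lev_pos j) _).ne'
      simpa [h2] using h1
    have h1 : ∑ j ∈ H, |δ j| = 0 := Finset.sum_eq_zero (fun j hj => by simp [h0 j hj])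
    rw [h1, Real.zero_rpow hp0.ne']
    simp
  -- the threshold
  set x : ℝ := (A / M ^ 2) ^ (1 / p) with hx
  have hdiv : 0 < A / M ^ 2 := by positivity
  have hxpos : 0 < x := Real.rpow_pos_of_pos hdiv _
  have hxp : x ^ p = A / M ^ 2 := by
    rw [hx, ← Real.rpow_mul hdiv.le, one_div, inv_mul_cancel₀ hp0.ne', Real.rpow_one]
  have hAeq : A = M ^ 2 * x ^ p := by rw [hxp]; field_simp
  set r : ℝ := ((1 : ℝ) / 2) ^ (p - 2) with hr
  have hr1 : r < 1 := half_rpow_lt hq
  have h1r : 0 < 1 - r := by linarith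
  have hxpm : 0 < x ^ (p - 1) := Real.rpow_pos_of_pos hxpos _
  have hxp2 : 0 < x ^ (p - 2) := Real.rpow_pos_of_pos hxpos _
  have hxrel : x ^ p = x ^ (p - 1) * x := by
    conv_rhs => rw [← Real.rpow_add_one hxpos.ne']
    congr 1; ring
  have hxrel2 : x ^ (p - 1) = x ^ (p - 2) * x := by
    conv_rhs => rw [← Real.rpow_add_one hxpos.ne']
    congr 1; ring
  -- the sum bound
  have hsum : ∑ j ∈ H, |δ j| ≤ cHigh p * (M * x) := by
    rw [← Finset.sum_filter_add_sum_filter_not H (fun j => lev j < x)]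
    have h1 : ∑ j ∈ H.filter (fun j => lev j < x), |δ j| ≤ M * (2 * x) := by
      calc _ ≤ ∑ j ∈ H.filter (fun j => lev j < x), M * lev j :=
            Finset.sum_le_sum (fun j hj => hδ j (Finset.mem_filter.mp hj).1)
        _ = M * ∑ j ∈ H.filter (fun j => lev j < x), lev j := by rw [Finset.mul_sum]
        _ ≤ _ := mul_le_mul_of_nonneg_left
            (sum_lev_lt_le _ (fun j hj => (Finset.mem_filter.mp hj).2) hxpos.le) hM.le
    -- Young with parameter `lam = 2 / (M x^(p-1))`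
    set lam : ℝ := 2 / (M * x ^ (p - 1)) with hlam
    have hlampos : 0 < lam := by positivity
    have h2 : ∑ j ∈ H.filter (fun j => ¬ lev j < x), |δ j| ≤
        (lam / 2) * A + (1 / (2 * lam)) * (1 / x ^ (p - 2) * (1 / (1 - r))) := by
      have hF : ∀ j ∈ H.filter (fun j => ¬ lev j < x), x ≤ lev j :=
        fun j hj => not_lt.mp (Finset.mem_filter.mp hj).2
      have hpt : ∀ j ∈ H.filter (fun j => ¬ lev j < x), |δ j| ≤
          (lam / 2) * (lev j ^ (p - 2) * δ j ^ 2) +
            (1 / (2 * lam)) * (1 / x ^ (p - 2) * (x / lev j) ^ (p - 2)) := by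
        intro j _
        have hl := lev_pos j
        set y := lev j ^ (p - 2) with hy
        have hypos : 0 < y := Real.rpow_pos_of_pos hl _
        have h3 : 1 / x ^ (p - 2) * (x / lev j) ^ (p - 2) = 1 / y := by
          rw [Real.div_rpow hxpos.le hl.le]
          field_simp
          exact hy
        rw [h3, ← sq_abs (δ j)]
        have h4 : 0 ≤ (lam * y * |δ j| - 1) ^ 2 := sq_nonneg _
        have h5 : (lam / 2) * (y * |δ j| ^ 2) + (1 / (2 * lam)) * (1 / y) - |δ j|
            = (lam * y * |δ j| - 1) ^ 2 / (2 * lam * y) := by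
          field_simp
          ring
        have h6 : 0 ≤ (lam * y * |δ j| - 1) ^ 2 / (2 * lam * y) := by positivity
        linarith
      calc _ ≤ ∑ j ∈ H.filter (fun j => ¬ lev j < x), ((lam / 2) * (lev j ^ (p - 2) * δ j ^ 2) +
            (1 / (2 * lam)) * (1 / x ^ (p - 2) * (x / lev j) ^ (p - 2))) :=
            Finset.sum_le_sum hpt
        _ = (lam / 2) * ∑ j ∈ H.filter (fun j => ¬ lev j < x), (lev j ^ (p - 2) * δ j ^ 2) +
            (1 / (2 * lam)) * (1 / x ^ (p - 2) *
              ∑ j ∈ H.filter (fun j => ¬ lev j < x), (x / lev j) ^ (p - 2)) := by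
            rw [Finset.sum_add_distrib, Finset.mul_sum, Finset.mul_sum, Finset.mul_sum]
        _ ≤ _ := by
            apply add_le_add
            · apply mul_le_mul_of_nonneg_left _ (by positivity)
              refine le_trans (Finset.sum_le_sum_of_subset_of_nonneg
                (Finset.filter_subset _ _) ?_) hS
              intro i _ _
              exact mul_nonneg (Real.rpow_nonneg (lev_pos i).le _) (sq_nonneg _)
            · apply mul_le_mul_of_nonneg_left _ (by positivity)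
              apply mul_le_mul_of_nonneg_left _ (by positivity)
              exact sum_rpow_lev_of_ge hq hxpos _ hF
    have h3 : (lam / 2) * A = M * x := by
      rw [hAeq, hlam, hxrel]
      field_simp
    have h4 : (1 / (2 * lam)) * (1 / x ^ (p - 2) * (1 / (1 - r))) =
        1 / (4 * (1 - r)) * (M * x) := by
      rw [hlam, hxrel2]
      field_simp
      ring
    have h5 : cHigh p * (M * x) = (3 + 1 / (4 * (1 - r))) * (M * x) := rfl
    rw [h5]
    have h6 : 0 < M * x := by positivity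
    nlinarith
  -- conclusion
  have hnn : 0 ≤ ∑ j ∈ H, |δ j| := Finset.sum_nonneg (fun j _ => abs_nonneg _)
  calc (∑ j ∈ H, |δ j|) ^ p ≤ (cHigh p * (M * x)) ^ p := Real.rpow_le_rpow hnn hsum hp0.le
    _ = cHigh p ^ p * (M ^ p * x ^ p) := by
        rw [Real.mul_rpow (cHigh_pos hp).le (by positivity), Real.mul_rpow hM.le hxpos.le]
    _ = cHigh p ^ p * (M ^ (p - 2) * A) := by
        congr 1
        rw [hxp]
        have h3 : M ^ p = M ^ (p - 2) * M ^ 2 := by
          rw [← Real.rpow_two M, ← Real.rpow_add hM]; congr 1; ring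
        rw [h3]
        field_simp

/-- Number of levels in a ratio range. -/
theorem mid_card (N : ℕ) {a C0 : ℝ} (hC0 : 1 ≤ C0) :
    (((range N).filter (fun j => a / (2 * C0) ≤ lev j ∧ lev j < a)).card : ℝ) ≤
      Real.log (2 * C0) / Real.log 2 + 1 := by
  set F := (range N).filter (fun j => a / (2 * C0) ≤ lev j ∧ lev j < a) with hF
  have hlog2 : 0 < Real.log 2 := Real.log_pos (by norm_num)
  have hC : 0 < 2 * C0 := by linarith
  have hlogC : 0 ≤ Real.log (2 * C0) := Real.log_nonneg (by linarith)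
  rcases F.eq_empty_or_nonempty with h0 | hne
  · rw [h0]; simp only [Finset.card_empty, Nat.cast_zero]; positivity
  set j0 := F.min' hne
  set j1 := F.max' hne
  have hj0 := (Finset.mem_filter.mp (F.min'_mem hne)).2
  have hj1 := (Finset.mem_filter.mp (F.max'_mem hne)).2
  have hle : j0 ≤ j1 := F.min'_le _ (F.max'_mem hne)
  have hsub : F ⊆ Finset.Icc j0 j1 := fun j hj =>
    Finset.mem_Icc.mpr ⟨F.min'_le j hj, F.le_max' j hj⟩
  have hcard : (F.card : ℝ) ≤ (j1 - j0 : ℕ) + 1 := by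
    have := Finset.card_le_card hsub
    rw [Nat.card_Icc] at this
    have h2 : F.card ≤ (j1 - j0) + 1 := by omega
    exact_mod_cast h2
  have hapos : 0 < a := (lev_pos j0).trans hj0.2
  have hlev : lev j0 = lev j1 * ((2 : ℝ) ^ (j1 - j0)) := by
    have h1 : lev j1 = lev j0 * lev (j1 - j0) := by
      rw [← lev_add]; congr 1; omega
    rw [h1]
    unfold lev
    have h3 : ((1 : ℝ) / 2) ^ (j1 - j0) * (2 : ℝ) ^ (j1 - j0) = 1 := by
      rw [← mul_pow]; norm_num
    rw [mul_assoc, h3, mul_one]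
  have hpow : (2 : ℝ) ^ (j1 - j0) ≤ 2 * C0 := by
    have h1 : a / (2 * C0) * (2 : ℝ) ^ (j1 - j0) ≤ lev j0 := by
      rw [hlev]
      exact mul_le_mul_of_nonneg_right hj1.1 (by positivity)
    have h2 : a / (2 * C0) * (2 : ℝ) ^ (j1 - j0) ≤ a := h1.trans hj0.2.le
    have h3 : a * ((2 : ℝ) ^ (j1 - j0)) ≤ a * (2 * C0) := by
      have h4 : a / (2 * C0) * (2 : ℝ) ^ (j1 - j0) * (2 * C0) ≤ a * (2 * C0) :=
        mul_le_mul_of_nonneg_right h2 hC.le
      have h5 : a / (2 * C0) * (2 : ℝ) ^ (j1 - j0) * (2 * C0) = a * (2 : ℝ) ^ (j1 - j0) := by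
        field_simp
      rwa [h5] at h4
    exact le_of_mul_le_mul_left h3 hapos
  have hlog : ((j1 - j0 : ℕ) : ℝ) * Real.log 2 ≤ Real.log (2 * C0) := by
    have := Real.log_le_log (by positivity) hpow
    rwa [Real.log_pow] at this
  have hdiv : ((j1 - j0 : ℕ) : ℝ) ≤ Real.log (2 * C0) / Real.log 2 := by
    rwa [le_div_iff₀ hlog2]
  linarith

/-- The one-`t` statement of M5. -/
theorem seq_gt2 (p : ℝ) (hp : 2 < p) :
    ∃ C : ℝ, 0 < C ∧ ∀ (s C0 A : ℝ) (Y : ℕ → ℝ) (N : ℕ), 1 ≤ C0 →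
      (∀ j, j < N → |Y j| ≤ C0 * lev j) →
      ∑ j ∈ range N, lev j ^ (p - 2) * (s - Y j) ^ 2 ≤ A →
      (∑ j ∈ range N, |Y j - clip (lev j) s|) ^ p ≤
        C * (Real.log (2 * C0) ^ p * |s| ^ p + C0 ^ (p - 2) * A) := by
  have hp0 : 0 < p := by linarith
  have hp1 : 1 ≤ p := by linarith
  have hlog2 : 0 < Real.log 2 := Real.log_pos (by norm_num)
  set c3 : ℝ := 4 / Real.log 2 with hc3
  have hc3pos : 0 < c3 := by positivity
  set C : ℝ := 2 ^ (p - 1) * (c3 ^ p + cHigh p ^ p * 3 ^ (p - 2)) with hCdef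
  have hcH := cHigh_pos hp
  have hCpos : 0 < C := by positivity
  refine ⟨C, hCpos, ?_⟩
  intro s C0 A Y N hC0 hY hA
  have hC0pos : 0 < C0 := by linarith
  have hC2 : 0 < 2 * C0 := by linarith
  set a := |s| with ha
  have ha0 : 0 ≤ a := abs_nonneg s
  have hAnn : 0 ≤ A := le_trans (Finset.sum_nonneg (fun j _ =>
    mul_nonneg (Real.rpow_nonneg (lev_pos j).le _) (sq_nonneg _))) hA
  set L := Real.log (2 * C0) with hL
  have hLlog2 : Real.log 2 ≤ L := Real.log_le_log (by norm_num) (by linarith)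
  have hLpos : 0 < L := lt_of_lt_of_le hlog2 hLlog2
  -- split
  set low := (range N).filter (fun j => 2 * C0 * lev j < a) with hlow
  set H := (range N).filter (fun j => ¬ 2 * C0 * lev j < a) with hHdef
  set D := ∑ j ∈ H, |s - Y j| with hD
  have hDnn : 0 ≤ D := Finset.sum_nonneg (fun j _ => abs_nonneg _)
  -- low levels
  have hlowB : ∑ j ∈ low, |Y j - clip (lev j) s| ≤ 2 * a := by
    have hlowpt : ∀ j ∈ low, |Y j - clip (lev j) s| ≤ 2 * C0 * lev j := by
      intro j hj
      have hjN : j < N := Finset.mem_range.mp (Finset.mem_filter.mp hj).1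
      have h1 := hY j hjN
      have h2 := abs_clip_le (s := s) (lev_pos j).le
      have h3 := abs_sub (Y j) (clip (lev j) s)
      nlinarith [lev_pos j]
    have hx0 : 0 ≤ a / (2 * C0) := by positivity
    have hF : ∀ j ∈ low, lev j < a / (2 * C0) := by
      intro j hj
      have := (Finset.mem_filter.mp hj).2
      rw [lt_div_iff₀ hC2]; linarith
    calc _ ≤ ∑ j ∈ low, 2 * C0 * lev j := Finset.sum_le_sum hlowpt
      _ = 2 * C0 * ∑ j ∈ low, lev j := by rw [Finset.mul_sum]
      _ ≤ 2 * C0 * (2 * (a / (2 * C0))) :=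
          mul_le_mul_of_nonneg_left (sum_lev_lt_le low hF hx0) hC2.le
      _ = 2 * a := by field_simp
  -- excess at high levels
  have hexc : ∑ j ∈ H, |s - clip (lev j) s| ≤ a * (L / Real.log 2 + 1) := by
    have h1 : ∑ j ∈ H, |s - clip (lev j) s| =
        ∑ j ∈ H.filter (fun j => lev j < a), |s - clip (lev j) s| +
        ∑ j ∈ H.filter (fun j => ¬ lev j < a), |s - clip (lev j) s| :=
      (Finset.sum_filter_add_sum_filter_not _ _ _).symm
    have h2 : ∑ j ∈ H.filter (fun j => ¬ lev j < a), |s - clip (lev j) s| = 0 := by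
      apply Finset.sum_eq_zero
      intro j hj
      rw [clip_of_abs_le (not_lt.mp (Finset.mem_filter.mp hj).2)]; simp
    have h3 : ∑ j ∈ H.filter (fun j => lev j < a), |s - clip (lev j) s| ≤
        ∑ j ∈ (range N).filter (fun j => a / (2 * C0) ≤ lev j ∧ lev j < a), a := by
      refine le_trans (Finset.sum_le_sum (fun j _ => abs_sub_clip_le (lev_pos j).le s)) ?_
      apply Finset.sum_le_sum_of_subset_of_nonneg
      · intro j hj
        obtain ⟨hj1, hj2⟩ := Finset.mem_filter.mp hj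
        obtain ⟨hj3, hj4⟩ := Finset.mem_filter.mp hj1
        refine Finset.mem_filter.mpr ⟨hj3, ?_, hj2⟩
        rw [div_le_iff₀ hC2]
        linarith [not_lt.mp hj4]
      · intro _ _ _; exact ha0
    rw [Finset.sum_const, nsmul_eq_mul] at h3
    have h4 := mid_card N (a := a) hC0
    rw [h1, h2, add_zero]
    refine h3.trans ?_
    rw [mul_comm]
    exact mul_le_mul_of_nonneg_left h4 ha0
  -- the high deviations
  have hDbound : D ^ p ≤ cHigh p ^ p * ((3 * C0) ^ (p - 2) * A) := by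
    apply seq_high hp H (fun j => s - Y j) (3 * C0) A (by positivity) hAnn
    · intro j hj
      obtain ⟨hj1, hj2⟩ := Finset.mem_filter.mp hj
      have hjN := Finset.mem_range.mp hj1
      have h1 := hY j hjN
      have h2 : a ≤ 2 * C0 * lev j := not_lt.mp hj2
      have h3 := abs_sub s (Y j)
      nlinarith [lev_pos j]
    · refine le_trans (Finset.sum_le_sum_of_subset_of_nonneg (Finset.filter_subset _ _) ?_) hA
      intro i _ _
      exact mul_nonneg (Real.rpow_nonneg (lev_pos i).le _) (sq_nonneg _)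
  -- total
  have hG : ∑ j ∈ range N, |Y j - clip (lev j) s| ≤ a * (c3 * L) + D := by
    rw [← Finset.sum_filter_add_sum_filter_not (range N) (fun j => 2 * C0 * lev j < a)]
    have h1 : ∑ j ∈ H, |Y j - clip (lev j) s| ≤
        ∑ j ∈ H, |s - clip (lev j) s| + D := by
      rw [hD, ← Finset.sum_add_distrib]
      apply Finset.sum_le_sum
      intro j _
      have := abs_sub_le (Y j) s (clip (lev j) s)
      rw [abs_sub_comm (Y j) s] at this
      linarith
    have h2 : a * (L / Real.log 2 + 1) + 2 * a ≤ a * (c3 * L) := by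
      have h3 : 3 ≤ 3 * (L / Real.log 2) := by
        have : 1 ≤ L / Real.log 2 := by rwa [one_le_div hlog2]
        linarith
      have h4 : c3 * L = 4 * (L / Real.log 2) := by rw [hc3]; ring
      rw [h4]
      nlinarith
    linarith
  have hGnn : 0 ≤ ∑ j ∈ range N, |Y j - clip (lev j) s| :=
    Finset.sum_nonneg (fun j _ => abs_nonneg _)
  have hu : 0 ≤ a * (c3 * L) := by positivity
  have hadd : (a * (c3 * L) + D) ^ p ≤ 2 ^ (p - 1) * ((a * (c3 * L)) ^ p + D ^ p) :=
    add_rpow_le hu hDnn hp1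
  have h3C : (3 * C0) ^ (p - 2) = 3 ^ (p - 2) * C0 ^ (p - 2) :=
    Real.mul_rpow (by norm_num) hC0pos.le
  have hcpow : (a * (c3 * L)) ^ p = c3 ^ p * (L ^ p * a ^ p) := by
    rw [Real.mul_rpow ha0 (by positivity), Real.mul_rpow hc3pos.le hLpos.le]; ring
  have hLa : 0 ≤ L ^ p * a ^ p := by positivity
  have hCA : 0 ≤ C0 ^ (p - 2) * A := by positivity
  have hc3p : 0 < c3 ^ p := by positivity
  have hcHp : 0 < cHigh p ^ p * 3 ^ (p - 2) := by positivity
  calc (∑ j ∈ range N, |Y j - clip (lev j) s|) ^ p ≤ (a * (c3 * L) + D) ^ p :=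
        Real.rpow_le_rpow hGnn hG hp0.le
    _ ≤ 2 ^ (p - 1) * ((a * (c3 * L)) ^ p + D ^ p) := hadd
    _ ≤ 2 ^ (p - 1) * (c3 ^ p * (L ^ p * a ^ p) + cHigh p ^ p * 3 ^ (p - 2) * (C0 ^ (p - 2) * A)) := by
        apply mul_le_mul_of_nonneg_left _ (by positivity)
        rw [hcpow]
        have : D ^ p ≤ cHigh p ^ p * 3 ^ (p - 2) * (C0 ^ (p - 2) * A) := by
          rw [h3C] at hDbound
          calc D ^ p ≤ _ := hDbound
            _ = _ := by ring
        linarith
    _ ≤ C * (L ^ p * a ^ p + C0 ^ (p - 2) * A) := by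
        rw [hCdef]
        have h2 : 0 < (2 : ℝ) ^ (p - 1) := by positivity
        have h4 : c3 ^ p * (L ^ p * a ^ p) + cHigh p ^ p * 3 ^ (p - 2) * (C0 ^ (p - 2) * A) ≤
            (c3 ^ p + cHigh p ^ p * 3 ^ (p - 2)) * (L ^ p * a ^ p + C0 ^ (p - 2) * A) := by
          nlinarith [mul_nonneg hc3p.le hCA, mul_nonneg hcHp.le hLa]
        calc _ ≤ 2 ^ (p - 1) * ((c3 ^ p + cHigh p ^ p * 3 ^ (p - 2)) *
              (L ^ p * a ^ p + C0 ^ (p - 2) * A)) := mul_le_mul_of_nonneg_left h4 h2.le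
          _ = _ := by ring

/-- M5. -/
theorem analysis_gt2 (p : ℝ) (hp : 2 < p) :
    ∃ Cp : ℝ, 0 < Cp ∧ ∀ {T E : Type} [Fintype T] [Fintype E] (κ : E → ℝ) (σ : T → E → ℝ)
      (s : T → ℝ) (C0 W0 : ℝ) (N : ℕ), 1 ≤ C0 → 0 ≤ W0 → ∑ e, |κ e| ≤ C0 →
      (∀ e, ∑ t, |σ t e| ^ p ≤ 1) → (∀ t, ∑ e, κ e * σ t e = s t) → (∑ t, |s t| ^ p ≤ 1) →
      (∑ t, ∑ j ∈ range N,
          lev j ^ (p - 2) * (s t - ∑ e, κ e * clip (lev j) (σ t e)) ^ 2 ≤ W0) →
      ∑ t, (∑ j ∈ range N, |(∑ e, κ e * clip (lev j) (σ t e)) - clip (lev j) (s t)|) ^ p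
        ≤ Cp * (Real.log (2 * C0) ^ p + C0 ^ (p - 2) * W0) := by
  obtain ⟨C, hC, hseq⟩ := seq_gt2 p hp
  refine ⟨C, hC, ?_⟩
  intro T E _ _ κ σ s C0 W0 N hC0 hW0 hκ _ _ hs hW
  have hC0pos : 0 < C0 := by linarith
  have hL : 0 ≤ Real.log (2 * C0) := Real.log_nonneg (by linarith)
  have hLp : 0 ≤ Real.log (2 * C0) ^ p := Real.rpow_nonneg hL p
  have hCp : 0 ≤ C0 ^ (p - 2) := Real.rpow_nonneg hC0pos.le _
  calc _ ≤ ∑ t, C * (Real.log (2 * C0) ^ p * |s t| ^ p + C0 ^ (p - 2) *
          ∑ j ∈ range N, lev j ^ (p - 2) * (s t - ∑ e, κ e * clip (lev j) (σ t e)) ^ 2) := by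
        apply Finset.sum_le_sum
        intro t _
        apply hseq (s t) C0 _ (fun j => ∑ e, κ e * clip (lev j) (σ t e)) N hC0 _ le_rfl
        intro j _
        calc |∑ e, κ e * clip (lev j) (σ t e)| ≤ ∑ e, |κ e * clip (lev j) (σ t e)| :=
              Finset.abs_sum_le_sum_abs _ _
          _ ≤ ∑ e, |κ e| * lev j := by
              apply Finset.sum_le_sum
              intro e _
              rw [abs_mul]
              exact mul_le_mul_of_nonneg_left (abs_clip_le (lev_pos j).le) (abs_nonneg _)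
          _ = (∑ e, |κ e|) * lev j := by rw [Finset.sum_mul]
          _ ≤ C0 * lev j := mul_le_mul_of_nonneg_right hκ (lev_pos j).le
    _ = C * (Real.log (2 * C0) ^ p * ∑ t, |s t| ^ p + C0 ^ (p - 2) *
          ∑ t, ∑ j ∈ range N, lev j ^ (p - 2) * (s t - ∑ e, κ e * clip (lev j) (σ t e)) ^ 2) := by
        rw [← Finset.mul_sum, Finset.sum_add_distrib, ← Finset.mul_sum, ← Finset.mul_sum]
    _ ≤ _ := by
        apply mul_le_mul_of_nonneg_left _ hC.le
        apply add_le_add
        · calc _ ≤ Real.log (2 * C0) ^ p * 1 := mul_le_mul_of_nonneg_left hs hLp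
            _ = _ := mul_one _
        · exact mul_le_mul_of_nonneg_left hW hCp

/-! ### D4 -/

theorem sum_comp_le (S T : Finset ℕ) (φ : ℕ → ℕ) (f : ℕ → ℝ) (hf : ∀ i, 0 ≤ f i)
    (hinj : Set.InjOn φ S) (hmap : ∀ j ∈ S, φ j ∈ T) : ∑ j ∈ S, f (φ j) ≤ ∑ i ∈ T, f i := by
  rw [← Finset.sum_image hinj]
  apply Finset.sum_le_sum_of_subset_of_nonneg
  · intro i hi
    obtain ⟨j, hj, rfl⟩ := Finset.mem_image.mp hi
    exact hmap j hj
  · intro i _ _
    exact hf i

theorem sum_sub_right_le (N v : ℕ) (g : ℕ → ℝ) (hg0 : g 0 = 0) :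
    ∑ j ∈ range N, |g (j - v)| ≤ ∑ j ∈ range N, |g j| := by
  rw [← Finset.sum_filter_add_sum_filter_not (range N) (fun j => v < j)]
  have h0 : ∑ j ∈ (range N).filter (fun j => ¬ v < j), |g (j - v)| = 0 := by
    apply Finset.sum_eq_zero
    intro j hj
    have h1 : j - v = 0 := by
      have := (Finset.mem_filter.mp hj).2
      omega
    rw [h1, hg0, abs_zero]
  rw [h0, add_zero]
  apply sum_comp_le _ _ (fun j => j - v) (fun i => |g i|) (fun i => abs_nonneg _)
  · intro a ha b hb hab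
    have h1 : v < a := (Finset.mem_filter.mp ha).2
    have h2 : v < b := (Finset.mem_filter.mp hb).2
    have h3 : a - v = b - v := hab
    omega
  · intro j hj
    have h1 := Finset.mem_range.mp (Finset.mem_filter.mp hj).1
    exact Finset.mem_range.mpr (by omega)

theorem sum_sub_left_le (Y j N : ℕ) (hj : j < N) (g : ℕ → ℝ) (hg0 : g 0 = 0) :
    ∑ u ∈ range Y, |g (j - u)| ≤ ∑ i ∈ range N, |g i| := by
  rw [← Finset.sum_filter_add_sum_filter_not (range Y) (fun u => u < j)]
  have h0 : ∑ u ∈ (range Y).filter (fun u => ¬ u < j), |g (j - u)| = 0 := by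
    apply Finset.sum_eq_zero
    intro u hu
    have h1 : j - u = 0 := by
      have := (Finset.mem_filter.mp hu).2
      omega
    rw [h1, hg0, abs_zero]
  rw [h0, add_zero]
  apply sum_comp_le _ _ (fun u => j - u) (fun i => |g i|) (fun i => abs_nonneg _)
  · intro a ha b hb hab
    have h1 : a < j := (Finset.mem_filter.mp ha).2
    have h2 : b < j := (Finset.mem_filter.mp hb).2
    have h3 : j - a = j - b := hab
    omega
  · intro u _
    exact Finset.mem_range.mpr (by omega)

theorem rpow_eq_mul_rpow {b p : ℝ} (hb : 0 ≤ b) (hp : 1 ≤ p) : b ^ p = b * b ^ (p - 1) := by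
  have h := Real.rpow_one_add' hb (y := p - 1) (by linarith)
  rwa [show 1 + (p - 1) = p by ring] at h

theorem window_young (p : ℝ) (hp : 1 ≤ p) (Y N : ℕ) (hY : 1 ≤ Y) (g : ℕ → ℝ) (hg0 : g 0 = 0) :
    ∑ j ∈ range N, |(1 / (Y : ℝ)) * ∑ u ∈ range Y, g (j - u)| ^ p
      ≤ (Y : ℝ) ^ (1 - p) * (∑ j ∈ range N, |g j|) ^ p := by
  have hYpos : (0 : ℝ) < Y := by exact_mod_cast hY
  set G := ∑ j ∈ range N, |g j| with hG
  have hG0 : 0 ≤ G := Finset.sum_nonneg (fun _ _ => abs_nonneg _)
  set b : ℕ → ℝ := fun j => (1 / (Y : ℝ)) * ∑ u ∈ range Y, |g (j - u)| with hb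
  have hb0 : ∀ j, 0 ≤ b j := fun j =>
    mul_nonneg (by positivity) (Finset.sum_nonneg (fun _ _ => abs_nonneg _))
  have hbG : ∀ j ∈ range N, b j ≤ G / Y := by
    intro j hj
    have h1 := sum_sub_left_le Y j N (Finset.mem_range.mp hj) g hg0
    have h2 : (1 / (Y : ℝ)) * ∑ u ∈ range Y, |g (j - u)| ≤ (1 / (Y : ℝ)) * G :=
      mul_le_mul_of_nonneg_left h1 (by positivity)
    calc b j ≤ (1 / (Y : ℝ)) * G := h2
      _ = G / Y := by ring
  have habs : ∀ j, |(1 / (Y : ℝ)) * ∑ u ∈ range Y, g (j - u)| ≤ b j := by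
    intro j
    rw [abs_mul, abs_of_pos (by positivity : (0 : ℝ) < 1 / Y)]
    exact mul_le_mul_of_nonneg_left (Finset.abs_sum_le_sum_abs _ _) (by positivity)
  have hsumb : ∑ j ∈ range N, b j ≤ G := by
    rw [hb]
    simp only
    rw [← Finset.mul_sum, Finset.sum_comm]
    have h1 : ∑ u ∈ range Y, ∑ j ∈ range N, |g (j - u)| ≤ ∑ _u ∈ range Y, G :=
      Finset.sum_le_sum (fun u _ => sum_sub_right_le N u g hg0)
    rw [Finset.sum_const, Finset.card_range, nsmul_eq_mul] at h1
    calc _ ≤ (1 / (Y : ℝ)) * ((Y : ℝ) * G) := mul_le_mul_of_nonneg_left h1 (by positivity)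
      _ = G := by field_simp
  have hp1 : 0 ≤ p - 1 := by linarith
  calc _ ≤ ∑ j ∈ range N, b j * (G / Y) ^ (p - 1) := by
        apply Finset.sum_le_sum
        intro j hj
        calc _ ≤ b j ^ p := Real.rpow_le_rpow (abs_nonneg _) (habs j) (by linarith)
          _ = b j * b j ^ (p - 1) := rpow_eq_mul_rpow (hb0 j) hp
          _ ≤ _ := mul_le_mul_of_nonneg_left (Real.rpow_le_rpow (hb0 j) (hbG j hj) hp1) (hb0 j)
    _ = (∑ j ∈ range N, b j) * (G / Y) ^ (p - 1) := by rw [Finset.sum_mul]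
    _ ≤ G * (G / Y) ^ (p - 1) :=
        mul_le_mul_of_nonneg_right hsumb (Real.rpow_nonneg (by positivity) _)
    _ = _ := by
        rw [Real.div_rpow hG0 hYpos.le, rpow_eq_mul_rpow hG0 hp, show 1 - p = -(p - 1) by ring,
          Real.rpow_neg hYpos.le]
        field_simp

theorem clip_neg (β s : ℝ) (hβ : 0 ≤ β) : clip β (-s) = -clip β s := by
  unfold clip
  rcases le_total s β with h1 | h1
  · rcases le_total (-β) s with h2 | h2
    · rw [min_eq_left h1, max_eq_right h2, min_eq_left (by linarith), max_eq_right (by linarith)]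
    · rw [min_eq_left h1, max_eq_left h2, min_eq_right (by linarith), max_eq_right (by linarith)]
      ring
  · have h2 : min (-s) β = -s := min_eq_left (by linarith)
    have h3 : max (-β) (-s) = -β := max_eq_left (by linarith)
    have h4 : max (-β) β = β := max_eq_right (by linarith)
    rw [min_eq_right h1, h2, h3, h4]

theorem clip_nonneg_le {β a : ℝ} (hβ : 0 ≤ β) (ha : 0 ≤ a) : clip β a = min a β := by
  unfold clip
  exact max_eq_right (le_min (by linarith) (by linarith))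

/-- The ideal soft-window kernel at slope `s`. -/
def ann (Y L : ℕ) (s : ℝ) (j : ℕ) : ℝ :=
  (1 / (Y : ℝ)) * ∑ u ∈ range Y, (clip (lev (j - L - u)) s - clip (lev (j - u)) s)

theorem ann_neg (Y L : ℕ) (s : ℝ) (j : ℕ) : ann Y L (-s) j = -ann Y L s j := by
  unfold ann
  simp only [clip_neg _ _ (lev_pos _).le]
  rw [← mul_neg, ← Finset.sum_neg_distrib]
  congr 1
  apply Finset.sum_congr rfl
  intro u _
  ring

/-- The trapezoid. -/
def tz (Y L l : ℕ) : ℝ := (1 / (Y : ℝ)) * ∑ u ∈ range Y, (if u < l ∧ l ≤ L + u then (1 : ℝ) else 0)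

theorem tz_nonneg (Y L l : ℕ) : 0 ≤ tz Y L l := by
  unfold tz
  apply mul_nonneg (by positivity)
  apply Finset.sum_nonneg
  intro u _
  split_ifs <;> norm_num

theorem tz_le_one (Y L l : ℕ) (hY : 1 ≤ Y) : tz Y L l ≤ 1 := by
  have hYpos : (0 : ℝ) < Y := by exact_mod_cast hY
  unfold tz
  have h1 : ∑ u ∈ range Y, (if u < l ∧ l ≤ L + u then (1 : ℝ) else 0) ≤ ∑ _u ∈ range Y, (1 : ℝ) := by
    apply Finset.sum_le_sum
    intro u _
    split_ifs <;> norm_num
  simp only [Finset.sum_const, Finset.card_range, nsmul_eq_mul, mul_one] at h1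
  rw [one_div, inv_mul_le_iff₀ hYpos]
  linarith

theorem tz_zero (Y L : ℕ) : tz Y L 0 = 0 := by
  unfold tz
  simp

theorem tz_large (Y L l : ℕ) (h : L + Y ≤ l) : tz Y L l = 0 := by
  unfold tz
  apply mul_eq_zero_of_right
  apply Finset.sum_eq_zero
  intro u hu
  have := Finset.mem_range.mp hu
  rw [if_neg]
  omega

theorem tz_one (Y L l : ℕ) (hY : 1 ≤ Y) (h1 : Y ≤ l) (h2 : l ≤ L) : tz Y L l = 1 := by
  have hYpos : (0 : ℝ) < Y := by exact_mod_cast hY
  unfold tz
  have h3 : ∑ u ∈ range Y, (if u < l ∧ l ≤ L + u then (1 : ℝ) else 0) = ∑ _u ∈ range Y, (1 : ℝ) := by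
    apply Finset.sum_congr rfl
    intro u hu
    have := Finset.mem_range.mp hu
    rw [if_pos]
    omega
  rw [h3]
  simp only [Finset.sum_const, Finset.card_range, nsmul_eq_mul, mul_one]
  field_simp

/-- The constant of the ideal window. -/
def lamW (p : ℝ) (Y L : ℕ) : ℝ := ∑ l ∈ range (L + Y), tz Y L l ^ p

theorem lamW_le {p : ℝ} (hp : 0 < p) (Y L : ℕ) (hY : 1 ≤ Y) : lamW p Y L ≤ (L : ℝ) + Y := by
  unfold lamW
  calc _ ≤ ∑ _l ∈ range (L + Y), (1 : ℝ) := by
        apply Finset.sum_le_sum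
        intro l _
        exact Real.rpow_le_one (tz_nonneg _ _ _) (tz_le_one _ _ _ hY) hp.le
    _ = _ := by simp

theorem lamW_ge {p : ℝ} (Y L : ℕ) (hY : 1 ≤ Y) (hYL : Y ≤ L) : (L : ℝ) - Y ≤ lamW p Y L := by
  unfold lamW
  have h1 : ∑ _l ∈ Finset.Icc Y L, (1 : ℝ) ≤ ∑ l ∈ range (L + Y), tz Y L l ^ p := by
    calc _ = ∑ l ∈ Finset.Icc Y L, tz Y L l ^ p := by
          apply Finset.sum_congr rfl
          intro l hl
          obtain ⟨h1, h2⟩ := Finset.mem_Icc.mp hl
          rw [tz_one Y L l hY h1 h2, Real.one_rpow]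
      _ ≤ _ := by
          apply Finset.sum_le_sum_of_subset_of_nonneg
          · intro l hl
            obtain ⟨_, h2⟩ := Finset.mem_Icc.mp hl
            exact Finset.mem_range.mpr (by omega)
          · intro l _ _
            exact Real.rpow_nonneg (tz_nonneg _ _ _) _
  simp only [Finset.sum_const, Nat.card_Icc, nsmul_eq_mul, mul_one] at h1
  have h2 : ((L + 1 - Y : ℕ) : ℝ) = (L : ℝ) + 1 - Y := by
    rw [Nat.cast_sub (by omega)]; push_cast; ring
  rw [h2] at h1
  linarith

/-- Mean value inequality for `x ↦ x^p` on `[0, a]`. -/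
theorem rpow_sub_rpow_le {x y a p : ℝ} (hp : 1 ≤ p) (hy : 0 ≤ y) (hyx : y ≤ x) (hxa : x ≤ a) :
    x ^ p - y ^ p ≤ p * a ^ (p - 1) * (x - y) := by
  have hx : 0 ≤ x := hy.trans hyx
  have hp0 : 0 < p := by linarith
  have hp1 : 0 ≤ p - 1 := by linarith
  rcases hx.eq_or_lt with rfl | hxpos
  · have : y = 0 := le_antisymm hyx hy
    subst this
    simp
  have hs : -1 ≤ y / x - 1 := by
    have : 0 ≤ y / x := div_nonneg hy hx
    linarith
  have h1 := one_add_mul_self_le_rpow_one_add hs hp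
  rw [show 1 + (y / x - 1) = y / x by ring, Real.div_rpow hy hx] at h1
  have hxp : 0 < x ^ p := Real.rpow_pos_of_pos hxpos p
  rw [le_div_iff₀ hxp] at h1
  have h2 : x ^ p = x * x ^ (p - 1) := rpow_eq_mul_rpow hx hp
  have h3 : x ^ (p - 1) ≤ a ^ (p - 1) := Real.rpow_le_rpow hx hxa hp1
  have h4 : (1 + p * (y / x - 1)) * x ^ p = x ^ p + p * x ^ (p - 1) * (y - x) := by
    rw [h2]
    field_simp
  have h5 : x ^ p - y ^ p ≤ p * x ^ (p - 1) * (x - y) := by
    rw [h4] at h1
    linarith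
  have h6 : p * x ^ (p - 1) * (x - y) ≤ p * a ^ (p - 1) * (x - y) := by
    apply mul_le_mul_of_nonneg_right _ (by linarith)
    exact mul_le_mul_of_nonneg_left h3 hp0.le
  linarith

theorem abs_rpow_sub_rpow_le {x y a p : ℝ} (hp : 1 ≤ p) (hx : 0 ≤ x) (hy : 0 ≤ y) (hxa : x ≤ a)
    (hya : y ≤ a) : |x ^ p - y ^ p| ≤ p * a ^ (p - 1) * |x - y| := by
  rcases le_total y x with h | h
  · rw [abs_of_nonneg (by linarith [Real.rpow_le_rpow hy h (by linarith : 0 ≤ p)]),
      abs_of_nonneg (by linarith)]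
    exact rpow_sub_rpow_le hp hy h hxa
  · rw [abs_of_nonpos (by linarith [Real.rpow_le_rpow hx h (by linarith : 0 ≤ p)]),
      abs_of_nonpos (by linarith)]
    have := rpow_sub_rpow_le hp hx h hya
    linarith

theorem lev_strictAnti {a b : ℕ} (h : a < b) : lev b < lev a := by
  unfold lev
  exact pow_lt_pow_right_of_lt_one₀ (by norm_num) (by norm_num) h

theorem ideal_pos (p : ℝ) (hp : 1 < p) (Y L : ℕ) (hY : 1 ≤ Y) (N : ℕ) (a : ℝ)
    (ha : 0 < a) (ha1 : a ≤ 1) (hN : L + Y ≤ N) (hlev : lev (N - L - Y) ≤ a) :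
    |∑ j ∈ range N, |ann Y L a j| ^ p - a ^ p * lamW p Y L| ≤ 4 * p * a ^ p := by
  have hp1 : 1 ≤ p := hp.le
  have hp0 : 0 < p := by linarith
  have hYpos : (0 : ℝ) < Y := by exact_mod_cast hY
  -- the level of `a`
  have hex : ∃ k, lev k < a := by
    obtain ⟨k, hk⟩ := exists_pow_lt_of_lt_one ha (by norm_num : (1 / 2 : ℝ) < 1)
    exact ⟨k, hk⟩
  classical
  set k := Nat.find hex with hk
  have hkspec : lev k < a := Nat.find_spec hex
  have hk0 : k ≠ 0 := by
    intro h0
    rw [h0, lev_zero] at hkspec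
    linarith
  obtain ⟨m, hm⟩ : ∃ m, k = m + 1 := Nat.exists_eq_succ_of_ne_zero hk0
  have hmle : a ≤ lev m := by
    have := Nat.find_min hex (m := m) (by omega)
    exact not_lt.mp this
  have hmlt : lev (m + 1) < a := by rw [← hm]; exact hkspec
  have hNm : m + L + Y ≤ N := by
    by_contra hcon
    have h1 : N - L - Y < m := by omega
    have h2 := lev_strictAnti h1
    linarith
  -- `F`, values
  have hF1 : ∀ x, x ≤ m → clip (lev x) a = a := by
    intro x hx
    apply clip_of_abs_le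
    rw [abs_of_pos ha]
    exact hmle.trans (lev_antitone hx)
  have hF2 : ∀ x, m < x → clip (lev x) a = lev x := by
    intro x hx
    have h1 : lev x ≤ lev (m + 1) := lev_antitone hx
    rw [clip_nonneg_le (lev_pos x).le ha.le, min_eq_right (by linarith)]
  set R : ℕ → ℝ := fun x => if x ≤ m then 0 else lev x with hR
  have hR0 : R 0 = 0 := by simp [hR]
  have hRnn : ∀ x, 0 ≤ R x := by
    intro x
    simp only [hR]
    split_ifs
    · exact le_rfl
    · exact (lev_pos x).le
  have hFR : ∀ x, clip (lev x) a = (if x ≤ m then a else 0) + R x := by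
    intro x
    simp only [hR]
    by_cases hx : x ≤ m
    · rw [if_pos hx, if_pos hx, hF1 x hx, add_zero]
    · rw [if_neg hx, if_neg hx, hF2 x (not_le.mp hx), zero_add]
  set E : ℕ → ℝ := fun j => (1 / (Y : ℝ)) * ∑ u ∈ range Y, (R (j - L - u) - R (j - u)) with hE
  have hdecomp : ∀ j, ann Y L a j = a * tz Y L (j - m) + E j := by
    intro j
    unfold ann tz
    simp only [hE]
    have hrhs : a * ((1 / (Y : ℝ)) * ∑ u ∈ range Y, (if u < j - m ∧ j - m ≤ L + u then (1 : ℝ) else 0)) +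
        (1 / (Y : ℝ)) * ∑ u ∈ range Y, (R (j - L - u) - R (j - u)) =
        (1 / (Y : ℝ)) * ∑ u ∈ range Y, (a * (if u < j - m ∧ j - m ≤ L + u then (1 : ℝ) else 0) +
          (R (j - L - u) - R (j - u))) := by
      rw [Finset.sum_add_distrib, ← Finset.mul_sum]
      ring
    rw [hrhs]
    congr 1
    apply Finset.sum_congr rfl
    intro u _
    rw [hFR, hFR]
    by_cases h1 : j ≤ m + u
    · have h2 : j - L - u ≤ m := by omega
      have h3 : j - u ≤ m := by omega
      have h4 : ¬ (u < j - m ∧ j - m ≤ L + u) := by omega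
      rw [if_pos h2, if_pos h3, if_neg h4]
      ring
    · by_cases h5 : j ≤ m + L + u
      · have h2 : j - L - u ≤ m := by omega
        have h3 : ¬ (j - u ≤ m) := by omega
        have h4 : u < j - m ∧ j - m ≤ L + u := by omega
        rw [if_pos h2, if_neg h3, if_pos h4]
        ring
      · have h2 : ¬ (j - L - u ≤ m) := by omega
        have h3 : ¬ (j - u ≤ m) := by omega
        have h4 : ¬ (u < j - m ∧ j - m ≤ L + u) := by omega
        rw [if_neg h2, if_neg h3, if_neg h4]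
        ring
  -- bounds on `ann`
  have hann0 : ∀ j, 0 ≤ ann Y L a j := by
    intro j
    unfold ann
    apply mul_nonneg (by positivity)
    apply Finset.sum_nonneg
    intro u _
    have h1 : lev (j - u) ≤ lev (j - L - u) := lev_antitone (by omega)
    rw [clip_nonneg_le (lev_pos _).le ha.le, clip_nonneg_le (lev_pos _).le ha.le]
    have := min_le_min_left a h1
    linarith
  have hanna : ∀ j, ann Y L a j ≤ a := by
    intro j
    unfold ann
    have h1 : ∑ u ∈ range Y, (clip (lev (j - L - u)) a - clip (lev (j - u)) a) ≤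
        ∑ _u ∈ range Y, a := by
      apply Finset.sum_le_sum
      intro u _
      rw [clip_nonneg_le (lev_pos _).le ha.le, clip_nonneg_le (lev_pos _).le ha.le]
      have h2 : min a (lev (j - L - u)) ≤ a := min_le_left _ _
      have h3 : 0 ≤ min a (lev (j - u)) := le_min ha.le (lev_pos _).le
      linarith
    simp only [Finset.sum_const, Finset.card_range, nsmul_eq_mul] at h1
    rw [one_div, inv_mul_le_iff₀ hYpos]
    linarith
  -- the error in `ℓ¹`
  have hRS : ∑ j ∈ range N, |R j| ≤ 2 * a := by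
    have h1 : ∑ j ∈ range N, |R j| = ∑ j ∈ (range N).filter (fun j => m < j), lev j := by
      rw [Finset.sum_filter]
      apply Finset.sum_congr rfl
      intro j _
      simp only [hR]
      by_cases hj : j ≤ m
      · rw [if_pos hj, if_neg (by omega), abs_zero]
      · rw [if_neg hj, if_pos (by omega), abs_of_pos (lev_pos j)]
    rw [h1]
    apply sum_lev_lt_le _ _ ha.le
    intro j hj
    have h2 : m < j := (Finset.mem_filter.mp hj).2
    have h3 : lev j ≤ lev (m + 1) := lev_antitone h2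
    linarith
  have hES : ∑ j ∈ range N, |E j| ≤ 4 * a := by
    have h1 : ∀ j, |E j| ≤ (1 / (Y : ℝ)) * ∑ u ∈ range Y, (|R (j - (L + u))| + |R (j - u)|) := by
      intro j
      simp only [hE]
      rw [abs_mul, abs_of_pos (by positivity : (0 : ℝ) < 1 / Y)]
      apply mul_le_mul_of_nonneg_left _ (by positivity)
      refine (Finset.abs_sum_le_sum_abs _ _).trans (Finset.sum_le_sum ?_)
      intro u _
      rw [show j - (L + u) = j - L - u by omega]
      exact abs_sub _ _
    calc _ ≤ ∑ j ∈ range N, (1 / (Y : ℝ)) * ∑ u ∈ range Y, (|R (j - (L + u))| + |R (j - u)|) :=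
          Finset.sum_le_sum (fun j _ => h1 j)
      _ = (1 / (Y : ℝ)) * ∑ u ∈ range Y, ∑ j ∈ range N, (|R (j - (L + u))| + |R (j - u)|) := by
          rw [← Finset.mul_sum, Finset.sum_comm]
      _ ≤ (1 / (Y : ℝ)) * ∑ _u ∈ range Y, (2 * a + 2 * a) := by
          apply mul_le_mul_of_nonneg_left _ (by positivity)
          apply Finset.sum_le_sum
          intro u _
          rw [Finset.sum_add_distrib]
          exact add_le_add ((sum_sub_right_le N (L + u) R hR0).trans hRS)
            ((sum_sub_right_le N u R hR0).trans hRS)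
      _ = 4 * a := by
          simp only [Finset.sum_const, Finset.card_range, nsmul_eq_mul]
          field_simp
          ring
  -- the main term
  have hmain : ∑ j ∈ range N, |a * tz Y L (j - m)| ^ p = a ^ p * lamW p Y L := by
    have h1 : ∀ j, |a * tz Y L (j - m)| ^ p = a ^ p * tz Y L (j - m) ^ p := by
      intro j
      rw [abs_of_nonneg (mul_nonneg ha.le (tz_nonneg _ _ _)),
        Real.mul_rpow ha.le (tz_nonneg _ _ _)]
    simp only [h1]
    rw [← Finset.mul_sum]
    congr 1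
    obtain ⟨K, rfl⟩ : ∃ K, N = m + K := ⟨N - m, by omega⟩
    rw [Finset.sum_range_add]
    have h2 : ∑ x ∈ range m, tz Y L (x - m) ^ p = 0 := by
      apply Finset.sum_eq_zero
      intro x hx
      have h3 := Finset.mem_range.mp hx
      rw [show x - m = 0 by omega, tz_zero, Real.zero_rpow hp0.ne']
    rw [h2, zero_add]
    unfold lamW
    have h4 : ∑ x ∈ range K, tz Y L (m + x - m) ^ p = ∑ x ∈ range K, tz Y L x ^ p := by
      apply Finset.sum_congr rfl
      intro x _
      rw [Nat.add_sub_cancel_left]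
    rw [h4]
    symm
    apply Finset.sum_subset
    · intro x hx
      have := Finset.mem_range.mp hx
      exact Finset.mem_range.mpr (by omega)
    · intro x _ hx
      have h3 : L + Y ≤ x := by
        have := Finset.mem_range.not.mp hx
        omega
      rw [tz_large Y L x h3, Real.zero_rpow hp0.ne']
  rw [← hmain, ← Finset.sum_sub_distrib]
  refine (Finset.abs_sum_le_sum_abs _ _).trans ?_
  have hap : 0 ≤ a ^ (p - 1) := Real.rpow_nonneg ha.le _
  calc _ ≤ ∑ j ∈ range N, p * a ^ (p - 1) * |E j| := by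
        apply Finset.sum_le_sum
        intro j _
        have h1 := hdecomp j
        have h2 : 0 ≤ a * tz Y L (j - m) := mul_nonneg ha.le (tz_nonneg _ _ _)
        have h3 : a * tz Y L (j - m) ≤ a := by
          have := tz_le_one Y L (j - m) hY
          nlinarith
        rw [abs_of_nonneg (hann0 j), abs_of_nonneg h2]
        have h4 := abs_rpow_sub_rpow_le hp1 (hann0 j) h2 (hanna j) h3
        have h5 : ann Y L a j - a * tz Y L (j - m) = E j := by rw [h1]; ring
        rwa [h5] at h4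
    _ = p * a ^ (p - 1) * ∑ j ∈ range N, |E j| := by rw [Finset.mul_sum]
    _ ≤ p * a ^ (p - 1) * (4 * a) := mul_le_mul_of_nonneg_left hES (by positivity)
    _ = _ := by
        rw [rpow_eq_mul_rpow ha.le hp1]
        ring

/-- The ideal kernel has `ℓ^p`-mass `|s|^p Λ` up to `O(|s|^p)`, with `Λ` independent of `s`. -/
theorem ideal_window (p : ℝ) (hp : 1 < p) :
    ∃ c : ℝ, 0 < c ∧ ∀ (Y L : ℕ), 1 ≤ Y → Y ≤ L →
      ∃ Λ : ℝ, (L : ℝ) - Y ≤ Λ ∧ Λ ≤ (L : ℝ) + Y ∧
        ∀ (N : ℕ) (s : ℝ), L + Y ≤ N → |s| ≤ 1 → (s = 0 ∨ lev (N - L - Y) ≤ |s|) →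
          |∑ j ∈ range N, |ann Y L s j| ^ p - |s| ^ p * Λ| ≤ c * |s| ^ p := by
  have hp0 : 0 < p := by linarith
  refine ⟨4 * p, by positivity, ?_⟩
  intro Y L hY hYL
  refine ⟨lamW p Y L, lamW_ge Y L hY hYL, lamW_le hp0 Y L hY, ?_⟩
  intro N s hN hs1 hs
  rcases eq_or_ne s 0 with rfl | hs0
  · have h1 : ∀ j, ann Y L 0 j = 0 := by
      intro j
      unfold ann
      simp [clip_zero_right _ (lev_pos _).le]
    simp [h1, Real.zero_rpow hp0.ne']
  have ha : 0 < |s| := abs_pos.mpr hs0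
  have hlev : lev (N - L - Y) ≤ |s| := by
    rcases hs with h | h
    · exact absurd h hs0
    · exact h
  have hmain := ideal_pos p hp Y L hY N |s| ha hs1 hN hlev
  have heq : ∀ j, |ann Y L s j| = |ann Y L |s| j| := by
    intro j
    rcases abs_choice s with h | h
    · rw [h]
    · rw [h, ann_neg, abs_neg]
  simp only [heq]
  exact hmain

end

end Crest.Agent.LpDimRed.Gt2
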