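/-
M5/M6. Pointwise analysis at one pair `e'`: `κ = K e'`, `σ t e` = slopes, `s t` = slopes at `e'`.
Paper: finding #1151 "M5", "M6". All statements are about finite real sums only.
-/
import Crest.Agent.Lib.LpDimRed.Basic
import Crest.Agent.Lib.LpDimRed.AnalysisD
import Crest.Agent.Lib.LpDimRed.AnalysisGt2

set_option autoImplicit false

namespace Crest.Agent.LpDimRed

noncomputable section

open Finset

/-- Dyadic sum, `p < 2`. -/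
theorem dyadic_clip_lt2 (p : ℝ) (hp1 : 1 < p) (hp2 : p < 2) :
    ∃ B : ℝ, 0 < B ∧ ∀ (N : ℕ) (s : ℝ), |s| ≤ 1 →
      ∑ j ∈ range N, lev j ^ (p - 2) * clip (lev j) s ^ 2 ≤ B * |s| ^ p := by
  exact dyadic_clip_lt2' p hp1 hp2

/-- Dyadic sum, `p > 2`. -/
theorem dyadic_exc_gt2 (p : ℝ) (hp : 2 < p) :
    ∃ B : ℝ, 0 < B ∧ ∀ (N : ℕ) (s : ℝ), |s| ≤ 1 →
      ∑ j ∈ range N, lev j ^ (p - 2) * (s - clip (lev j) s) ^ 2 ≤ B * |s| ^ p := by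
  exact dyadic_exc_gt2' p hp

/-- M6, the heart of `p < 2`, with exact exponent `2 - p`.
`Y t j = ∑ κ(e) clip_{lev j}(σ_t e)`; `a_t = ∑|κ(e)||σ_t e|^p`, `∑ a_t ≤ C0`,
`|s_t - Y_{t,j}| ≤ lev j^(1-p) a_t`; thresholds `β_t^p = A^p a_t / C0`, `A = C0^(2/p)`.
High range by the pointwise bound, mid range by Hölder against the `W0` hypothesis. -/
theorem analysis_lt2 (p : ℝ) (hp1 : 1 < p) (hp2 : p < 2) :
    ∃ Cp : ℝ, 0 < Cp ∧ ∀ {T E : Type} [Fintype T] [Fintype E] (κ : E → ℝ) (σ : T → E → ℝ)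
      (s : T → ℝ) (C0 W0 : ℝ) (N : ℕ), 1 ≤ C0 → 0 ≤ W0 → ∑ e, |κ e| ≤ C0 →
      (∀ e, ∑ t, |σ t e| ^ p ≤ 1) → (∀ t, ∑ e, κ e * σ t e = s t) → (∑ t, |s t| ^ p ≤ 1) →
      (∑ t, ∑ j ∈ range N, lev j ^ (p - 2) * (∑ e, κ e * clip (lev j) (σ t e)) ^ 2 ≤ W0) →
      ∑ t, ∑ j ∈ range N, |(∑ e, κ e * clip (lev j) (σ t e)) - clip (lev j) (s t)| ^ p
        ≤ Cp * (1 + W0) * C0 ^ (2 - p) := by
  exact analysis_lt2' p hp1 hp2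

/-- M5, the heart of `p > 2`: `ℓ¹` bound of the errors in the levels, `p`-th power summed over `t`.
Split: low levels `lev j < |s|/(2 C0)` geometric; `log₂(2C0)` mid levels `≤ |s| + |δ|`; high levels
`|δ_j| ≤ 3 C0 lev j` and Cauchy–Schwarz against `A_t`, balanced at `lev j ≈ (A_t^{1/2}/M)^{2/p}`. -/
theorem analysis_gt2 (p : ℝ) (hp : 2 < p) :
    ∃ Cp : ℝ, 0 < Cp ∧ ∀ {T E : Type} [Fintype T] [Fintype E] (κ : E → ℝ) (σ : T → E → ℝ)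
      (s : T → ℝ) (C0 W0 : ℝ) (N : ℕ), 1 ≤ C0 → 0 ≤ W0 → ∑ e, |κ e| ≤ C0 →
      (∀ e, ∑ t, |σ t e| ^ p ≤ 1) → (∀ t, ∑ e, κ e * σ t e = s t) → (∑ t, |s t| ^ p ≤ 1) →
      (∑ t, ∑ j ∈ range N,
          lev j ^ (p - 2) * (s t - ∑ e, κ e * clip (lev j) (σ t e)) ^ 2 ≤ W0) →
      ∑ t, (∑ j ∈ range N, |(∑ e, κ e * clip (lev j) (σ t e)) - clip (lev j) (s t)|) ^ p
        ≤ Cp * (Real.log (2 * C0) ^ p + C0 ^ (p - 2) * W0) := by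
  exact Gt2.analysis_gt2 p hp

/-- Young for the soft window. -/
theorem window_young (p : ℝ) (hp : 1 ≤ p) (Y N : ℕ) (hY : 1 ≤ Y) (g : ℕ → ℝ) (hg0 : g 0 = 0) :
    ∑ j ∈ range N, |(1 / (Y : ℝ)) * ∑ u ∈ range Y, g (j - u)| ^ p
      ≤ (Y : ℝ) ^ (1 - p) * (∑ j ∈ range N, |g j|) ^ p := by
  exact Gt2.window_young p hp Y N hY g hg0

/-- The ideal soft-window kernel at slope `s`. -/
def ann (Y L : ℕ) (s : ℝ) (j : ℕ) : ℝ :=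
  (1 / (Y : ℝ)) * ∑ u ∈ range Y, (clip (lev (j - L - u)) s - clip (lev (j - u)) s)

/-- The ideal kernel has `ℓ^p`-mass `|s|^p Λ` up to `O(|s|^p)`, with `Λ` independent of `s`.
Write `|s| ∈ (lev (m+1), lev m]`; up to errors summing to `O(1)` in `l = j - m` the window only
depends on `l`. -/
theorem ideal_window (p : ℝ) (hp : 1 < p) :
    ∃ c : ℝ, 0 < c ∧ ∀ (Y L : ℕ), 1 ≤ Y → Y ≤ L →
      ∃ Λ : ℝ, (L : ℝ) - Y ≤ Λ ∧ Λ ≤ (L : ℝ) + Y ∧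
        ∀ (N : ℕ) (s : ℝ), L + Y ≤ N → |s| ≤ 1 → (s = 0 ∨ lev (N - L - Y) ≤ |s|) →
          |∑ j ∈ range N, |ann Y L s j| ^ p - |s| ^ p * Λ| ≤ c * |s| ^ p := by
  exact Gt2.ideal_window p hp

end

end Crest.Agent.LpDimRed
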