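/-
S0358 (row 232): the band analysis at one pair: levels, tent windows, the sequence lemma.
No graph here, only finite sums of reals.
-/
import Mathlib

set_option autoImplicit false

namespace Crest.Agent.LpDimRed.Bands

open Finset

/-! ### Levels -/

/-- The dyadic level of a real. -/
noncomputable def lvl (a : ℝ) : ℤ := ⌈Real.logb 2 |a|⌉

lemma abs_le_two_rpow_lvl {a : ℝ} (ha : a ≠ 0) : |a| ≤ (2 : ℝ) ^ ((lvl a : ℤ) : ℝ) := by
  have h0 : 0 < |a| := abs_pos.mpr ha
  have h1 : (2 : ℝ) ^ (Real.logb 2 |a|) = |a| :=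
    Real.rpow_logb (by norm_num) (by norm_num) h0
  calc |a| = (2 : ℝ) ^ (Real.logb 2 |a|) := h1.symm
    _ ≤ _ := Real.rpow_le_rpow_of_exponent_le (by norm_num) (Int.le_ceil _)

lemma two_rpow_lvl_lt {a : ℝ} (ha : a ≠ 0) : (2 : ℝ) ^ ((lvl a : ℤ) : ℝ) < 2 * |a| := by
  have h0 : 0 < |a| := abs_pos.mpr ha
  have h1 : (2 : ℝ) ^ (Real.logb 2 |a|) = |a| :=
    Real.rpow_logb (by norm_num) (by norm_num) h0
  have h2 : ((lvl a : ℤ) : ℝ) < Real.logb 2 |a| + 1 := Int.ceil_lt_add_one _
  calc (2 : ℝ) ^ ((lvl a : ℤ) : ℝ) < (2 : ℝ) ^ (Real.logb 2 |a| + 1) :=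
        Real.rpow_lt_rpow_of_exponent_lt (by norm_num) h2
    _ = 2 * |a| := by
        rw [Real.rpow_add_one (by norm_num), h1]; ring

/-! ### Tent windows -/

/-- The tent window, supported on `(0, 2L)`. -/
noncomputable def tent (L : ℕ) (v : ℤ) : ℝ := max 0 (1 - |(v : ℝ) - L| / L)

lemma tent_nonneg (L : ℕ) (v : ℤ) : 0 ≤ tent L v := le_max_left _ _

lemma tent_le_one (L : ℕ) (v : ℤ) : tent L v ≤ 1 := by
  unfold tent
  apply max_le zero_le_one
  have : 0 ≤ |(v : ℝ) - L| / L := by positivity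
  linarith

lemma tent_eq_zero {L : ℕ} (hL : 0 < L) {v : ℤ} (h : v ≤ 0 ∨ 2 * (L : ℤ) ≤ v) : tent L v = 0 := by
  unfold tent
  apply max_eq_left
  have hL' : (0 : ℝ) < L := by exact_mod_cast hL
  have : 1 ≤ |(v : ℝ) - L| / L := by
    rw [le_div_iff₀ hL', one_mul]
    rcases h with h | h
    · have h' : (v : ℝ) ≤ 0 := by exact_mod_cast h
      rw [abs_of_nonpos (by linarith)]
      linarith
    · have h' : (2 : ℝ) * L ≤ v := by exact_mod_cast h
      rw [abs_of_nonneg (by linarith)]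
      linarith
  linarith

lemma tent_lip {L : ℕ} (hL : 0 < L) (v w : ℤ) :
    |tent L v - tent L w| ≤ |(v : ℝ) - w| / L := by
  have hL' : (0 : ℝ) < L := by exact_mod_cast hL
  unfold tent
  rw [max_comm 0, max_comm 0]
  refine (abs_max_sub_max_le_abs _ _ _).trans ?_
  have e : 1 - |(v : ℝ) - L| / L - (1 - |(w : ℝ) - L| / L)
      = (|(w : ℝ) - L| - |(v : ℝ) - L|) / L := by
    field_simp
    ring
  rw [e, abs_div, abs_of_pos hL']
  apply div_le_div_of_nonneg_right _ hL'.le
  refine (abs_abs_sub_abs_le_abs_sub _ _).trans ?_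
  rw [abs_sub_comm]
  apply le_of_eq
  congr 1
  ring

/-- A sum over a finset of a nonnegative function vanishing off `Ioo a b`. -/
lemma sum_le_of_support {U : Finset ℤ} {f : ℤ → ℝ} {a b : ℤ} {B : ℝ} (hB : 0 ≤ B)
    (hf0 : ∀ u, 0 ≤ f u) (hf : ∀ u, a < u → u < b → f u ≤ B)
    (hz : ∀ u, ¬ (a < u ∧ u < b) → f u = 0) {n : ℝ} (hn : ((b - a - 1 : ℤ) : ℝ) ≤ n) (hn0 : 0 ≤ n) :
    ∑ u ∈ U, f u ≤ n * B := by
  classical
  have h1 : ∑ u ∈ U, f u = ∑ u ∈ U.filter (fun u => a < u ∧ u < b), f u := by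
    rw [Finset.sum_filter]
    apply Finset.sum_congr rfl
    intro u _
    split_ifs with h
    · rfl
    · exact hz u h
  rw [h1]
  have h2 : U.filter (fun u => a < u ∧ u < b) ⊆ Finset.Ioo a b := by
    intro u hu
    have := (Finset.mem_filter.mp hu).2
    exact Finset.mem_Ioo.mpr this
  have hcard : ((U.filter (fun u => a < u ∧ u < b)).card : ℝ) ≤ n := by
    have h3 : (U.filter (fun u => a < u ∧ u < b)).card ≤ (Finset.Ioo a b).card :=
      Finset.card_le_card h2
    have h4 : ((Finset.Ioo a b).card : ℝ) ≤ n := by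
      rw [Int.card_Ioo]
      rcases le_total 0 (b - a - 1) with h5 | h5
      · have : (((b - a - 1).toNat : ℤ) : ℝ) = ((b - a - 1 : ℤ) : ℝ) := by
          rw [Int.toNat_of_nonneg h5]
        have h6 : (((b - a - 1).toNat : ℕ) : ℝ) = ((b - a - 1 : ℤ) : ℝ) := by
          rw [← this]; simp
        rw [h6]
        exact hn
      · rw [Int.toNat_of_nonpos h5]
        simpa using hn0
    calc ((U.filter (fun u => a < u ∧ u < b)).card : ℝ) ≤ ((Finset.Ioo a b).card : ℝ) := by
          exact_mod_cast h3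
      _ ≤ n := h4
  calc ∑ u ∈ U.filter (fun u => a < u ∧ u < b), f u
      ≤ ∑ _u ∈ U.filter (fun u => a < u ∧ u < b), B := by
        apply Finset.sum_le_sum
        intro u hu
        have := (Finset.mem_filter.mp hu).2
        exact hf u this.1 this.2
    _ = ((U.filter (fun u => a < u ∧ u < b)).card : ℝ) * B := by
        rw [Finset.sum_const, nsmul_eq_mul]
    _ ≤ n * B := mul_le_mul_of_nonneg_right hcard hB

/-- The `p`-th power sum of one translated window. -/
lemma tent_sum_le {p : ℝ} (hp : 1 ≤ p) {L : ℕ} (hL : 0 < L) (U : Finset ℤ) (l : ℤ) :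
    ∑ u ∈ U, tent L (u - l) ^ p ≤ 2 * L := by
  have hp0 : p ≠ 0 := by linarith
  have h := sum_le_of_support (U := U) (f := fun u => tent L (u - l) ^ p) (a := l)
    (b := l + 2 * L) (B := 1) zero_le_one
    (fun u => Real.rpow_nonneg (tent_nonneg _ _) _)
    (fun u _ _ => Real.rpow_le_one (tent_nonneg _ _) (tent_le_one _ _) (by linarith))
    (fun u hu => by
      have : tent L (u - l) = 0 := by
        apply tent_eq_zero hL
        by_contra hcon
        push Not at hcon
        exact hu ⟨by linarith [hcon.1], by linarith [hcon.2]⟩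
      simp only [this, Real.zero_rpow hp0])
    (n := 2 * L) (by push_cast; linarith) (by positivity)
  simpa using h

/-- (W): the window is `1/L`-Lipschitz in `ℓ^p`. -/
lemma tent_diff_sum {p : ℝ} (hp : 1 ≤ p) {L : ℕ} (hL : 0 < L) (U : Finset ℤ) (l l' : ℤ) :
    ∑ u ∈ U, |tent L (u - l) - tent L (u - l')| ^ p
      ≤ 4 * (L : ℝ) ^ (1 - p) * |(l : ℝ) - l'| ^ p := by
  have hp0 : 0 < p := by linarith
  have hL' : (0 : ℝ) < L := by exact_mod_cast hL
  rcases le_or_gt |(l : ℝ) - l'| (L : ℝ) with hcase | hcase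
  · -- near
    set x : ℝ := |(l : ℝ) - l'| with hx
    have hx0 : 0 ≤ x := abs_nonneg _
    have hB : 0 ≤ (x / L) ^ p := by positivity
    have h := sum_le_of_support (U := U)
      (f := fun u => |tent L (u - l) - tent L (u - l')| ^ p) (a := min l l')
      (b := max l l' + 2 * L) (B := (x / L) ^ p) hB
      (fun u => Real.rpow_nonneg (abs_nonneg _) _)
      (fun u _ _ => by
        apply Real.rpow_le_rpow (abs_nonneg _) _ hp0.le
        refine (tent_lip hL _ _).trans ?_
        apply le_of_eq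
        rw [hx]
        congr 1
        rw [abs_sub_comm]
        push_cast
        congr 1
        ring)
      (fun u hu => by
        have h1 : tent L (u - l) = 0 := by
          apply tent_eq_zero hL
          by_contra hcon
          push Not at hcon
          apply hu
          constructor
          · have := hcon.1
            have h2 : min l l' ≤ l := min_le_left _ _
            linarith
          · have := hcon.2
            have h2 : l ≤ max l l' := le_max_left _ _
            linarith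
        have h2 : tent L (u - l') = 0 := by
          apply tent_eq_zero hL
          by_contra hcon
          push Not at hcon
          apply hu
          constructor
          · have := hcon.1
            have h2 : min l l' ≤ l' := min_le_right _ _
            linarith
          · have := hcon.2
            have h2 : l' ≤ max l l' := le_max_right _ _
            linarith
        simp only [h1, h2, sub_zero, abs_zero]
        exact Real.zero_rpow hp0.ne')
      (n := 3 * L) (by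
        have h3 : ((max l l' - min l l' : ℤ) : ℝ) = x := by
          rw [hx]
          rcases le_total l l' with h | h
          · rw [max_eq_right h, min_eq_left h]
            push_cast
            rw [abs_sub_comm, abs_of_nonneg]
            have : (l : ℝ) ≤ l' := by exact_mod_cast h
            linarith
          · rw [max_eq_left h, min_eq_right h]
            push_cast
            rw [abs_of_nonneg]
            have : (l' : ℝ) ≤ l := by exact_mod_cast h
            linarith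
        have h4 : ((max l l' + 2 * (L : ℤ) - min l l' - 1 : ℤ) : ℝ)
            = ((max l l' - min l l' : ℤ) : ℝ) + 2 * L - 1 := by
          push_cast
          ring
        rw [h4, h3]
        linarith) (by positivity)
    refine h.trans ?_
    have e : (x / L) ^ p = x ^ p * (L : ℝ) ^ (-p) := by
      rw [Real.div_rpow hx0 hL'.le, Real.rpow_neg hL'.le]
      rfl
    have e2 : (L : ℝ) ^ (1 - p) = L * (L : ℝ) ^ (-p) := by
      rw [sub_eq_add_neg, Real.rpow_add hL', Real.rpow_one]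
    rw [e, e2]
    have hnn : 0 ≤ (L : ℝ) * (x ^ p * (L : ℝ) ^ (-p)) := by positivity
    nlinarith
  · -- far
    have hab : ∀ u : ℤ, |tent L (u - l) - tent L (u - l')| ^ p
        ≤ tent L (u - l) ^ p + tent L (u - l') ^ p := by
      intro u
      have ha := tent_nonneg L (u - l)
      have hb := tent_nonneg L (u - l')
      rcases le_total (tent L (u - l)) (tent L (u - l')) with h | h
      · rw [abs_sub_comm, abs_of_nonneg (by linarith)]
        have h1 : (tent L (u - l') - tent L (u - l)) ^ p ≤ tent L (u - l') ^ p :=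
          Real.rpow_le_rpow (by linarith) (by linarith) hp0.le
        have h2 : 0 ≤ tent L (u - l) ^ p := Real.rpow_nonneg ha _
        linarith
      · rw [abs_of_nonneg (by linarith)]
        have h1 : (tent L (u - l) - tent L (u - l')) ^ p ≤ tent L (u - l) ^ p :=
          Real.rpow_le_rpow (by linarith) (by linarith) hp0.le
        have h2 : 0 ≤ tent L (u - l') ^ p := Real.rpow_nonneg hb _
        linarith
    have h1 : ∑ u ∈ U, |tent L (u - l) - tent L (u - l')| ^ p
        ≤ ∑ u ∈ U, tent L (u - l) ^ p + ∑ u ∈ U, tent L (u - l') ^ p := by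
      rw [← Finset.sum_add_distrib]
      exact Finset.sum_le_sum fun u _ => hab u
    have h2 := tent_sum_le hp hL U l
    have h3 := tent_sum_le hp hL U l'
    have h4 : (L : ℝ) ^ p ≤ |(l : ℝ) - l'| ^ p :=
      Real.rpow_le_rpow hL'.le hcase.le hp0.le
    have e2 : (L : ℝ) ^ (1 - p) * (L : ℝ) ^ p = L := by
      rw [← Real.rpow_add hL']
      simp
    have h5 : (L : ℝ) ^ (1 - p) * (L : ℝ) ^ p ≤ (L : ℝ) ^ (1 - p) * |(l : ℝ) - l'| ^ p :=
      mul_le_mul_of_nonneg_left h4 (by positivity)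
    nlinarith

/-! ### The sequence lemma -/

/-- A finite sum over integers of a function of the distance to a center. -/
lemma sum_natAbs_le {f : ℕ → ℝ} (hf0 : ∀ n, 0 ≤ f n) (hf : Summable f) (S : Finset ℤ) (l₀ : ℤ) :
    ∑ l ∈ S, f (l - l₀).natAbs ≤ 2 * ∑' n, f n := by
  classical
  have hsplit : ∑ l ∈ S, f (l - l₀).natAbs
      = ∑ l ∈ S.filter (fun l => l₀ ≤ l), f (l - l₀).natAbs
        + ∑ l ∈ S.filter (fun l => ¬ l₀ ≤ l), f (l - l₀).natAbs :=
    (Finset.sum_filter_add_sum_filter_not _ _ _).symm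
  have h1 : ∑ l ∈ S.filter (fun l => l₀ ≤ l), f (l - l₀).natAbs ≤ ∑' n, f n := by
    have hinj : Set.InjOn (fun l : ℤ => (l - l₀).natAbs) (S.filter (fun l => l₀ ≤ l)) := by
      intro a ha b hb hab
      have ha' := (Finset.mem_filter.mp (Finset.mem_coe.mp ha)).2
      have hb' := (Finset.mem_filter.mp (Finset.mem_coe.mp hb)).2
      simp only at hab
      omega
    rw [← Finset.sum_image (f := f) hinj]
    exact hf.sum_le_tsum _ (fun n _ => hf0 n)
  have h2 : ∑ l ∈ S.filter (fun l => ¬ l₀ ≤ l), f (l - l₀).natAbs ≤ ∑' n, f n := by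
    have hinj : Set.InjOn (fun l : ℤ => (l - l₀).natAbs) (S.filter (fun l => ¬ l₀ ≤ l)) := by
      intro a ha b hb hab
      have ha' := (Finset.mem_filter.mp (Finset.mem_coe.mp ha)).2
      have hb' := (Finset.mem_filter.mp (Finset.mem_coe.mp hb)).2
      simp only at hab
      omega
    rw [← Finset.sum_image (f := f) hinj]
    exact hf.sum_le_tsum _ (fun n _ => hf0 n)
  rw [hsplit]
  linarith

/-- The sequence lemma: the center `l₀` of a sequence bounded by `c 2^l` with finite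
`(r, p)`-budget `T`. -/
theorem exists_center {p r : ℝ} (hr : 0 < r) (hrp : r < p) :
    ∃ C : ℝ, 0 < C ∧ ∀ (c : ℝ), 0 < c → ∀ (S : Finset ℤ) (x : ℤ → ℝ),
      (∀ l ∈ S, |x l| ≤ c * (2 : ℝ) ^ (l : ℝ)) →
      ∀ T : ℝ, T = ∑ l ∈ S, |x l| ^ r * (2 : ℝ) ^ ((l : ℝ) * (p - r)) → 0 < T →
      ∃ l₀ : ℤ, (2 : ℝ) ^ (l₀ : ℝ) ≤ (T / c ^ r) ^ (1 / p) ∧
        ∑ l ∈ S, |x l| * |(l : ℝ) - l₀| ≤ C * (c * (T / c ^ r) ^ (1 / p)) := by
  have hp : 0 < p := by linarith
  set κ : ℝ := (p - r) / r with hκ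
  have hκ0 : 0 < κ := div_pos (by linarith) hr
  set κ' : ℝ := min 1 κ with hκ'
  have hκ'0 : 0 < κ' := lt_min one_pos hκ0
  set ρ : ℝ := (2 : ℝ) ^ (-κ') with hρ
  have hρ0 : 0 < ρ := by positivity
  have hρ1 : ρ < 1 := Real.rpow_lt_one_of_one_lt_of_neg (by norm_num) (by linarith)
  set f : ℕ → ℝ := fun m => m * ρ ^ (m - 1) with hf
  have hf0 : ∀ n, 0 ≤ f n := fun n => by
    simp only [hf]; positivity
  have hfs : Summable f := by
    have h1 : Summable (fun n : ℕ => ((n : ℝ) ^ 1) * ρ ^ n) :=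
      summable_pow_mul_geometric_of_norm_lt_one 1 (by rw [Real.norm_of_nonneg hρ0.le]; exact hρ1)
    have h2 : Summable (fun n : ℕ => (n : ℝ) * ρ ^ n * ρ⁻¹) := by
      have := h1.mul_right ρ⁻¹
      simpa using this
    refine h2.congr ?_
    intro n
    simp only [hf]
    rcases n with _ | n
    · simp
    · simp only [Nat.add_sub_cancel, pow_succ]
      field_simp
  have htsum : 0 ≤ ∑' n, f n := tsum_nonneg hf0
  refine ⟨2 * ∑' n, f n + 1, by linarith, ?_⟩
  intro c hc S x hx T hT hTpos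
  have hcr : 0 < c ^ r := by positivity
  set Y : ℝ := (T / c ^ r) ^ (1 / p) with hY
  have hYpos : 0 < Y := by positivity
  have hYp : Y ^ p = T / c ^ r := by
    rw [hY, ← Real.rpow_mul (by positivity)]
    rw [one_div, inv_mul_cancel₀ hp.ne', Real.rpow_one]
  set l₀ : ℤ := ⌊Real.logb 2 Y⌋ with hl₀
  have h2Y : (2 : ℝ) ^ (Real.logb 2 Y) = Y := Real.rpow_logb (by norm_num) (by norm_num) hYpos
  have hl1 : (2 : ℝ) ^ (l₀ : ℝ) ≤ Y := by
    calc (2 : ℝ) ^ (l₀ : ℝ) ≤ (2 : ℝ) ^ (Real.logb 2 Y) :=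
          Real.rpow_le_rpow_of_exponent_le (by norm_num) (Int.floor_le _)
      _ = Y := h2Y
  have hl2 : Y < (2 : ℝ) ^ ((l₀ : ℝ) + 1) := by
    calc Y = (2 : ℝ) ^ (Real.logb 2 Y) := h2Y.symm
      _ < (2 : ℝ) ^ ((l₀ : ℝ) + 1) :=
          Real.rpow_lt_rpow_of_exponent_lt (by norm_num) (Int.lt_floor_add_one _)
  refine ⟨l₀, hl1, ?_⟩
  -- the pointwise bound
  have hpt : ∀ l ∈ S, |x l| * |(l : ℝ) - l₀| ≤ (c * Y) * f (l - l₀).natAbs := by
    intro l hl
    set m : ℕ := (l - l₀).natAbs with hm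
    have hm' : |(l : ℝ) - l₀| = m := by
      rw [hm]
      have : ((l - l₀ : ℤ) : ℝ) = (l : ℝ) - l₀ := by push_cast; ring
      rw [← this, ← Int.cast_abs, Int.abs_eq_natAbs]
      simp
    rw [hm']
    rcases Nat.eq_zero_or_pos m with hm0 | hm0
    · rw [hm0]
      simp [hf]
    have hxm : |x l| ≤ c * Y * ρ ^ (m - 1) := by
      rcases le_or_gt l l₀ with hle | hgt
      · -- below the center
        have hml : ((l₀ : ℝ) - l) = m := by
          rw [← hm', abs_of_nonpos]
          · ring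
          · have : (l : ℝ) ≤ l₀ := by exact_mod_cast hle
            linarith
        have h1 : |x l| ≤ c * (2 : ℝ) ^ (l : ℝ) := hx l hl
        have h2 : (2 : ℝ) ^ (l : ℝ) = (2 : ℝ) ^ (l₀ : ℝ) * (2 : ℝ) ^ (-(m : ℝ)) := by
          rw [← Real.rpow_add (by norm_num)]
          congr 1
          linarith
        have h3 : (2 : ℝ) ^ (-(m : ℝ)) ≤ ρ ^ (m - 1) := by
          have h4 : ρ ^ (m - 1) = (2 : ℝ) ^ (-κ' * ((m - 1 : ℕ) : ℝ)) := by
            rw [hρ, ← Real.rpow_natCast, ← Real.rpow_mul (by norm_num)]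
          rw [h4]
          apply Real.rpow_le_rpow_of_exponent_le (by norm_num)
          have h5 : ((m - 1 : ℕ) : ℝ) = (m : ℝ) - 1 := by
            rw [Nat.cast_sub hm0]; simp
          rw [h5]
          have h6 : κ' ≤ 1 := min_le_left _ _
          have h7 : (1 : ℝ) ≤ m := by exact_mod_cast hm0
          nlinarith
        calc |x l| ≤ c * ((2 : ℝ) ^ (l₀ : ℝ) * (2 : ℝ) ^ (-(m : ℝ))) := by rw [← h2]; exact h1
          _ ≤ c * (Y * ρ ^ (m - 1)) := by
              apply mul_le_mul_of_nonneg_left _ hc.le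
              exact mul_le_mul hl1 h3 (by positivity) hYpos.le
          _ = c * Y * ρ ^ (m - 1) := by ring
      · -- above the center
        have hml : ((l : ℝ) - l₀) = m := by
          rw [← hm', abs_of_nonneg]
          have : (l₀ : ℝ) < l := by exact_mod_cast hgt
          linarith
        have hterm : |x l| ^ r * (2 : ℝ) ^ ((l : ℝ) * (p - r)) ≤ T := by
          rw [hT]
          exact Finset.single_le_sum
            (f := fun l : ℤ => |x l| ^ r * (2 : ℝ) ^ ((l : ℝ) * (p - r)))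
            (fun i _ => by positivity) hl
        -- raise to 1/r
        have h2pos : 0 < (2 : ℝ) ^ ((l : ℝ) * (p - r)) := by positivity
        have h1 : |x l| ^ r ≤ T * (2 : ℝ) ^ (-((l : ℝ) * (p - r))) := by
          rw [Real.rpow_neg (by norm_num), ← div_eq_mul_inv, le_div_iff₀ h2pos]
          exact hterm
        have h3 : |x l| ≤ (T * (2 : ℝ) ^ (-((l : ℝ) * (p - r)))) ^ (1 / r) := by
          have := Real.rpow_le_rpow (by positivity) h1 (by positivity : 0 ≤ 1 / r)
          rwa [← Real.rpow_mul (abs_nonneg _), mul_one_div_cancel hr.ne', Real.rpow_one] at this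
        -- compute the bound
        have h4 : (T * (2 : ℝ) ^ (-((l : ℝ) * (p - r)))) ^ (1 / r)
            = T ^ (1 / r) * (2 : ℝ) ^ (-((l : ℝ) * κ)) := by
          rw [Real.mul_rpow hTpos.le (by positivity), ← Real.rpow_mul (by norm_num)]
          congr 2
          rw [hκ]
          field_simp
        have hTY : T = c ^ r * Y ^ p := by
          rw [hYp]
          field_simp
        have h5 : T ^ (1 / r) = c * Y ^ (p / r) := by
          rw [hTY, Real.mul_rpow hcr.le (by positivity), ← Real.rpow_mul hc.le,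
            ← Real.rpow_mul hYpos.le, mul_one_div_cancel hr.ne', Real.rpow_one]
          congr 2
          ring
        -- 2^{-lκ} = 2^{-(l₀+1)κ} 2^{-(m-1)κ}
        have h6 : (2 : ℝ) ^ (-((l : ℝ) * κ))
            = (2 : ℝ) ^ (-(((l₀ : ℝ) + 1) * κ)) * (2 : ℝ) ^ (-(((m : ℝ) - 1) * κ)) := by
          rw [← Real.rpow_add (by norm_num)]
          congr 1
          have : (l : ℝ) = l₀ + m := by linarith
          rw [this]
          ring
        have h7 : (2 : ℝ) ^ (-(((l₀ : ℝ) + 1) * κ)) ≤ Y ^ (-κ) := by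
          have h8 : (2 : ℝ) ^ (-(((l₀ : ℝ) + 1) * κ)) = ((2 : ℝ) ^ ((l₀ : ℝ) + 1)) ^ (-κ) := by
            rw [← Real.rpow_mul (by norm_num)]
            congr 1
            ring
          rw [h8]
          exact Real.rpow_le_rpow_of_nonpos hYpos hl2.le (by linarith)
        have h9 : (2 : ℝ) ^ (-(((m : ℝ) - 1) * κ)) ≤ ρ ^ (m - 1) := by
          have h4 : ρ ^ (m - 1) = (2 : ℝ) ^ (-κ' * ((m - 1 : ℕ) : ℝ)) := by
            rw [hρ, ← Real.rpow_natCast, ← Real.rpow_mul (by norm_num)]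
          rw [h4]
          apply Real.rpow_le_rpow_of_exponent_le (by norm_num)
          have h5 : ((m - 1 : ℕ) : ℝ) = (m : ℝ) - 1 := by
            rw [Nat.cast_sub hm0]; simp
          rw [h5]
          have h6 : κ' ≤ κ := min_le_right _ _
          have h7 : (1 : ℝ) ≤ m := by exact_mod_cast hm0
          nlinarith
        have h10 : Y ^ (p / r) * Y ^ (-κ) = Y := by
          rw [← Real.rpow_add hYpos]
          have : p / r + -κ = 1 := by
            rw [hκ]
            field_simp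
            ring
          rw [this, Real.rpow_one]
        calc |x l| ≤ c * Y ^ (p / r) * ((2 : ℝ) ^ (-(((l₀ : ℝ) + 1) * κ))
                * (2 : ℝ) ^ (-(((m : ℝ) - 1) * κ))) := by
              rw [← h5, ← h6, ← h4]; exact h3
          _ ≤ c * Y ^ (p / r) * (Y ^ (-κ) * ρ ^ (m - 1)) := by
              apply mul_le_mul_of_nonneg_left _ (by positivity)
              exact mul_le_mul h7 h9 (by positivity) (by positivity)
          _ = c * (Y ^ (p / r) * Y ^ (-κ)) * ρ ^ (m - 1) := by ring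
          _ = c * Y * ρ ^ (m - 1) := by rw [h10]
    have hm0' : (0 : ℝ) ≤ m := by positivity
    calc |x l| * m ≤ (c * Y * ρ ^ (m - 1)) * m := mul_le_mul_of_nonneg_right hxm hm0'
      _ = c * Y * f m := by simp only [hf]; ring
  have hsum : ∑ l ∈ S, |x l| * |(l : ℝ) - l₀| ≤ (c * Y) * (2 * ∑' n, f n) := by
    calc ∑ l ∈ S, |x l| * |(l : ℝ) - l₀| ≤ ∑ l ∈ S, (c * Y) * f (l - l₀).natAbs :=
          Finset.sum_le_sum hpt
      _ = (c * Y) * ∑ l ∈ S, f (l - l₀).natAbs := by rw [Finset.mul_sum]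
      _ ≤ (c * Y) * (2 * ∑' n, f n) :=
          mul_le_mul_of_nonneg_left (sum_natAbs_le hf0 hfs S l₀) (by positivity)
  have hcY : 0 < c * Y := by positivity
  calc _ ≤ (c * Y) * (2 * ∑' n, f n) := hsum
    _ ≤ (2 * ∑' n, f n + 1) * (c * Y) := by nlinarith

/-! ### Elementary inequalities -/

/-- Weighted Jensen for `x ^ p`. -/
lemma jensen_rpow {ι : Type*} (s : Finset ι) (m w : ι → ℝ) (hm : ∀ i ∈ s, 0 ≤ m i)
    (hw : ∀ i ∈ s, 0 ≤ w i) {p : ℝ} (hp : 1 < p) :
    (∑ i ∈ s, m i * w i) ^ p ≤ (∑ i ∈ s, m i) ^ (p - 1) * ∑ i ∈ s, m i * w i ^ p := by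
  have hp0 : 0 < p := by linarith
  set M := ∑ i ∈ s, m i with hM
  have hM0 : 0 ≤ M := Finset.sum_nonneg hm
  rcases hM0.eq_or_lt with h0 | hpos
  · have hz : ∀ i ∈ s, m i = 0 := by
      intro i hi
      exact (Finset.sum_eq_zero_iff_of_nonneg hm).mp h0.symm i hi
    have h1 : ∑ i ∈ s, m i * w i = 0 := Finset.sum_eq_zero fun i hi => by rw [hz i hi, zero_mul]
    have h2 : ∑ i ∈ s, m i * w i ^ p = 0 := Finset.sum_eq_zero fun i hi => by rw [hz i hi, zero_mul]
    rw [h1, h2, Real.zero_rpow hp0.ne']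
    simp
  · have hconv := (convexOn_rpow hp.le).map_sum_le (t := s) (w := fun i => m i / M) (p := w)
      (fun i hi => div_nonneg (hm i hi) hM0)
      (by
        rw [← Finset.sum_div, ← hM]
        exact div_self hpos.ne')
      (fun i hi => Set.mem_Ici.mpr (hw i hi))
    simp only [smul_eq_mul] at hconv
    have e1 : ∑ i ∈ s, m i / M * w i = (∑ i ∈ s, m i * w i) / M := by
      rw [Finset.sum_div]
      apply Finset.sum_congr rfl
      intro i _
      ring
    have e2 : ∑ i ∈ s, m i / M * w i ^ p = (∑ i ∈ s, m i * w i ^ p) / M := by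
      rw [Finset.sum_div]
      apply Finset.sum_congr rfl
      intro i _
      ring
    rw [e1, e2, Real.div_rpow (Finset.sum_nonneg fun i hi => mul_nonneg (hm i hi) (hw i hi)) hM0,
      div_le_div_iff₀ (by positivity) hpos] at hconv
    have hMp : M ^ p = M ^ (p - 1) * M := by
      rw [← Real.rpow_add_one hpos.ne']
      congr 1
      ring
    rw [hMp] at hconv
    have hMM : 0 < M ^ (p - 1) * M := by positivity
    have h3 : (∑ i ∈ s, m i * w i) ^ p * M ≤ (M ^ (p - 1) * ∑ i ∈ s, m i * w i ^ p) * M := by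
      calc _ ≤ (∑ i ∈ s, m i * w i ^ p) * (M ^ (p - 1) * M) := hconv
        _ = _ := by ring
    exact le_of_mul_le_mul_right h3 hpos

/-- `(a+b)^p ≤ (1+τ) a^p + C b^p`. -/
lemma exists_add_rpow_le {p τ : ℝ} (hp : 1 < p) (hτ : 0 < τ) :
    ∃ C : ℝ, 0 < C ∧ ∀ a b : ℝ, 0 ≤ a → 0 ≤ b → (a + b) ^ p ≤ (1 + τ) * a ^ p + C * b ^ p := by
  have hp1 : 0 < p - 1 := by linarith
  set q : ℝ := (1 + τ) ^ (1 / (p - 1)) with hq
  have hq1 : 1 < q := Real.one_lt_rpow (by linarith) (by positivity)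
  have hqp : q ^ (p - 1) = 1 + τ := by
    rw [hq, ← Real.rpow_mul (by linarith), one_div, inv_mul_cancel₀ hp1.ne', Real.rpow_one]
  set t : ℝ := 1 / q with ht
  have ht0 : 0 < t := by positivity
  have ht1 : t < 1 := by
    rw [ht, div_lt_one (by linarith)]
    exact hq1
  set s : ℝ := 1 - t with hs
  have hs0 : 0 < s := by linarith
  refine ⟨s ^ (1 - p), by positivity, ?_⟩
  intro a b ha hb
  have hconv := (convexOn_rpow hp.le).2 (Set.mem_Ici.mpr (div_nonneg ha ht0.le))
    (Set.mem_Ici.mpr (div_nonneg hb hs0.le)) ht0.le hs0.le (by rw [hs]; ring)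
  simp only [smul_eq_mul] at hconv
  have e1 : t * (a / t) + s * (b / s) = a + b := by field_simp
  rw [e1] at hconv
  refine hconv.trans (le_of_eq ?_)
  rw [Real.div_rpow ha ht0.le, Real.div_rpow hb hs0.le]
  have e2 : t / t ^ p = 1 + τ := by
    have : t ^ p = t * t ^ (p - 1) := by
      rw [← Real.rpow_one_add' ht0.le (by linarith)]
      congr 1
      ring
    rw [this, div_mul_eq_div_div, div_self ht0.ne']
    have h5 : t ^ (p - 1) = (q ^ (p - 1))⁻¹ := by
      rw [ht, one_div, Real.inv_rpow (by linarith)]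
    rw [h5, hqp]
    simp
  have e3 : s / s ^ p = s ^ (1 - p) := by
    rw [Real.rpow_sub hs0, Real.rpow_one]
  calc t * (a ^ p / t ^ p) + s * (b ^ p / s ^ p)
      = (t / t ^ p) * a ^ p + (s / s ^ p) * b ^ p := by ring
    _ = _ := by rw [e2, e3]

/-! ### One coordinate -/

/-- One coordinate: the deviation of the windowed sum from the centered window. -/
lemma coord_err {p : ℝ} (hp : 1 < p) {L : ℕ} (hL : 0 < L) (S U : Finset ℤ) (x : ℤ → ℝ) (l₀ : ℤ) :
    ∑ u ∈ U, |∑ l ∈ S, tent L (u - l) * x l - tent L (u - l₀) * ∑ l ∈ S, x l| ^ p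
      ≤ 4 * (L : ℝ) ^ (1 - p) * (∑ l ∈ S, |x l| * |(l : ℝ) - l₀|) ^ p := by
  have hp0 : 0 < p := by linarith
  set m : ℤ → ℝ := fun l => |x l| * |(l : ℝ) - l₀| with hm
  set M := ∑ l ∈ S, m l with hMdef
  have hm0 : ∀ l ∈ S, 0 ≤ m l := fun l _ => by simp only [hm]; positivity
  have hM0 : 0 ≤ M := Finset.sum_nonneg hm0
  set w : ℤ → ℤ → ℝ := fun u l => |tent L (u - l) - tent L (u - l₀)| / |(l : ℝ) - l₀| with hw
  have hw0 : ∀ u l, 0 ≤ w u l := fun u l => by simp only [hw]; positivity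
  have hpt : ∀ u, |∑ l ∈ S, tent L (u - l) * x l - tent L (u - l₀) * ∑ l ∈ S, x l| ^ p
      ≤ M ^ (p - 1) * ∑ l ∈ S, m l * w u l ^ p := by
    intro u
    have e : ∑ l ∈ S, tent L (u - l) * x l - tent L (u - l₀) * ∑ l ∈ S, x l
        = ∑ l ∈ S, (tent L (u - l) - tent L (u - l₀)) * x l := by
      rw [Finset.mul_sum, ← Finset.sum_sub_distrib]
      apply Finset.sum_congr rfl
      intro l _
      ring
    rw [e]
    have h1 : |∑ l ∈ S, (tent L (u - l) - tent L (u - l₀)) * x l|
        ≤ ∑ l ∈ S, m l * w u l := by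
      refine (Finset.abs_sum_le_sum_abs _ _).trans ?_
      apply Finset.sum_le_sum
      intro l _
      by_cases hl : l = l₀
      · subst hl
        simp [hm, hw]
      · have hne : |(l : ℝ) - l₀| ≠ 0 := by
          rw [abs_ne_zero, sub_ne_zero]
          exact_mod_cast hl
        simp only [hm, hw]
        rw [abs_mul]
        apply le_of_eq
        field_simp
    calc _ ≤ (∑ l ∈ S, m l * w u l) ^ p := Real.rpow_le_rpow (abs_nonneg _) h1 hp0.le
      _ ≤ _ := jensen_rpow S m (w u) hm0 (fun l _ => hw0 u l) hp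
  have hsw : ∀ l ∈ S, ∑ u ∈ U, m l * w u l ^ p ≤ m l * (4 * (L : ℝ) ^ (1 - p)) := by
    intro l hl
    by_cases hl' : l = l₀
    · subst hl'
      simp [hm]
    have hne : 0 < |(l : ℝ) - l₀| := by
      rw [abs_pos, sub_ne_zero]
      exact_mod_cast hl'
    rw [← Finset.mul_sum]
    apply mul_le_mul_of_nonneg_left _ (hm0 l hl)
    have hW := tent_diff_sum hp.le hL U l l₀
    have e : ∀ u, w u l ^ p = |tent L (u - l) - tent L (u - l₀)| ^ p / |(l : ℝ) - l₀| ^ p := by
      intro u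
      simp only [hw]
      rw [Real.div_rpow (abs_nonneg _) (abs_nonneg _)]
    simp only [e]
    rw [← Finset.sum_div, div_le_iff₀ (by positivity)]
    exact hW
  calc ∑ u ∈ U, |∑ l ∈ S, tent L (u - l) * x l - tent L (u - l₀) * ∑ l ∈ S, x l| ^ p
      ≤ ∑ u ∈ U, M ^ (p - 1) * ∑ l ∈ S, m l * w u l ^ p := Finset.sum_le_sum fun u _ => hpt u
    _ = M ^ (p - 1) * ∑ l ∈ S, ∑ u ∈ U, m l * w u l ^ p := by
        rw [← Finset.mul_sum, Finset.sum_comm]
    _ ≤ M ^ (p - 1) * ∑ l ∈ S, m l * (4 * (L : ℝ) ^ (1 - p)) :=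
        mul_le_mul_of_nonneg_left (Finset.sum_le_sum hsw) (by positivity)
    _ = M ^ (p - 1) * (M * (4 * (L : ℝ) ^ (1 - p))) := by rw [Finset.sum_mul]
    _ = 4 * (L : ℝ) ^ (1 - p) * (M ^ (p - 1) * M) := by ring
    _ = 4 * (L : ℝ) ^ (1 - p) * M ^ p := by
        congr 1
        rcases hM0.eq_or_lt with h0 | hpos
        · rw [← h0, Real.zero_rpow hp0.ne']
          simp
        · rw [← Real.rpow_add_one hpos.ne']
          congr 1
          ring

/-- The budget of one coordinate. -/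
noncomputable def budget (p r : ℝ) (S : Finset ℤ) (x : ℤ → ℝ) : ℝ :=
  ∑ l ∈ S, |x l| ^ r * (2 : ℝ) ^ ((l : ℝ) * (p - r))

lemma budget_nonneg (p r : ℝ) (S : Finset ℤ) (x : ℤ → ℝ) : 0 ≤ budget p r S x :=
  Finset.sum_nonneg fun _ _ => by positivity

lemma eq_zero_of_budget_eq_zero {p r : ℝ} (hr : 0 < r) {S : Finset ℤ} {x : ℤ → ℝ}
    (h : budget p r S x = 0) : ∀ l ∈ S, x l = 0 := by
  intro l hl
  have h1 := (Finset.sum_eq_zero_iff_of_nonneg (fun _ _ => by positivity)).mp h l hl
  have h2 : (0 : ℝ) < (2 : ℝ) ^ ((l : ℝ) * (p - r)) := by positivity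
  have h3 : |x l| ^ r = 0 := by
    rcases mul_eq_zero.mp h1 with h4 | h4
    · exact h4
    · exact absurd h4 h2.ne'
  have h4 := (Real.rpow_eq_zero (abs_nonneg _) hr.ne').mp h3
  exact abs_eq_zero.mp h4

/-- The error bound at one pair, all coordinates together. -/
theorem err_core {p r : ℝ} (hp : 1 < p) (hr : 0 < r) (hrp : r < p) :
    ∃ C : ℝ, 0 < C ∧ ∀ (ι : Type*) [Fintype ι] (S : Finset ℤ) (δ : ι → ℤ → ℝ) (g : ι → ℝ) (c : ℝ),
      0 < c → ∀ (L : ℕ), 0 < L →
      (∀ t, ∀ l ∈ S, |δ t l| ≤ c * (2 : ℝ) ^ (l : ℝ)) → (∀ t, ∑ l ∈ S, δ t l = g t) →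
      ∃ l₀ : ι → ℤ,
        (∀ t, g t ≠ 0 → ((2 : ℝ) ^ (l₀ t : ℝ)) ^ p ≤ budget p r S (δ t) / c ^ r) ∧
        ∀ U : Finset ℤ, ∑ t, ∑ u ∈ U, |∑ l ∈ S, tent L (u - l) * δ t l - tent L (u - l₀ t) * g t| ^ p
          ≤ C * (L : ℝ) ^ (1 - p) * c ^ (p - r) * ∑ t, budget p r S (δ t) := by
  have hp0 : 0 < p := by linarith
  obtain ⟨C₀, hC₀, hcenter⟩ := exists_center (p := p) (r := r) hr hrp
  refine ⟨4 * C₀ ^ p, by positivity, ?_⟩
  intro ι _ S δ g c hc L hL hδ hg
  have hcr : 0 < c ^ r := by positivity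
  have hL' : (0 : ℝ) < L := by exact_mod_cast hL
  -- choose the centers coordinatewise
  have hex : ∀ t, ∃ l₀ : ℤ, (g t ≠ 0 → ((2 : ℝ) ^ (l₀ : ℝ)) ^ p ≤ budget p r S (δ t) / c ^ r) ∧
      (∑ l ∈ S, |δ t l| * |(l : ℝ) - l₀|) ^ p
        ≤ C₀ ^ p * (c ^ (p - r) * budget p r S (δ t)) := by
    intro t
    rcases (budget_nonneg p r S (δ t)).eq_or_lt with h0 | hpos
    · have hz := eq_zero_of_budget_eq_zero hr h0.symm
      refine ⟨0, ?_, ?_⟩
      · intro hgt
        exfalso
        apply hgt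
        rw [← hg t]
        exact Finset.sum_eq_zero hz
      · have : ∑ l ∈ S, |δ t l| * |(l : ℝ) - ((0 : ℤ) : ℝ)| = 0 :=
          Finset.sum_eq_zero fun l hl => by rw [hz l hl]; simp
        rw [this, Real.zero_rpow hp0.ne', ← h0]
        simp
    · obtain ⟨l₀, h1, h2⟩ := hcenter c hc S (δ t) (hδ t) _ rfl hpos
      set T := budget p r S (δ t) with hT
      have hT' : T = ∑ l ∈ S, |δ t l| ^ r * (2 : ℝ) ^ ((l : ℝ) * (p - r)) := rfl
      have h2' : ∑ l ∈ S, |δ t l| * |(l : ℝ) - l₀| ≤ C₀ * (c * (T / c ^ r) ^ (1 / p)) := by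
        rw [hT']; exact h2
      have h1' : (2 : ℝ) ^ (l₀ : ℝ) ≤ (T / c ^ r) ^ (1 / p) := by
        rw [hT']; exact h1
      have hTc : 0 < T / c ^ r := by positivity
      have hYp : ((T / c ^ r) ^ (1 / p)) ^ p = T / c ^ r := by
        rw [← Real.rpow_mul hTc.le, one_div, inv_mul_cancel₀ hp0.ne', Real.rpow_one]
      refine ⟨l₀, ?_, ?_⟩
      · intro _
        calc ((2 : ℝ) ^ (l₀ : ℝ)) ^ p ≤ ((T / c ^ r) ^ (1 / p)) ^ p :=
              Real.rpow_le_rpow (by positivity) h1' hp0.le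
          _ = T / c ^ r := hYp
      · calc (∑ l ∈ S, |δ t l| * |(l : ℝ) - l₀|) ^ p
            ≤ (C₀ * (c * (T / c ^ r) ^ (1 / p))) ^ p :=
              Real.rpow_le_rpow (Finset.sum_nonneg fun _ _ => by positivity) h2' hp0.le
          _ = C₀ ^ p * (c ^ p * (T / c ^ r)) := by
              rw [Real.mul_rpow hC₀.le (by positivity), Real.mul_rpow hc.le (by positivity), hYp]
          _ = C₀ ^ p * (c ^ (p - r) * T) := by
              congr 1
              rw [Real.rpow_sub hc]
              field_simp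
  choose l₀ hl1 hl2 using hex
  refine ⟨l₀, hl1, ?_⟩
  intro U
  have hstep : ∀ t, ∑ u ∈ U, |∑ l ∈ S, tent L (u - l) * δ t l - tent L (u - l₀ t) * g t| ^ p
      ≤ 4 * C₀ ^ p * (L : ℝ) ^ (1 - p) * c ^ (p - r) * budget p r S (δ t) := by
    intro t
    have h := coord_err hp hL S U (δ t) (l₀ t)
    rw [hg t] at h
    refine h.trans ?_
    have := mul_le_mul_of_nonneg_left (hl2 t)
      (by positivity : 0 ≤ 4 * (L : ℝ) ^ (1 - p))
    calc _ ≤ _ := this
      _ = _ := by ring
  calc _ ≤ ∑ t, 4 * C₀ ^ p * (L : ℝ) ^ (1 - p) * c ^ (p - r) * budget p r S (δ t) :=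
        Finset.sum_le_sum fun t _ => hstep t
    _ = _ := by rw [Finset.mul_sum]

end Crest.Agent.LpDimRed.Bands
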