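import Mathlib

/-!
# The entropy bound for the stretch of electrical flows

For a finite weighted graph with conductances `c` and lengths `d` (so that `lam = c d²`) and
solutions `u^{a' b'}` of the Poisson equations `Δ u = δ_{a'} - δ_{b'}`, one has
`∑ c_e d_e c_{e'} d_{e'} |u^{e'}(e)| ≤ 16 (∑ lam) log n`, all sums over ordered pairs.

The proof runs a lazy reversible chain with stationary measure proportional to the vertex marginal
of `lam`, writes the Green function as a sum over time of mixed differences of the transition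
densities, and pays with the decrease of the entropy of the transition densities.
-/

namespace Crest.Agent.LpDimRed

open Finset

/-- `(√a - √m)² ≤ a log a - a log m - a + m` -/
lemma sq_sqrt_sub_le {a m : ℝ} (ha : 0 ≤ a) (hm : 0 < m) :
    (Real.sqrt a - Real.sqrt m) ^ 2 ≤ a * Real.log a - a * Real.log m - a + m := by
  rcases ha.eq_or_lt with rfl | ha'
  · simp [Real.sq_sqrt hm.le]
  · have hu : 0 < Real.sqrt a := Real.sqrt_pos.2 ha'
    have hv : 0 < Real.sqrt m := Real.sqrt_pos.2 hm
    set u := Real.sqrt a with hu'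
    set v := Real.sqrt m with hv'
    have ea : a = u ^ 2 := (Real.sq_sqrt ha).symm
    have em : m = v ^ 2 := (Real.sq_sqrt hm.le).symm
    have l1 : Real.log (v / u) ≤ v / u - 1 := Real.log_le_sub_one_of_pos (div_pos hv hu)
    have l2 : Real.log (v / u) = Real.log v - Real.log u := Real.log_div hv.ne' hu.ne'
    have l3 : Real.log a = 2 * Real.log u := by
      rw [ea, Real.log_pow]
      norm_num
    have l4 : Real.log m = 2 * Real.log v := by
      rw [em, Real.log_pow]
      norm_num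
    rw [l3, l4]
    have h5 : u * (Real.log v - Real.log u) ≤ v - u := by
      have := mul_le_mul_of_nonneg_left l1 hu.le
      rw [l2] at this
      have e : u * (v / u - 1) = v - u := by
        field_simp
      linarith
    rw [ea, em]
    nlinarith [mul_le_mul_of_nonneg_left h5 hu.le]

variable {V : Type*} [Fintype V]

/-- A reversible chain with positive transition probabilities, lazy at level one half. -/
structure LazyChain (V : Type*) [Fintype V] where
  pi : V → ℝ
  P : V → V → ℝ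
  pi_pos : ∀ a, 0 < pi a
  P_pos : ∀ a b, 0 < P a b
  P_sum : ∀ a, ∑ b, P a b = 1
  rev : ∀ a b, pi a * P a b = pi b * P b a
  lazy : ∀ a, 1 / 2 ≤ P a a

namespace LazyChain

variable (X : LazyChain V)

/-- the action of the chain on functions -/
def act (f : V → ℝ) : V → ℝ := fun a => ∑ b, X.P a b * f b

/-- the inner product of the stationary measure -/
def ip (f g : V → ℝ) : ℝ := ∑ a, X.pi a * (f a * g a)

lemma ip_comm (f g : V → ℝ) : X.ip f g = X.ip g f := by
  unfold ip
  exact Finset.sum_congr rfl fun a _ => by ring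

lemma ip_act (f g : V → ℝ) : X.ip (X.act f) g = X.ip f (X.act g) := by
  unfold ip act
  simp only [Finset.sum_mul, Finset.mul_sum]
  rw [Finset.sum_comm]
  refine Finset.sum_congr rfl fun a _ => Finset.sum_congr rfl fun b _ => ?_
  have := X.rev a b
  linear_combination (-(f a * g b)) * this

/-- iterates of the chain -/
def iter (j : ℕ) (f : V → ℝ) : V → ℝ := (X.act)^[j] f

lemma iter_zero (f : V → ℝ) : X.iter 0 f = f := rfl

lemma iter_succ (j : ℕ) (f : V → ℝ) : X.iter (j + 1) f = X.act (X.iter j f) :=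
  Function.iterate_succ_apply' _ _ _

lemma iter_succ' (j : ℕ) (f : V → ℝ) : X.iter (j + 1) f = X.iter j (X.act f) :=
  Function.iterate_succ_apply _ _ _

lemma iter_add (i l : ℕ) (f : V → ℝ) : X.iter (i + l) f = X.iter i (X.iter l f) :=
  Function.iterate_add_apply _ _ _ _

lemma ip_iter (j : ℕ) (f g : V → ℝ) : X.ip (X.iter j f) g = X.ip f (X.iter j g) := by
  induction j generalizing g with
  | zero => rfl
  | succ j ih => rw [iter_succ, ip_act, ih, iter_succ']

lemma act_nonneg {f : V → ℝ} (hf : ∀ a, 0 ≤ f a) (a : V) : 0 ≤ X.act f a :=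
  Finset.sum_nonneg fun b _ => mul_nonneg (X.P_pos a b).le (hf b)

lemma iter_nonneg {f : V → ℝ} (hf : ∀ a, 0 ≤ f a) (j : ℕ) (a : V) : 0 ≤ X.iter j f a := by
  induction j generalizing a with
  | zero => exact hf a
  | succ j ih =>
    rw [iter_succ]
    exact X.act_nonneg ih a

lemma act_sub (f g : V → ℝ) : X.act (f - g) = X.act f - X.act g := by
  funext a
  simp only [act, Pi.sub_apply, mul_sub, Finset.sum_sub_distrib]

lemma iter_sub (j : ℕ) (f g : V → ℝ) : X.iter j (f - g) = X.iter j f - X.iter j g := by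
  induction j with
  | zero => rfl
  | succ j ih => rw [iter_succ, iter_succ, iter_succ, ih, act_sub]

lemma act_add (f g : V → ℝ) : X.act (f + g) = X.act f + X.act g := by
  funext a
  simp only [act, Pi.add_apply, mul_add, Finset.sum_add_distrib]

lemma iter_add_fun (j : ℕ) (f g : V → ℝ) : X.iter j (f + g) = X.iter j f + X.iter j g := by
  induction j with
  | zero => rfl
  | succ j ih => rw [iter_succ, iter_succ, iter_succ, ih, act_add]

lemma act_one : X.act (fun _ => 1) = fun _ => 1 := by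
  funext a
  simp [act, X.P_sum]

lemma sum_pi_P (x : V) : ∑ y, X.pi y * X.P y x = X.pi x := by
  calc ∑ y, X.pi y * X.P y x = ∑ y, X.pi x * X.P x y :=
        Finset.sum_congr rfl fun y _ => X.rev y x
    _ = X.pi x := by rw [← Finset.mul_sum, X.P_sum, mul_one]

/-- total mass of a function for the stationary measure -/
def mass (f : V → ℝ) : ℝ := ∑ a, X.pi a * f a

lemma mass_act (f : V → ℝ) : X.mass (X.act f) = X.mass f := by
  have := X.ip_act (fun _ => 1) f
  rw [act_one] at this
  simpa [ip, mass] using this.symm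

lemma mass_iter (j : ℕ) (f : V → ℝ) : X.mass (X.iter j f) = X.mass f := by
  induction j with
  | zero => rfl
  | succ j ih => rw [iter_succ, mass_act, ih]

/-- the entropy of a density -/
noncomputable def ent (f : V → ℝ) : ℝ := ∑ a, X.pi a * (f a * Real.log (f a))

/-- the Dirichlet form of the chain -/
noncomputable def dir (g : V → ℝ) : ℝ := (1 / 2) * ∑ y, ∑ x, X.pi y * X.P y x * (g x - g y) ^ 2

lemma dir_nonneg (g : V → ℝ) : 0 ≤ X.dir g := by
  unfold dir
  have : 0 ≤ ∑ y, ∑ x, X.pi y * X.P y x * (g x - g y) ^ 2 :=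
    Finset.sum_nonneg fun y _ => Finset.sum_nonneg fun x _ =>
      mul_nonneg (mul_nonneg (X.pi_pos y).le (X.P_pos y x).le) (sq_nonneg _)
  linarith

/-- laziness -/
lemma half_sum_le [DecidableEq V] (y : V) (g : V → ℝ) (t : ℝ) :
    (1 / 2) * ∑ x, X.P y x * (g x - g y) ^ 2 ≤ ∑ x, X.P y x * (g x - t) ^ 2 := by
  have hsum : ∑ x ∈ Finset.univ.erase y, X.P y x = 1 - X.P y y := by
    have := Finset.add_sum_erase Finset.univ (fun x => X.P y x) (Finset.mem_univ y)
    rw [X.P_sum] at this
    linarith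
  have e1 : ∑ x, X.P y x * (g x - g y) ^ 2 = ∑ x ∈ Finset.univ.erase y, X.P y x * (g x - g y) ^ 2 := by
    have := Finset.add_sum_erase Finset.univ (fun x => X.P y x * (g x - g y) ^ 2) (Finset.mem_univ y)
    simp only [sub_self] at this
    rw [← this]
    ring
  have e2 : ∑ x, X.P y x * (g x - t) ^ 2 =
      X.P y y * (g y - t) ^ 2 + ∑ x ∈ Finset.univ.erase y, X.P y x * (g x - t) ^ 2 :=
    (Finset.add_sum_erase Finset.univ (fun x => X.P y x * (g x - t) ^ 2) (Finset.mem_univ y)).symm
  rw [e1, e2]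
  have h1 : (1 / 2) * ∑ x ∈ Finset.univ.erase y, X.P y x * (g x - g y) ^ 2 ≤
      ∑ x ∈ Finset.univ.erase y, X.P y x * ((g x - t) ^ 2 + (g y - t) ^ 2) := by
    rw [Finset.mul_sum]
    refine Finset.sum_le_sum fun x _ => ?_
    have := (X.P_pos y x).le
    nlinarith [mul_nonneg this (sq_nonneg (g x + g y - 2 * t))]
  have h2 : ∑ x ∈ Finset.univ.erase y, X.P y x * ((g x - t) ^ 2 + (g y - t) ^ 2) =
      ∑ x ∈ Finset.univ.erase y, X.P y x * (g x - t) ^ 2 + (1 - X.P y y) * (g y - t) ^ 2 := by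
    rw [← hsum, Finset.sum_mul, ← Finset.sum_add_distrib]
    exact Finset.sum_congr rfl fun x _ => by ring
  have h3 : (1 - X.P y y) * (g y - t) ^ 2 ≤ X.P y y * (g y - t) ^ 2 :=
    mul_le_mul_of_nonneg_right (by linarith [X.lazy y]) (sq_nonneg _)
  linarith

/-- the entropy inequality at one point -/
lemma key_y [DecidableEq V] {f : V → ℝ} (hf : ∀ x, 0 ≤ f x) (y : V) :
    (1 / 2) * ∑ x, X.P y x * (Real.sqrt (f x) - Real.sqrt (f y)) ^ 2 ≤
      ∑ x, X.P y x * (f x * Real.log (f x)) - X.act f y * Real.log (X.act f y) := by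
  set m := X.act f y with hm
  have hm0 : 0 ≤ m := X.act_nonneg hf y
  rcases hm0.eq_or_lt with h0 | hpos
  · have hz : ∀ x, f x = 0 := by
      intro x
      have := (Finset.sum_eq_zero_iff_of_nonneg
        (fun x _ => mul_nonneg (X.P_pos y x).le (hf x))).1 h0.symm x (Finset.mem_univ x)
      rcases mul_eq_zero.1 this with h | h
      · exact absurd h (X.P_pos y x).ne'
      · exact h
    simp [hz, ← h0]
  · have h1 := X.half_sum_le y (fun x => Real.sqrt (f x)) (Real.sqrt m)
    refine h1.trans ?_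
    have e1 : ∑ x, X.P y x * (f x * Real.log (f x)) - m * Real.log m =
        ∑ x, X.P y x * (f x * Real.log (f x) - f x * Real.log m - f x + m) := by
      simp only [mul_sub, mul_add, Finset.sum_add_distrib, Finset.sum_sub_distrib]
      have e2 : ∑ x, X.P y x * (f x * Real.log m) = m * Real.log m := by
        simp only [hm, act, Finset.sum_mul]
        exact Finset.sum_congr rfl fun x _ => by ring
      have e3 : ∑ x, X.P y x * f x = m := rfl
      have e4 : ∑ x, X.P y x * m = m := by rw [← Finset.sum_mul, X.P_sum, one_mul]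
      rw [e2, e3, e4]
      ring
    rw [e1]
    exact Finset.sum_le_sum fun x _ =>
      mul_le_mul_of_nonneg_left (sq_sqrt_sub_le (hf x) hpos) (X.P_pos y x).le

/-- The Dirichlet form of the root of a density is bounded by the decrease of the entropy. -/
lemma dir_sqrt_le [DecidableEq V] {f : V → ℝ} (hf : ∀ x, 0 ≤ f x) :
    X.dir (fun x => Real.sqrt (f x)) ≤ X.ent f - X.ent (X.act f) := by
  have e1 : X.ent f = ∑ y, ∑ x, X.pi y * (X.P y x * (f x * Real.log (f x))) := by
    rw [Finset.sum_comm]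
    unfold ent
    refine Finset.sum_congr rfl fun x _ => ?_
    simp only [← mul_assoc]
    rw [← Finset.sum_mul, ← X.sum_pi_P x]
    rw [Finset.sum_mul, Finset.sum_mul]
  have e2 : X.ent f - X.ent (X.act f) =
      ∑ y, X.pi y * (∑ x, X.P y x * (f x * Real.log (f x)) - X.act f y * Real.log (X.act f y)) := by
    rw [e1]
    unfold ent
    rw [← Finset.sum_sub_distrib]
    refine Finset.sum_congr rfl fun y _ => ?_
    rw [mul_sub, Finset.mul_sum]
  rw [e2]
  unfold dir
  rw [Finset.mul_sum]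
  refine Finset.sum_le_sum fun y _ => ?_
  have := mul_le_mul_of_nonneg_left (X.key_y hf y) (X.pi_pos y).le
  refine le_trans (le_of_eq ?_) this
  rw [Finset.mul_sum, Finset.mul_sum, Finset.mul_sum]
  exact Finset.sum_congr rfl fun x _ => by ring

/-- the total mass of the stationary measure -/
def tot : ℝ := ∑ a, X.pi a

lemma tot_pos [Nonempty V] : 0 < X.tot :=
  Finset.sum_pos (fun a _ => X.pi_pos a) Finset.univ_nonempty

lemma ent_ge [Nonempty V] {f : V → ℝ} (hf : ∀ x, 0 ≤ f x) (hm : X.mass f = 1) :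
    Real.log (X.tot⁻¹) ≤ X.ent f := by
  have hM := X.tot_pos
  have ht : 0 < X.tot⁻¹ := inv_pos.2 hM
  have h1 : ∀ a, X.pi a * (f a * Real.log (X.tot⁻¹) + f a - X.tot⁻¹) ≤ X.pi a * (f a * Real.log (f a)) := by
    intro a
    refine mul_le_mul_of_nonneg_left ?_ (X.pi_pos a).le
    have := sq_sqrt_sub_le (hf a) ht
    nlinarith [sq_nonneg (Real.sqrt (f a) - Real.sqrt X.tot⁻¹)]
  have h2 := Finset.sum_le_sum fun a (_ : a ∈ Finset.univ) => h1 a
  have h3 : ∑ a, X.pi a * (f a * Real.log (X.tot⁻¹) + f a - X.tot⁻¹) =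
      X.mass f * Real.log (X.tot⁻¹) + X.mass f - X.tot * X.tot⁻¹ := by
    unfold mass tot
    rw [Finset.sum_mul, Finset.sum_mul, ← Finset.sum_add_distrib, ← Finset.sum_sub_distrib]
    exact Finset.sum_congr rfl fun a _ => by ring
  rw [h3, hm, mul_inv_cancel₀ hM.ne'] at h2
  unfold ent
  linarith

variable [DecidableEq V]

/-- the density of a point mass -/
noncomputable def e (v : V) : V → ℝ := fun a => if a = v then (X.pi v)⁻¹ else 0

lemma e_nonneg (v a : V) : 0 ≤ X.e v a := by
  unfold e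
  split_ifs
  · exact (inv_pos.2 (X.pi_pos v)).le
  · exact le_rfl

lemma ip_e (a : V) (g : V → ℝ) : X.ip (X.e a) g = g a := by
  unfold ip e
  rw [Finset.sum_eq_single a]
  · simp only [if_true]
    have := (X.pi_pos a).ne'
    field_simp
  · intro b _ hb
    simp [hb]
  · simp

lemma mass_e (v : V) : X.mass (X.e v) = 1 := by
  have := X.ip_e v (fun _ => 1)
  simpa [ip, mass] using this

lemma ent_e (v : V) : X.ent (X.e v) = Real.log ((X.pi v)⁻¹) := by
  unfold ent e
  rw [Finset.sum_eq_single v]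
  · simp only [if_true]
    have := (X.pi_pos v).ne'
    rw [← mul_assoc, mul_inv_cancel₀ this, one_mul]
  · intro b _ hb
    simp [hb]
  · simp

/-- the transition densities -/
noncomputable def rho (j : ℕ) (a v : V) : ℝ := X.iter j (X.e v) a

lemma rho_nonneg (j : ℕ) (a v : V) : 0 ≤ X.rho j a v :=
  X.iter_nonneg (X.e_nonneg v) j a

lemma rho_eq_ip (j : ℕ) (a v : V) : X.rho j a v = X.ip (X.e a) (X.iter j (X.e v)) :=
  (X.ip_e a _).symm

lemma rho_symm (j : ℕ) (a v : V) : X.rho j a v = X.rho j v a := by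
  rw [rho_eq_ip, ← ip_iter, ip_comm, ← rho_eq_ip]

lemma rho_add (i l : ℕ) (a a' : V) :
    X.rho (i + l) a a' = ∑ v, X.pi v * (X.rho i a v * X.rho l a' v) := by
  rw [rho_eq_ip]
  unfold rho
  rw [iter_add, ← ip_iter]
  unfold ip
  refine Finset.sum_congr rfl fun v _ => ?_
  have := X.rho_symm i v a
  have h2 := X.rho_symm l v a'
  unfold rho at this h2
  rw [this, h2]

lemma mass_rho (j : ℕ) (v : V) : ∑ a, X.pi a * X.rho j a v = 1 := by
  have := X.mass_iter j (X.e v)
  rw [mass_e] at this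
  exact this

/-- entropy telescoping -/
lemma sum_dir_le [Nonempty V] (J : ℕ) (v : V) :
    ∑ i ∈ Finset.range J, X.dir (fun x => Real.sqrt (X.rho i x v)) ≤
      Real.log ((X.pi v)⁻¹) - Real.log (X.tot⁻¹) := by
  have h : ∀ J : ℕ, ∑ i ∈ Finset.range J, X.dir (fun x => Real.sqrt (X.rho i x v)) ≤
      X.ent (X.e v) - X.ent (X.iter J (X.e v)) := by
    intro J
    induction J with
    | zero => simp [iter_zero]
    | succ J ih =>
      rw [Finset.sum_range_succ, iter_succ]
      have := X.dir_sqrt_le (f := X.iter J (X.e v)) (X.iter_nonneg (X.e_nonneg v) J)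
      have e : X.dir (fun x => Real.sqrt (X.rho J x v)) =
          X.dir (fun x => Real.sqrt (X.iter J (X.e v) x)) := rfl
      rw [e]
      linarith
  have h1 := h J
  have h2 := X.ent_ge (f := X.iter J (X.e v)) (X.iter_nonneg (X.e_nonneg v) J)
    (by rw [mass_iter, mass_e])
  rw [ent_e] at h1
  linarith

omit [DecidableEq V] in
/-- the Gibbs inequality -/
lemma gibbs [Nonempty V] :
    ∑ v, X.pi v * (Real.log ((X.pi v)⁻¹) - Real.log (X.tot⁻¹)) ≤
      X.tot * Real.log (Fintype.card V : ℝ) := by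
  have hM := X.tot_pos
  have hn : (0 : ℝ) < Fintype.card V := by exact_mod_cast Fintype.card_pos
  have h1 : ∀ v, X.pi v * (Real.log ((X.pi v)⁻¹) - Real.log (X.tot⁻¹)) ≤
      X.pi v * Real.log (Fintype.card V : ℝ) + (X.tot / Fintype.card V - X.pi v) := by
    intro v
    have hp := X.pi_pos v
    have hx : 0 < X.tot / (Fintype.card V * X.pi v) := by positivity
    have l := Real.log_le_sub_one_of_pos hx
    have e1 : Real.log (X.tot / (Fintype.card V * X.pi v)) =
        (Real.log ((X.pi v)⁻¹) - Real.log (X.tot⁻¹)) - Real.log (Fintype.card V : ℝ) := by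
      rw [Real.log_inv, Real.log_inv, Real.log_div hM.ne' (by positivity), Real.log_mul hn.ne' hp.ne']
      ring
    rw [e1] at l
    have := mul_le_mul_of_nonneg_left l hp.le
    have e2 : X.pi v * (X.tot / (Fintype.card V * X.pi v) - 1) = X.tot / Fintype.card V - X.pi v := by
      field_simp
    rw [e2] at this
    linarith
  have h2 := Finset.sum_le_sum fun v (_ : v ∈ Finset.univ) => h1 v
  have h3 : ∑ v : V, (X.pi v * Real.log (Fintype.card V : ℝ) + (X.tot / Fintype.card V - X.pi v)) =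
      X.tot * Real.log (Fintype.card V : ℝ) := by
    rw [Finset.sum_add_distrib, Finset.sum_sub_distrib, ← Finset.sum_mul]
    simp only [Finset.sum_const, Finset.card_univ, nsmul_eq_mul]
    have : (Fintype.card V : ℝ) * (X.tot / Fintype.card V) = X.tot := by
      field_simp
    rw [this]
    unfold tot
    ring
  linarith

/-- the total of the Dirichlet forms over time and target points -/
lemma sum_sum_dir_le [Nonempty V] (J : ℕ) :
    ∑ i ∈ Finset.range J, ∑ v, X.pi v * X.dir (fun x => Real.sqrt (X.rho i x v)) ≤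
      X.tot * Real.log (Fintype.card V : ℝ) := by
  rw [Finset.sum_comm]
  refine le_trans ?_ X.gibbs
  refine Finset.sum_le_sum fun v _ => ?_
  rw [← Finset.mul_sum]
  exact mul_le_mul_of_nonneg_left (X.sum_dir_le J v) (X.pi_pos v).le

/-- the mixed difference -/
lemma mixed (i l : ℕ) (a b a' b' : V) :
    X.rho (i + l) a a' - X.rho (i + l) a b' - X.rho (i + l) b a' + X.rho (i + l) b b' =
      ∑ v, X.pi v * ((X.rho i a v - X.rho i b v) * (X.rho l a' v - X.rho l b' v)) := by
  rw [rho_add, rho_add, rho_add, rho_add, ← Finset.sum_sub_distrib, ← Finset.sum_sub_distrib,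
    ← Finset.sum_add_distrib]
  exact Finset.sum_congr rfl fun v _ => by ring

/-! ### contraction of the oscillation -/

omit [DecidableEq V] in
/-- One step contracts the oscillation when all transition probabilities are at least `κ`. -/
lemma act_osc [Nonempty V] {κ C : ℝ} (hκ : ∀ a b, κ ≤ X.P a b) (h0 : 0 ≤ κ) (h1 : κ ≤ 1)
    {f : V → ℝ} (hf : ∀ a b, f a - f b ≤ C) (a b : V) :
    X.act f a - X.act f b ≤ (1 - κ) * C := by
  obtain ⟨x0, -, hx0⟩ := Finset.exists_min_image Finset.univ f Finset.univ_nonempty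
  obtain ⟨x1, -, hx1⟩ := Finset.exists_max_image Finset.univ f Finset.univ_nonempty
  set M := f x1 with hM
  set m := f x0 with hm
  have hle : m ≤ M := hx0 x1 (Finset.mem_univ _)
  have hC : M - m ≤ C := hf x1 x0
  have u1 : X.act f a ≤ M - κ * (M - m) := by
    have e : X.act f a = M + ∑ x, X.P a x * (f x - M) := by
      unfold act
      simp only [mul_sub, Finset.sum_sub_distrib]
      rw [← Finset.sum_mul, X.P_sum]
      ring
    rw [e]
    have h2 : ∑ x, X.P a x * (f x - M) ≤ X.P a x0 * (f x0 - M) := by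
      have := Finset.sum_le_sum_of_subset_of_nonneg (s := {x0}) (t := Finset.univ)
        (f := fun x => -(X.P a x * (f x - M))) (Finset.subset_univ _)
        (fun x _ _ => by
          have := hx1 x (Finset.mem_univ x)
          have hp := (X.P_pos a x).le
          nlinarith)
      simp only [Finset.sum_singleton, Finset.sum_neg_distrib] at this
      linarith
    have h3 : κ * (m - M) ≥ X.P a x0 * (f x0 - M) := by
      have hp := hκ a x0
      have : m - M ≤ 0 := by linarith
      nlinarith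
    linarith
  have u2 : M - (1 - κ) * (M - m) - (M - m) * κ ≤ X.act f b - κ * (M - m) + κ * (M - m) + 0 := by
    have e : X.act f b = m + ∑ x, X.P b x * (f x - m) := by
      unfold act
      simp only [mul_sub, Finset.sum_sub_distrib]
      rw [← Finset.sum_mul, X.P_sum]
      ring
    have h2 : X.P b x1 * (f x1 - m) ≤ ∑ x, X.P b x * (f x - m) := by
      have := Finset.sum_le_sum_of_subset_of_nonneg (s := {x1}) (t := Finset.univ)
        (f := fun x => X.P b x * (f x - m)) (Finset.subset_univ _)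
        (fun x _ _ => by
          have := hx0 x (Finset.mem_univ x)
          have hp := (X.P_pos b x).le
          nlinarith)
      simpa using this
    have h3 : κ * (M - m) ≤ X.P b x1 * (f x1 - m) := by
      have hp := hκ b x1
      have : 0 ≤ M - m := by linarith
      nlinarith
    rw [e]
    nlinarith
  have h4 : (1 - κ) * (M - m) ≤ (1 - κ) * C := mul_le_mul_of_nonneg_left hC (by linarith)
  nlinarith [mul_nonneg h0 (sub_nonneg.2 hle)]

omit [DecidableEq V] in
lemma iter_osc [Nonempty V] {κ C : ℝ} (hκ : ∀ a b, κ ≤ X.P a b) (h0 : 0 ≤ κ) (h1 : κ ≤ 1)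
    {f : V → ℝ} (hf : ∀ a b, f a - f b ≤ C) (j : ℕ) (a b : V) :
    X.iter j f a - X.iter j f b ≤ (1 - κ) ^ j * C := by
  induction j generalizing a b with
  | zero => simpa [iter_zero] using hf a b
  | succ j ih =>
    rw [iter_succ]
    have := X.act_osc hκ h0 h1 (C := (1 - κ) ^ j * C) ih a b
    rw [pow_succ']
    linarith

omit [DecidableEq V] in
/-- iterates of any function tend to a constant -/
lemma tendsto_iter_sub (f : V → ℝ) (a b : V) :
    Filter.Tendsto (fun j => |X.iter j f a - X.iter j f b|) Filter.atTop (nhds 0) := by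
  have : Nonempty V := ⟨a⟩
  obtain ⟨p0, -, hp0⟩ := Finset.exists_min_image (Finset.univ : Finset (V × V))
    (fun p => X.P p.1 p.2) Finset.univ_nonempty
  set κ := X.P p0.1 p0.2 with hκdef
  have hκ : ∀ a b, κ ≤ X.P a b := fun a b => hp0 (a, b) (Finset.mem_univ _)
  have hκ0 : 0 < κ := X.P_pos _ _
  have hκ1 : κ ≤ 1 := by
    have h := Finset.single_le_sum (f := fun b => X.P p0.1 b) (fun b _ => (X.P_pos p0.1 b).le)
      (Finset.mem_univ p0.2)
    rw [X.P_sum] at h
    exact h
  obtain ⟨C, hC⟩ : ∃ C, ∀ a b, f a - f b ≤ C := by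
    obtain ⟨x0, -, hx0⟩ := Finset.exists_min_image Finset.univ f Finset.univ_nonempty
    obtain ⟨x1, -, hx1⟩ := Finset.exists_max_image Finset.univ f Finset.univ_nonempty
    refine ⟨f x1 - f x0, fun a b => ?_⟩
    have := hx0 b (Finset.mem_univ _)
    have := hx1 a (Finset.mem_univ _)
    linarith
  have hlim : Filter.Tendsto (fun j : ℕ => (1 - κ) ^ j * C) Filter.atTop (nhds 0) := by
    have := (tendsto_pow_atTop_nhds_zero_of_lt_one (r := 1 - κ) (by linarith) (by linarith)).mul_const C
    simpa using this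
  refine squeeze_zero (fun j => abs_nonneg _) (fun j => ?_) hlim
  rw [abs_le]
  constructor
  · have := X.iter_osc hκ hκ0.le hκ1 hC j b a
    linarith
  · exact X.iter_osc hκ hκ0.le hκ1 hC j a b

end LazyChain

/-! ### the weighted sums -/

section Main

variable [DecidableEq V]

/-- The data of the chain built from conductances and lengths. -/
structure ChainData (c d : V → V → ℝ) where
  X : LazyChain V
  θ : ℝ
  θ_pos : 0 < θ
  hpi : ∀ a, X.pi a = θ * ∑ b, c a b * d a b ^ 2
  hP : ∀ a b, a ≠ b → X.pi a * X.P a b = c a b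

namespace ChainData

variable {c d : V → V → ℝ} (D : ChainData c d)

/-- the weighted variation of a transition density -/
noncomputable def Q (i : ℕ) (v : V) : ℝ :=
  ∑ e : V × V, c e.1 e.2 * d e.1 e.2 * |D.X.rho i e.1 v - D.X.rho i e.2 v|

lemma Q_nonneg (hc : ∀ a b, 0 ≤ c a b) (hd : ∀ a b, 0 ≤ d a b) (i : ℕ) (v : V) : 0 ≤ D.Q i v :=
  Finset.sum_nonneg fun _ _ => mul_nonneg (mul_nonneg (hc _ _) (hd _ _)) (abs_nonneg _)

lemma Q_sq_le (hc : ∀ a b, 0 ≤ c a b) (hd : ∀ a b, 0 ≤ d a b) (hc0 : ∀ a, c a a = 0)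
    (hcs : ∀ a b, c a b = c b a) (hds : ∀ a b, d a b = d b a) (i : ℕ) (v : V) :
    D.Q i v ^ 2 ≤ (8 / D.θ) * D.X.dir (fun x => Real.sqrt (D.X.rho i x v)) := by
  set ρ : V → ℝ := fun x => D.X.rho i x v with hρ
  have hρ0 : ∀ x, 0 ≤ ρ x := fun x => D.X.rho_nonneg i x v
  set f : V × V → ℝ := fun e => Real.sqrt (c e.1 e.2) * |Real.sqrt (ρ e.1) - Real.sqrt (ρ e.2)| with hf
  set g : V × V → ℝ := fun e =>
    Real.sqrt (c e.1 e.2) * d e.1 e.2 * (Real.sqrt (ρ e.1) + Real.sqrt (ρ e.2)) with hg
  have hfg : D.Q i v = ∑ e, f e * g e := by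
    unfold Q
    refine Finset.sum_congr rfl fun e _ => ?_
    simp only [hf, hg]
    have h1 : Real.sqrt (c e.1 e.2) * Real.sqrt (c e.1 e.2) = c e.1 e.2 := Real.mul_self_sqrt (hc _ _)
    have h2 : |D.X.rho i e.1 v - D.X.rho i e.2 v| =
        |Real.sqrt (ρ e.1) - Real.sqrt (ρ e.2)| * (Real.sqrt (ρ e.1) + Real.sqrt (ρ e.2)) := by
      have hs : 0 ≤ Real.sqrt (ρ e.1) + Real.sqrt (ρ e.2) := by positivity
      have e1 := Real.sq_sqrt (hρ0 e.1)
      have e2 := Real.sq_sqrt (hρ0 e.2)
      have e0 : D.X.rho i e.1 v - D.X.rho i e.2 v =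
          (Real.sqrt (ρ e.1) - Real.sqrt (ρ e.2)) * (Real.sqrt (ρ e.1) + Real.sqrt (ρ e.2)) := by
        have e3 : D.X.rho i e.1 v = ρ e.1 := rfl
        have e4 : D.X.rho i e.2 v = ρ e.2 := rfl
        rw [e3, e4]
        nlinarith
      rw [e0, abs_mul, abs_of_nonneg hs]
    rw [h2]
    calc _ = (Real.sqrt (c e.1 e.2) * Real.sqrt (c e.1 e.2)) * d e.1 e.2 *
          (|Real.sqrt (ρ e.1) - Real.sqrt (ρ e.2)| * (Real.sqrt (ρ e.1) + Real.sqrt (ρ e.2))) := by
            rw [h1]
      _ = _ := by ring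
  have hcs' := Finset.sum_mul_sq_le_sq_mul_sq Finset.univ f g
  rw [← hfg] at hcs'
  -- first factor
  have hF : ∑ e, f e ^ 2 = 2 * D.X.dir (fun x => Real.sqrt (ρ x)) := by
    have : ∀ e : V × V, f e ^ 2 = D.X.pi e.1 * D.X.P e.1 e.2 *
        (Real.sqrt (ρ e.2) - Real.sqrt (ρ e.1)) ^ 2 := by
      intro e
      simp only [hf]
      rw [mul_pow, Real.sq_sqrt (hc _ _), sq_abs]
      by_cases h : e.1 = e.2
      · rw [h]
        simp
      · rw [D.hP _ _ h]
        ring
    simp only [this]
    unfold LazyChain.dir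
    rw [Fintype.sum_prod_type]
    ring
  -- second factor
  have hG : ∑ e, g e ^ 2 ≤ 4 / D.θ := by
    have h1 : ∀ e : V × V, g e ^ 2 ≤ 2 * (c e.1 e.2 * d e.1 e.2 ^ 2) * (ρ e.1 + ρ e.2) := by
      intro e
      simp only [hg]
      rw [mul_pow, mul_pow, Real.sq_sqrt (hc _ _)]
      have h2 : (Real.sqrt (ρ e.1) + Real.sqrt (ρ e.2)) ^ 2 ≤ 2 * (ρ e.1 + ρ e.2) := by
        have e1 := Real.sq_sqrt (hρ0 e.1)
        have e2 := Real.sq_sqrt (hρ0 e.2)
        nlinarith [sq_nonneg (Real.sqrt (ρ e.1) - Real.sqrt (ρ e.2))]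
      have h3 : 0 ≤ c e.1 e.2 * d e.1 e.2 ^ 2 := mul_nonneg (hc _ _) (sq_nonneg _)
      nlinarith [mul_le_mul_of_nonneg_left h2 h3]
    have h2 := Finset.sum_le_sum fun e (_ : e ∈ Finset.univ) => h1 e
    refine h2.trans (le_of_eq ?_)
    have h3 : ∑ e : V × V, 2 * (c e.1 e.2 * d e.1 e.2 ^ 2) * (ρ e.1 + ρ e.2) =
        4 * ∑ a, (∑ b, c a b * d a b ^ 2) * ρ a := by
      have s1 : ∑ e : V × V, 2 * (c e.1 e.2 * d e.1 e.2 ^ 2) * ρ e.1 =
          2 * ∑ a, (∑ b, c a b * d a b ^ 2) * ρ a := by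
        rw [Fintype.sum_prod_type, Finset.mul_sum]
        refine Finset.sum_congr rfl fun a _ => ?_
        rw [Finset.sum_mul, Finset.mul_sum]
        exact Finset.sum_congr rfl fun b _ => by ring
      have s2 : ∑ e : V × V, 2 * (c e.1 e.2 * d e.1 e.2 ^ 2) * ρ e.2 =
          2 * ∑ a, (∑ b, c a b * d a b ^ 2) * ρ a := by
        rw [Fintype.sum_prod_type, Finset.sum_comm, Finset.mul_sum]
        refine Finset.sum_congr rfl fun a _ => ?_
        rw [Finset.sum_mul, Finset.mul_sum]
        refine Finset.sum_congr rfl fun b _ => ?_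
        simp only [hcs b a, hds b a]
        ring
      simp only [mul_add, Finset.sum_add_distrib]
      rw [s1, s2]
      ring
    rw [h3]
    have hm := D.X.mass_rho i v
    have h4 : ∑ a, (∑ b, c a b * d a b ^ 2) * ρ a = 1 / D.θ := by
      have : D.θ * ∑ a, (∑ b, c a b * d a b ^ 2) * ρ a = 1 := by
        rw [← hm, Finset.mul_sum]
        refine Finset.sum_congr rfl fun a _ => ?_
        rw [D.hpi a]
        ring
      have hθ := D.θ_pos.ne'
      field_simp
      linarith
    rw [h4]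
    ring
  have hθ := D.θ_pos
  have hdir := D.X.dir_nonneg (fun x => Real.sqrt (ρ x))
  calc D.Q i v ^ 2 ≤ (∑ e, f e ^ 2) * ∑ e, g e ^ 2 := hcs'
    _ ≤ (2 * D.X.dir (fun x => Real.sqrt (ρ x))) * (4 / D.θ) := by
        rw [hF]
        exact mul_le_mul_of_nonneg_left hG (by positivity)
    _ = _ := by ring

/-- mixed differences of the transition densities -/
noncomputable def M (j : ℕ) (e e' : V × V) : ℝ :=
  D.X.rho j e.1 e'.1 - D.X.rho j e.1 e'.2 - D.X.rho j e.2 e'.1 + D.X.rho j e.2 e'.2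

/-- the weighted total of a mixed difference -/
noncomputable def TT (j : ℕ) : ℝ :=
  ∑ e : V × V, ∑ e' : V × V, (c e.1 e.2 * d e.1 e.2) * (c e'.1 e'.2 * d e'.1 e'.2) * |D.M j e e'|

lemma TT_le (hc : ∀ a b, 0 ≤ c a b) (hd : ∀ a b, 0 ≤ d a b) (i l : ℕ) :
    D.TT (i + l) ≤ ∑ v, D.X.pi v * (D.Q i v * D.Q l v) := by
  have hw : ∀ e : V × V, 0 ≤ c e.1 e.2 * d e.1 e.2 := fun e => mul_nonneg (hc _ _) (hd _ _)
  have h1 : ∀ e e' : V × V, |D.M (i + l) e e'| ≤ ∑ v, D.X.pi v *
      (|D.X.rho i e.1 v - D.X.rho i e.2 v| * |D.X.rho l e'.1 v - D.X.rho l e'.2 v|) := by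
    intro e e'
    unfold M
    rw [D.X.mixed i l]
    refine (Finset.abs_sum_le_sum_abs _ _).trans (le_of_eq ?_)
    refine Finset.sum_congr rfl fun v _ => ?_
    rw [abs_mul, abs_mul, abs_of_pos (D.X.pi_pos v)]
  unfold TT
  calc _ ≤ ∑ e : V × V, ∑ e' : V × V, (c e.1 e.2 * d e.1 e.2) * (c e'.1 e'.2 * d e'.1 e'.2) *
        ∑ v, D.X.pi v *
      (|D.X.rho i e.1 v - D.X.rho i e.2 v| * |D.X.rho l e'.1 v - D.X.rho l e'.2 v|) :=
        Finset.sum_le_sum fun e _ => Finset.sum_le_sum fun e' _ =>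
          mul_le_mul_of_nonneg_left (h1 e e') (mul_nonneg (hw e) (hw e'))
    _ = _ := by
        have h2 : ∀ v, D.X.pi v * (D.Q i v * D.Q l v) =
            ∑ e : V × V, ∑ e' : V × V, (c e.1 e.2 * d e.1 e.2) * (c e'.1 e'.2 * d e'.1 e'.2) *
              (D.X.pi v *
                (|D.X.rho i e.1 v - D.X.rho i e.2 v| * |D.X.rho l e'.1 v - D.X.rho l e'.2 v|)) := by
          intro v
          unfold Q
          rw [Finset.sum_mul_sum, Finset.mul_sum]
          refine Finset.sum_congr rfl fun e _ => ?_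
          rw [Finset.mul_sum]
          exact Finset.sum_congr rfl fun e' _ => by ring
        simp only [h2]
        symm
        rw [Finset.sum_comm]
        refine Finset.sum_congr rfl fun e _ => ?_
        rw [Finset.sum_comm]
        refine Finset.sum_congr rfl fun e' _ => ?_
        rw [Finset.mul_sum]

/-- the energy at time `i` -/
noncomputable def GG (i : ℕ) : ℝ := ∑ v, D.X.pi v * D.Q i v ^ 2

lemma GG_nonneg (i : ℕ) : 0 ≤ D.GG i :=
  Finset.sum_nonneg fun v _ => mul_nonneg (D.X.pi_pos v).le (sq_nonneg _)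

lemma TT_two_mul (hc : ∀ a b, 0 ≤ c a b) (hd : ∀ a b, 0 ≤ d a b) (i : ℕ) :
    D.TT (2 * i) ≤ D.GG i := by
  have := D.TT_le hc hd i i
  rw [← two_mul] at this
  refine this.trans (le_of_eq ?_)
  unfold GG
  exact Finset.sum_congr rfl fun v _ => by ring

lemma TT_two_mul_add_one (hc : ∀ a b, 0 ≤ c a b) (hd : ∀ a b, 0 ≤ d a b) (i : ℕ) :
    D.TT (2 * i + 1) ≤ (D.GG i + D.GG (i + 1)) / 2 := by
  have := D.TT_le hc hd (i + 1) i
  have e : i + 1 + i = 2 * i + 1 := by ring
  rw [e] at this
  refine this.trans ?_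
  unfold GG
  rw [← Finset.sum_add_distrib, Finset.sum_div]
  refine Finset.sum_le_sum fun v _ => ?_
  have hp := (D.X.pi_pos v).le
  nlinarith [mul_nonneg hp (sq_nonneg (D.Q i v - D.Q (i + 1) v))]

lemma sum_TT_le (hc : ∀ a b, 0 ≤ c a b) (hd : ∀ a b, 0 ≤ d a b) (J : ℕ) :
    ∑ j ∈ Finset.range (2 * J), D.TT j ≤
      2 * ∑ i ∈ Finset.range J, D.GG i + (1 / 2) * D.GG J := by
  induction J with
  | zero =>
    simpa using mul_nonneg (by norm_num : (0 : ℝ) ≤ 1 / 2) (D.GG_nonneg 0)
  | succ J ih =>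
    have e : 2 * (J + 1) = 2 * J + 1 + 1 := by ring
    rw [e, Finset.sum_range_succ, Finset.sum_range_succ, Finset.sum_range_succ]
    have h1 := D.TT_two_mul hc hd J
    have h2 := D.TT_two_mul_add_one hc hd J
    linarith

lemma sum_GG_le [Nonempty V] (hc : ∀ a b, 0 ≤ c a b) (hd : ∀ a b, 0 ≤ d a b) (hc0 : ∀ a, c a a = 0)
    (hcs : ∀ a b, c a b = c b a) (hds : ∀ a b, d a b = d b a) (J : ℕ) :
    ∑ i ∈ Finset.range J, D.GG i ≤ (8 / D.θ) * (D.X.tot * Real.log (Fintype.card V : ℝ)) := by
  have h1 : ∀ i, D.GG i ≤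
      (8 / D.θ) * ∑ v, D.X.pi v * D.X.dir (fun x => Real.sqrt (D.X.rho i x v)) := by
    intro i
    unfold GG
    rw [Finset.mul_sum]
    refine Finset.sum_le_sum fun v _ => ?_
    have := mul_le_mul_of_nonneg_left (D.Q_sq_le hc hd hc0 hcs hds i v) (D.X.pi_pos v).le
    refine this.trans (le_of_eq ?_)
    ring
  have h2 := D.X.sum_sum_dir_le J
  have h3 : ∑ i ∈ Finset.range J, D.GG i ≤ (8 / D.θ) *
      ∑ i ∈ Finset.range J, ∑ v, D.X.pi v * D.X.dir (fun x => Real.sqrt (D.X.rho i x v)) := by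
    rw [Finset.mul_sum]
    exact Finset.sum_le_sum fun i _ => h1 i
  have hθ := D.θ_pos
  exact h3.trans (mul_le_mul_of_nonneg_left h2 (by positivity))

/-- the total of the time sums -/
lemma sum_TT_le_log [Nonempty V] (hc : ∀ a b, 0 ≤ c a b) (hd : ∀ a b, 0 ≤ d a b)
    (hc0 : ∀ a, c a a = 0)
    (hcs : ∀ a b, c a b = c b a) (hds : ∀ a b, d a b = d b a) (J : ℕ) :
    ∑ j ∈ Finset.range (2 * J), D.TT j ≤
      16 * (∑ a, ∑ b, c a b * d a b ^ 2) * Real.log (Fintype.card V : ℝ) := by
  have h1 := D.sum_TT_le hc hd J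
  have h2 := D.sum_GG_le hc hd hc0 hcs hds (J + 1)
  rw [Finset.sum_range_succ] at h2
  have hG := D.GG_nonneg J
  have htot : D.X.tot = D.θ * ∑ a, ∑ b, c a b * d a b ^ 2 := by
    unfold LazyChain.tot
    rw [Finset.mul_sum]
    exact Finset.sum_congr rfl fun a _ => D.hpi a
  have hθ := D.θ_pos
  have e : (8 / D.θ) * (D.X.tot * Real.log (Fintype.card V : ℝ)) =
      8 * (∑ a, ∑ b, c a b * d a b ^ 2) * Real.log (Fintype.card V : ℝ) := by
    rw [htot]
    field_simp
  rw [e] at h2
  linarith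

/-- the action of the chain in terms of the conductances -/
lemma act_eq (hc0 : ∀ a, c a a = 0) (f : V → ℝ) (v : V) :
    D.X.pi v * (f v - D.X.act f v) = ∑ w, c v w * (f v - f w) := by
  have h1 : D.X.pi v * (f v - D.X.act f v) = ∑ w, D.X.pi v * D.X.P v w * (f v - f w) := by
    unfold LazyChain.act
    have : f v = ∑ w, D.X.P v w * f v := by
      rw [← Finset.sum_mul, D.X.P_sum, one_mul]
    conv_lhs => rw [this]
    rw [← Finset.sum_sub_distrib, Finset.mul_sum]
    exact Finset.sum_congr rfl fun w _ => by ring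
  rw [h1]
  refine Finset.sum_congr rfl fun w _ => ?_
  by_cases h : v = w
  · rw [h]
    simp
  · rw [D.hP _ _ h]

/-- The Green function as a series. -/
lemma green_iter (hc0 : ∀ a, c a a = 0) {u : V → ℝ} {a' b' : V}
    (hu : ∀ v, ∑ w, c v w * (u v - u w) = (if v = a' then 1 else 0) - (if v = b' then 1 else 0))
    (J : ℕ) (a b : V) :
    u a - u b = (D.X.iter J u a - D.X.iter J u b) +
      ∑ j ∈ Finset.range J, D.M j (a, b) (a', b') := by
  have h1 : u = D.X.act u + (D.X.e a' - D.X.e b') := by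
    funext v
    have := D.act_eq hc0 u v
    rw [hu v] at this
    have hp := (D.X.pi_pos v).ne'
    simp only [Pi.add_apply, Pi.sub_apply, LazyChain.e]
    have e2 : u v - D.X.act u v = (D.X.pi v)⁻¹ * ((if v = a' then 1 else 0) - (if v = b' then 1 else 0)) := by
      rw [← this]
      field_simp
    by_cases ha : v = a' <;> by_cases hb : v = b' <;> simp only [ha, hb, if_true, if_false] at e2 ⊢
    all_goals
      first
        | linarith
        | (simp_all; linarith)
  induction J with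
  | zero => simp [LazyChain.iter_zero]
  | succ J ih =>
    rw [Finset.sum_range_succ]
    have h2 : D.X.iter J u = D.X.iter (J + 1) u + (D.X.iter J (D.X.e a') - D.X.iter J (D.X.e b')) := by
      rw [LazyChain.iter_succ', ← LazyChain.iter_sub, ← LazyChain.iter_add_fun, ← h1]
    have h3 : D.X.iter J u a - D.X.iter J u b =
        (D.X.iter (J + 1) u a - D.X.iter (J + 1) u b) + D.M J (a, b) (a', b') := by
      rw [h2]
      simp only [Pi.add_apply, Pi.sub_apply, M, LazyChain.rho]
      ring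
    rw [ih, h3]
    ring

end ChainData

/-- the chain of a positive weighted graph -/
noncomputable def chainData [Nontrivial V] (c d : V → V → ℝ) (hcs : ∀ a b, c a b = c b a)
    (hcpos : ∀ a b, a ≠ b → 0 < c a b) (hc0 : ∀ a, c a a = 0)
    (hdpos : ∀ a b, a ≠ b → 0 < d a b) : ChainData c d := by
  classical
  have hc : ∀ a b, 0 ≤ c a b := fun a b => by
    by_cases h : a = b
    · rw [h, hc0]
    · exact (hcpos a b h).le
  have hl : ∀ a, 0 < ∑ b, c a b * d a b ^ 2 := by
    intro a
    obtain ⟨b, hb⟩ := exists_ne a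
    have h1 : 0 < c a b * d a b ^ 2 :=
      mul_pos (hcpos a b hb.symm) (pow_pos (hdpos a b hb.symm) 2)
    exact lt_of_lt_of_le h1 (Finset.single_le_sum (f := fun b => c a b * d a b ^ 2)
      (fun b _ => mul_nonneg (hc a b) (sq_nonneg _)) (Finset.mem_univ b))
  set L : V → ℝ := fun a => ∑ b, c a b * d a b ^ 2 with hL
  set S : V → ℝ := fun a => ∑ b, c a b with hS
  have hS0 : ∀ a, 0 ≤ S a := fun a => Finset.sum_nonneg fun b _ => hc a b
  set θ : ℝ := 1 + ∑ a, 2 * S a / L a with hθ
  have hterm : ∀ a, 0 ≤ 2 * S a / L a := fun a => div_nonneg (by linarith [hS0 a]) (hl a).le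
  have hθ0 : 0 < θ := by
    have : 0 ≤ ∑ a, 2 * S a / L a := Finset.sum_nonneg fun a _ => hterm a
    linarith
  have hθ1 : ∀ a, 2 * S a / L a ≤ θ := by
    intro a
    have : 2 * S a / L a ≤ ∑ a, 2 * S a / L a :=
      Finset.single_le_sum (f := fun a => 2 * S a / L a) (fun a _ => hterm a) (Finset.mem_univ a)
    linarith
  have hpi : ∀ a, 0 < θ * L a := fun a => mul_pos hθ0 (hl a)
  have hlazy : ∀ a, S a / (θ * L a) ≤ 1 / 2 := by
    intro a
    have h1 := hθ1 a
    rw [div_le_iff₀ (hl a)] at h1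
    rw [div_le_iff₀ (hpi a)]
    linarith
  refine
    { X :=
        { pi := fun a => θ * L a
          P := fun a b => if a = b then 1 - S a / (θ * L a) else c a b / (θ * L a)
          pi_pos := hpi
          P_pos := ?_
          P_sum := ?_
          rev := ?_
          lazy := ?_ }
      θ := θ
      θ_pos := hθ0
      hpi := fun a => rfl
      hP := ?_ }
  · intro a b
    by_cases h : a = b
    · simp only [h, if_true]
      have := hlazy b
      linarith
    · simp only [h, if_false]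
      exact div_pos (hcpos a b h) (hpi a)
  · intro a
    have h1 := Finset.add_sum_erase Finset.univ
      (fun b => if a = b then 1 - S a / (θ * L a) else c a b / (θ * L a)) (Finset.mem_univ a)
    simp only [if_true] at h1
    rw [← h1]
    have h2 : ∑ b ∈ Finset.univ.erase a, (if a = b then 1 - S a / (θ * L a) else c a b / (θ * L a)) =
        ∑ b ∈ Finset.univ.erase a, c a b / (θ * L a) := by
      refine Finset.sum_congr rfl fun b hb => ?_
      have : a ≠ b := (Finset.ne_of_mem_erase hb).symm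
      simp [this]
    rw [h2, ← Finset.sum_div]
    have h3 : ∑ b ∈ Finset.univ.erase a, c a b = S a := by
      have := Finset.add_sum_erase Finset.univ (fun b => c a b) (Finset.mem_univ a)
      simp only [hc0, zero_add] at this
      exact this
    rw [h3]
    ring
  · intro a b
    by_cases h : a = b
    · rw [h]
    · have h' : b ≠ a := Ne.symm h
      simp only [h, h', if_false]
      have h1 := (hpi a).ne'
      have h2 := (hpi b).ne'
      rw [mul_div_cancel₀ _ h1, mul_div_cancel₀ _ h2]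
      exact hcs a b
  · intro a
    simp only [if_true]
    have := hlazy a
    linarith
  · intro a b h
    simp only [h, if_false]
    have h1 := (hpi a).ne'
    rw [mul_div_cancel₀ _ h1]

/-- **Lemma E**: the entropy bound for the stretch of the electrical flows. -/
theorem lemmaE (c d : V → V → ℝ) (hcs : ∀ a b, c a b = c b a)
    (hcpos : ∀ a b, a ≠ b → 0 < c a b) (hc0 : ∀ a, c a a = 0)
    (hds : ∀ a b, d a b = d b a) (hd : ∀ a b, 0 ≤ d a b) (hdpos : ∀ a b, a ≠ b → 0 < d a b)
    (u : V → V → V → ℝ)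
    (hu : ∀ a' b' v, ∑ w, c v w * (u a' b' v - u a' b' w) =
      (if v = a' then 1 else 0) - (if v = b' then 1 else 0)) :
    ∑ a, ∑ b, ∑ a', ∑ b', (c a b * d a b) * (c a' b' * d a' b') * |u a' b' a - u a' b' b| ≤
      16 * (∑ a, ∑ b, c a b * d a b ^ 2) * Real.log (Fintype.card V : ℝ) := by
  have hc : ∀ a b, 0 ≤ c a b := fun a b => by
    by_cases h : a = b
    · rw [h, hc0]
    · exact (hcpos a b h).le
  by_cases hn : Nontrivial V
  swap
  · have hs : Subsingleton V := not_nontrivial_iff_subsingleton.1 hn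
    have hz : ∀ a b : V, c a b = 0 := fun a b => by rw [Subsingleton.elim b a, hc0]
    simp [hz]
  have D := chainData c d hcs hcpos hc0 hdpos
  have : Nonempty V := hn.to_nonempty
  have hw : ∀ e : V × V, 0 ≤ c e.1 e.2 * d e.1 e.2 := fun e => mul_nonneg (hc _ _) (hd _ _)
  set W := ∑ a, ∑ b, ∑ a', ∑ b', (c a b * d a b) * (c a' b' * d a' b') * |u a' b' a - u a' b' b|
    with hW
  have hW' : W = ∑ e : V × V, ∑ e' : V × V, (c e.1 e.2 * d e.1 e.2) * (c e'.1 e'.2 * d e'.1 e'.2) *
      |u e'.1 e'.2 e.1 - u e'.1 e'.2 e.2| := by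
    rw [hW, Fintype.sum_prod_type]
    refine Finset.sum_congr rfl fun a _ => Finset.sum_congr rfl fun b _ => ?_
    rw [Fintype.sum_prod_type]
  set R : ℕ → ℝ := fun J => ∑ e : V × V, ∑ e' : V × V,
      (c e.1 e.2 * d e.1 e.2) * (c e'.1 e'.2 * d e'.1 e'.2) *
      |D.X.iter (2 * J) (u e'.1 e'.2) e.1 - D.X.iter (2 * J) (u e'.1 e'.2) e.2| with hR
  have hbound : ∀ J, W ≤ R J + 16 * (∑ a, ∑ b, c a b * d a b ^ 2) * Real.log (Fintype.card V : ℝ) := by
    intro J
    have h1 := D.sum_TT_le_log hc hd hc0 hcs hds J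
    refine le_trans ?_ (add_le_add_right h1 (R J))
    rw [hW', hR]
    simp only [ChainData.TT]
    have h2 : ∑ j ∈ Finset.range (2 * J), ∑ e : V × V, ∑ e' : V × V,
        (c e.1 e.2 * d e.1 e.2) * (c e'.1 e'.2 * d e'.1 e'.2) * |D.M j e e'| =
        ∑ e : V × V, ∑ e' : V × V, (c e.1 e.2 * d e.1 e.2) * (c e'.1 e'.2 * d e'.1 e'.2) *
          ∑ j ∈ Finset.range (2 * J), |D.M j e e'| := by
      rw [Finset.sum_comm]
      refine Finset.sum_congr rfl fun e _ => ?_
      rw [Finset.sum_comm]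
      refine Finset.sum_congr rfl fun e' _ => ?_
      rw [Finset.mul_sum]
    rw [h2, ← Finset.sum_add_distrib]
    refine Finset.sum_le_sum fun e _ => ?_
    rw [← Finset.sum_add_distrib]
    refine Finset.sum_le_sum fun e' _ => ?_
    rw [← mul_add]
    refine mul_le_mul_of_nonneg_left ?_ (mul_nonneg (hw e) (hw e'))
    have h3 := D.green_iter hc0 (u := u e'.1 e'.2) (a' := e'.1) (b' := e'.2) (hu e'.1 e'.2)
      (2 * J) e.1 e.2
    rw [h3]
    refine (abs_add_le _ _).trans (add_le_add_right ?_ _)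
    exact Finset.abs_sum_le_sum_abs _ _
  have hlim : Filter.Tendsto R Filter.atTop (nhds 0) := by
    have h1 : ∀ e e' : V × V, Filter.Tendsto (fun J : ℕ =>
        |D.X.iter (2 * J) (u e'.1 e'.2) e.1 - D.X.iter (2 * J) (u e'.1 e'.2) e.2|)
        Filter.atTop (nhds 0) := fun e e' =>
      (D.X.tendsto_iter_sub (u e'.1 e'.2) e.1 e.2).comp
        (Filter.tendsto_id.const_mul_atTop' (by norm_num : 0 < 2))
    have h2 : Filter.Tendsto R Filter.atTop (nhds (∑ e : V × V, ∑ e' : V × V,
        (c e.1 e.2 * d e.1 e.2) * (c e'.1 e'.2 * d e'.1 e'.2) * 0)) := by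
      refine tendsto_finsetSum _ fun e _ => tendsto_finsetSum _ fun e' _ => ?_
      exact (h1 e e').const_mul _
    simpa using h2
  have := ge_of_tendsto' (hlim.add_const
    (16 * (∑ a, ∑ b, c a b * d a b ^ 2) * Real.log (Fintype.card V : ℝ))) hbound
  simpa using this

end Main

end Crest.Agent.LpDimRed
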