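/-
M2 + M4 of #1151 (row 232, S0358): electrical kernels of a weighted complete graph, reproducing
property, L² contraction, and the separation argument giving one averaged kernel with all-pairs
mass and energy bounds.  The only input is Lemma E (M3) in the form `LemmaEStmt`.
No metric property of `d` is used.
-/
import Mathlib
import Crest.Agent.Lib.LpDimRed.LemmaE

set_option autoImplicit false
set_option linter.unusedSectionVars false
set_option linter.unusedSimpArgs false

open Finset BigOperators

namespace Crest.Agent.LpDimRed.Kernel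

variable {V : Type*} [Fintype V] [DecidableEq V]

/-- slope of a potential along an ordered pair (`x / 0 = 0` on the diagonal). -/
noncomputable def slope (d : V → V → ℝ) (g : V → ℝ) (a b : V) : ℝ := (g a - g b) / d a b

/-- hypotheses on the lengths. -/
structure AdmD (d : V → V → ℝ) : Prop where
  symm : ∀ a b, d a b = d b a
  pos : ∀ a b, a ≠ b → 0 < d a b
  self : ∀ a, d a a = 0

/-- hypotheses on the weights. -/
structure AdmL (lam : V → V → ℝ) : Prop where
  symm : ∀ a b, lam a b = lam b a
  pos : ∀ a b, a ≠ b → 0 < lam a b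
  self : ∀ a, lam a a = 0

/-- conductances. -/
noncomputable def cond (d lam : V → V → ℝ) (a b : V) : ℝ := lam a b / d a b ^ 2

/-- the weight `c d`. -/
noncomputable def wt (d lam : V → V → ℝ) (a b : V) : ℝ := lam a b / d a b

/-- the graph Laplacian. -/
noncomputable def lap (d lam : V → V → ℝ) (f : V → ℝ) (a : V) : ℝ :=
  ∑ b, cond d lam a b * (f a - f b)

/-- Statement of Lemma E (M3), in the form of #1156. -/
def LemmaEStmt (V : Type*) [Fintype V] [DecidableEq V] : Prop :=
  ∀ (c d : V → V → ℝ),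
    (∀ a b, c a b = c b a) → (∀ a b, a ≠ b → 0 < c a b) → (∀ a, c a a = 0) →
    (∀ a b, d a b = d b a) → (∀ a b, 0 ≤ d a b) → (∀ a b, a ≠ b → 0 < d a b) →
    ∀ u : V → V → V → ℝ,
      (∀ a' b' v, ∑ w, c v w * (u a' b' v - u a' b' w) =
        (if v = a' then 1 else 0) - (if v = b' then 1 else 0)) →
      ∑ a, ∑ b, ∑ a', ∑ b', (c a b * d a b) * (c a' b' * d a' b') * |u a' b' a - u a' b' b| ≤
        16 * (∑ a, ∑ b, c a b * d a b ^ 2) * Real.log (Fintype.card V)

section basic

variable {d lam : V → V → ℝ}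

lemma cond_symm (hd : AdmD d) (hl : AdmL lam) (a b : V) : cond d lam a b = cond d lam b a := by
  simp [cond, hd.symm a b, hl.symm a b]

lemma cond_self (hl : AdmL lam) (a : V) : cond d lam a a = 0 := by
  simp [cond, hl.self a]

lemma cond_pos (hd : AdmD d) (hl : AdmL lam) {a b : V} (h : a ≠ b) : 0 < cond d lam a b := by
  have := hd.pos a b h
  have := hl.pos a b h
  unfold cond; positivity

lemma cond_nonneg (hd : AdmD d) (hl : AdmL lam) (a b : V) : 0 ≤ cond d lam a b := by
  by_cases h : a = b
  · subst h; rw [cond_self hl]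
  · exact (cond_pos hd hl h).le

lemma wt_symm (hd : AdmD d) (hl : AdmL lam) (a b : V) : wt d lam a b = wt d lam b a := by
  simp [wt, hd.symm a b, hl.symm a b]

lemma wt_self (hl : AdmL lam) (a : V) : wt d lam a a = 0 := by
  simp [wt, hl.self a]

lemma wt_nonneg (hd : AdmD d) (hl : AdmL lam) (a b : V) : 0 ≤ wt d lam a b := by
  by_cases h : a = b
  · subst h; rw [wt_self hl]
  · have := hd.pos a b h
    have := hl.pos a b h
    unfold wt; positivity

lemma cond_mul_d (hd : AdmD d) (hl : AdmL lam) (a b : V) :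
    cond d lam a b * d a b = wt d lam a b := by
  by_cases h : a = b
  · subst h; rw [cond_self hl, wt_self hl, zero_mul]
  · have := (hd.pos a b h).ne'
    unfold cond wt; field_simp

lemma cond_mul_d_sq (hd : AdmD d) (hl : AdmL lam) (a b : V) :
    cond d lam a b * d a b ^ 2 = lam a b := by
  by_cases h : a = b
  · subst h; rw [cond_self hl, hl.self, zero_mul]
  · have := (hd.pos a b h).ne'
    unfold cond; field_simp

lemma wt_mul_sub (hd : AdmD d) (hl : AdmL lam) (g : V → ℝ) (a b : V) :
    wt d lam a b * (g a - g b) = lam a b * slope d g a b := by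
  by_cases h : a = b
  · subst h; simp [wt_self hl, hl.self a, slope]
  · have := (hd.pos a b h).ne'
    unfold wt slope; field_simp

lemma cond_mul_sq (hd : AdmD d) (hl : AdmL lam) (g : V → ℝ) (a b : V) :
    cond d lam a b * (g a - g b) ^ 2 = lam a b * slope d g a b ^ 2 := by
  by_cases h : a = b
  · subst h; simp [cond_self hl, hl.self a, slope]
  · have := (hd.pos a b h).ne'
    unfold cond slope; field_simp

lemma wt_mul_slope (hd : AdmD d) (hl : AdmL lam) (g : V → ℝ) (a b : V) :
    wt d lam a b * slope d g a b = cond d lam a b * (g a - g b) := by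
  by_cases h : a = b
  · subst h; simp [cond_self hl, wt_self hl]
  · have := (hd.pos a b h).ne'
    unfold cond wt slope; field_simp

/-- `∑ f · L g` in symmetric form. -/
lemma sum_mul_lap (hd : AdmD d) (hl : AdmL lam) (f g : V → ℝ) :
    ∑ a, f a * lap d lam g a =
      (1 / 2) * ∑ a, ∑ b, cond d lam a b * (f a - f b) * (g a - g b) := by
  have h1 : ∑ a, f a * lap d lam g a = ∑ a, ∑ b, cond d lam a b * f a * (g a - g b) := by
    refine sum_congr rfl fun a _ => ?_
    unfold lap
    rw [mul_sum]
    exact sum_congr rfl fun b _ => by ring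
  have h2 : ∑ a, ∑ b, cond d lam a b * f a * (g a - g b) =
      ∑ a, ∑ b, cond d lam a b * f b * (g b - g a) := by
    rw [sum_comm]
    refine sum_congr rfl fun a _ => sum_congr rfl fun b _ => ?_
    rw [cond_symm hd hl b a]
  have h3 : ∑ a, ∑ b, cond d lam a b * (f a - f b) * (g a - g b) =
      ∑ a, ∑ b, cond d lam a b * f a * (g a - g b) +
        ∑ a, ∑ b, cond d lam a b * f b * (g b - g a) := by
    rw [← sum_add_distrib]
    refine sum_congr rfl fun a _ => ?_
    rw [← sum_add_distrib]
    exact sum_congr rfl fun b _ => by ring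
  rw [h3, ← h2, h1]; ring

lemma sum_lap (hd : AdmD d) (hl : AdmL lam) (g : V → ℝ) : ∑ a, lap d lam g a = 0 := by
  have := sum_mul_lap hd hl (fun _ => (1 : ℝ)) g
  simpa using this

/-- A function with zero Laplacian is constant. -/
lemma const_of_lap_eq_zero (hd : AdmD d) (hl : AdmL lam) {f : V → ℝ}
    (h : ∀ a, lap d lam f a = 0) (a b : V) : f a = f b := by
  by_cases hab : a = b
  · rw [hab]
  have h0 := sum_mul_lap hd hl f f
  have h1 : ∑ a, f a * lap d lam f a = 0 := by simp [h]
  rw [h1] at h0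
  have h2 : ∑ a, ∑ b, cond d lam a b * (f a - f b) * (f a - f b) = 0 := by linarith
  have hnn : ∀ a b, 0 ≤ cond d lam a b * (f a - f b) * (f a - f b) := fun a b => by
    rw [mul_assoc]; exact mul_nonneg (cond_nonneg hd hl a b) (mul_self_nonneg _)
  have h3 := (sum_eq_zero_iff_of_nonneg (fun a _ => sum_nonneg fun b _ => hnn a b)).1 h2 a (mem_univ a)
  have h4 := (sum_eq_zero_iff_of_nonneg (fun b _ => hnn a b)).1 h3 b (mem_univ b)
  have hc := cond_pos hd hl hab
  have h5 : (f a - f b) * (f a - f b) = 0 := by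
    rw [mul_assoc] at h4
    exact (mul_eq_zero.1 h4).resolve_left hc.ne'
  have h6 : f a - f b = 0 := mul_self_eq_zero.1 h5
  linarith

/-- Solvability of the Poisson equation for a mean zero source. -/
lemma exists_poisson [Nonempty V] (hd : AdmD d) (hl : AdmL lam) (ρ : V → ℝ) (hρ : ∑ a, ρ a = 0) :
    ∃ u : V → ℝ, ∀ a, lap d lam u a = ρ a := by
  classical
  -- the operator `L + J`
  let T : (V → ℝ) →ₗ[ℝ] (V → ℝ) :=
    { toFun := fun f a => lap d lam f a + ∑ b, f b
      map_add' := by
        intro f g; funext a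
        have h1 : lap d lam (f + g) a = lap d lam f a + lap d lam g a := by
          unfold lap; rw [← sum_add_distrib]
          refine sum_congr rfl fun b _ => ?_
          simp only [Pi.add_apply]; ring
        simp only [Pi.add_apply, h1, sum_add_distrib]; ring
      map_smul' := by
        intro r f; funext a
        have h1 : lap d lam (r • f) a = r * lap d lam f a := by
          unfold lap; rw [mul_sum]
          refine sum_congr rfl fun b _ => ?_
          simp only [Pi.smul_apply, smul_eq_mul]; ring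
        simp only [Pi.smul_apply, smul_eq_mul, RingHom.id_apply, h1, mul_add, mul_sum] }
  have hT : ∀ f a, T f a = lap d lam f a + ∑ b, f b := fun f a => rfl
  have hinj : Function.Injective T := by
    rw [← LinearMap.ker_eq_bot, LinearMap.ker_eq_bot']
    intro f hf
    have hf' : ∀ a, lap d lam f a + ∑ b, f b = 0 := fun a => by
      have := congrFun hf a
      simpa [hT] using this
    have h1 : ∑ a, f a * (lap d lam f a + ∑ b, f b) = 0 := by simp [hf']
    have h2 : ∑ a, f a * (lap d lam f a + ∑ b, f b) =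
        ∑ a, f a * lap d lam f a + (∑ a, f a) ^ 2 := by
      simp only [mul_add, sum_add_distrib, sq]
      rw [sum_mul]
    have h3 := sum_mul_lap hd hl f f
    have h4 : 0 ≤ ∑ a, ∑ b, cond d lam a b * (f a - f b) * (f a - f b) :=
      sum_nonneg fun a _ => sum_nonneg fun b _ => by
        rw [mul_assoc]; exact mul_nonneg (cond_nonneg hd hl a b) (mul_self_nonneg _)
    have h5 : (∑ a, f a) ^ 2 = 0 := by nlinarith [sq_nonneg (∑ a, f a)]
    have h6 : ∑ a, f a = 0 := by simpa using h5
    have h7 : ∀ a, lap d lam f a = 0 := fun a => by have := hf' a; linarith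
    have h8 := const_of_lap_eq_zero hd hl h7
    funext a
    have h9 : ∑ b, f b = (Fintype.card V : ℝ) * f a := by
      rw [Finset.sum_congr rfl (fun b _ => h8 b a)]
      simp
    rw [h6] at h9
    have hc : (Fintype.card V : ℝ) ≠ 0 := by
      exact_mod_cast (Fintype.card_pos (α := V)).ne'
    have := (mul_eq_zero.1 h9.symm).resolve_left hc
    simpa using this
  have hsurj : Function.Surjective T := LinearMap.injective_iff_surjective.1 hinj
  obtain ⟨u, hu⟩ := hsurj ρ
  refine ⟨u, fun a => ?_⟩
  have hu' : ∀ a, lap d lam u a + ∑ b, u b = ρ a := fun a => by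
    rw [← hu]; rfl
  have h1 : ∑ a, (lap d lam u a + ∑ b, u b) = 0 := by
    rw [Finset.sum_congr rfl (fun a _ => hu' a)]; exact hρ
  rw [sum_add_distrib, sum_lap hd hl] at h1
  have hc : (Fintype.card V : ℝ) ≠ 0 := by
    exact_mod_cast (Fintype.card_pos (α := V)).ne'
  have h2 : ∑ b, u b = 0 := by
    simp only [sum_const, card_univ, nsmul_eq_mul, zero_add] at h1
    exact (mul_eq_zero.1 h1).resolve_left hc
  have := hu' a
  rw [h2] at this
  linarith

lemma exists_U [Nonempty V] (hd : AdmD d) (hl : AdmL lam) :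
    ∃ U : V → V → V → ℝ, ∀ a b x,
      lap d lam (U a b) x = (if x = a then 1 else 0) - (if x = b then 1 else 0) := by
  have : ∀ a b : V, ∃ u : V → ℝ, ∀ x,
      lap d lam u x = (if x = a then 1 else 0) - (if x = b then 1 else 0) := fun a b =>
    exists_poisson hd hl _ (by simp [sum_sub_distrib])
  choose U hU using this
  exact ⟨U, hU⟩

/-- potential of a field. -/
noncomputable def pot (d lam : V → V → ℝ) (U : V → V → V → ℝ) (w : V → V → ℝ) (x : V) : ℝ :=
  ∑ a, ∑ b, (1 / 2) * wt d lam a b * w a b * U a b x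

/-- the kernel of the projection on gradients. -/
noncomputable def K (d lam : V → V → ℝ) (U : V → V → V → ℝ) (a' b' a b : V) : ℝ :=
  (1 / 2) * wt d lam a b * (U a b a' - U a b b') / d a' b'

lemma K_apply (U : V → V → V → ℝ) (w : V → V → ℝ) (a' b' : V) :
    ∑ a, ∑ b, K d lam U a' b' a b * w a b = slope d (pot d lam U w) a' b' := by
  unfold slope pot K
  rw [← sum_sub_distrib, sum_div]
  refine sum_congr rfl fun a _ => ?_
  rw [← sum_sub_distrib, sum_div]
  refine sum_congr rfl fun b _ => ?_
  ring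

lemma lap_pot (hd : AdmD d) (hl : AdmL lam) {U : V → V → V → ℝ}
    (hU : ∀ a b x, lap d lam (U a b) x = (if x = a then 1 else 0) - (if x = b then 1 else 0))
    {w : V → V → ℝ} (hw : ∀ a b, w a b = - w b a) (x : V) :
    lap d lam (pot d lam U w) x = ∑ b, wt d lam x b * w x b := by
  have h1 : lap d lam (pot d lam U w) x =
      ∑ a, ∑ b, (1 / 2) * wt d lam a b * w a b * lap d lam (U a b) x := by
    unfold lap pot
    have : ∀ y, cond d lam x y * (∑ a, ∑ b, (1 / 2) * wt d lam a b * w a b * U a b x -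
          ∑ a, ∑ b, (1 / 2) * wt d lam a b * w a b * U a b y) =
        ∑ a, ∑ b, (1 / 2) * wt d lam a b * w a b * (cond d lam x y * (U a b x - U a b y)) := by
      intro y
      rw [← sum_sub_distrib, mul_sum]
      refine sum_congr rfl fun a _ => ?_
      rw [← sum_sub_distrib, mul_sum]
      refine sum_congr rfl fun b _ => ?_
      ring
    simp_rw [this]
    rw [sum_comm]
    refine sum_congr rfl fun a _ => ?_
    rw [sum_comm]
    refine sum_congr rfl fun b _ => ?_
    rw [mul_sum]
  rw [h1]
  simp_rw [hU]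
  have h2 : ∀ a b, (1 / 2) * wt d lam a b * w a b *
      ((if x = a then (1:ℝ) else 0) - (if x = b then 1 else 0)) =
      (if x = a then (1 / 2) * wt d lam a b * w a b else 0) -
      (if x = b then (1 / 2) * wt d lam a b * w a b else 0) := by
    intro a b
    split_ifs <;> ring
  simp_rw [h2, sum_sub_distrib]
  have h3 : ∑ a, ∑ b, (if x = a then (1 / 2) * wt d lam a b * w a b else 0) =
      ∑ b, (1 / 2) * wt d lam x b * w x b := by
    rw [Finset.sum_eq_single x]
    · simp
    · intro a _ ha
      simp [Ne.symm ha]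
    · simp
  have h4 : ∑ a, ∑ b, (if x = b then (1 / 2) * wt d lam a b * w a b else 0) =
      ∑ b, - ((1 / 2) * wt d lam x b * w x b) := by
    refine sum_congr rfl fun a _ => ?_
    rw [Finset.sum_eq_single x]
    · simp only [if_true]
      rw [wt_symm hd hl a x, hw a x]; ring
    · intro b _ hb
      simp [Ne.symm hb]
    · simp
  rw [h3, h4, sum_neg_distrib, sub_neg_eq_add, ← two_mul, mul_sum]
  refine sum_congr rfl fun b _ => ?_
  ring

lemma slope_antisymm (hd : AdmD d) (g : V → ℝ) (a b : V) :
    slope d g a b = - slope d g b a := by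
  unfold slope
  rw [hd.symm b a, ← neg_div]
  congr 1; ring

/-- Reproducing property (a). -/
lemma slope_pot_slope (hd : AdmD d) (hl : AdmL lam) {U : V → V → V → ℝ}
    (hU : ∀ a b x, lap d lam (U a b) x = (if x = a then 1 else 0) - (if x = b then 1 else 0))
    (g : V → ℝ) (a' b' : V) :
    slope d (pot d lam U (slope d g)) a' b' = slope d g a' b' := by
  have h1 : ∀ x, lap d lam (fun y => pot d lam U (slope d g) y - g y) x = 0 := by
    intro x
    have h2 := lap_pot hd hl hU (w := slope d g) (slope_antisymm hd g) x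
    have h3 : lap d lam (fun y => pot d lam U (slope d g) y - g y) x =
        lap d lam (pot d lam U (slope d g)) x - lap d lam g x := by
      unfold lap
      rw [← sum_sub_distrib]
      refine sum_congr rfl fun b _ => ?_
      ring
    rw [h3, h2]
    unfold lap
    rw [← sum_sub_distrib]
    refine sum_eq_zero fun b _ => ?_
    rw [wt_mul_slope hd hl]; ring
  have h4 : pot d lam U (slope d g) a' - g a' = pot d lam U (slope d g) b' - g b' :=
    const_of_lap_eq_zero hd hl h1 a' b'
  have h5 : pot d lam U (slope d g) a' - pot d lam U (slope d g) b' = g a' - g b' := by linarith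
  show (pot d lam U (slope d g) a' - pot d lam U (slope d g) b') / d a' b' = (g a' - g b') / d a' b'
  rw [h5]

/-- L² contraction (b). -/
lemma energy_pot_le (hd : AdmD d) (hl : AdmL lam) {U : V → V → V → ℝ}
    (hU : ∀ a b x, lap d lam (U a b) x = (if x = a then 1 else 0) - (if x = b then 1 else 0))
    {w : V → V → ℝ} (hw : ∀ a b, w a b = - w b a) :
    ∑ a, ∑ b, lam a b * slope d (pot d lam U w) a b ^ 2 ≤ ∑ a, ∑ b, lam a b * w a b ^ 2 := by
  set φ := pot d lam U w with hφ
  have h1 := sum_mul_lap hd hl φ φ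
  have h2 : ∑ a, ∑ b, cond d lam a b * (φ a - φ b) * (φ a - φ b) =
      ∑ a, ∑ b, lam a b * slope d φ a b ^ 2 := by
    refine sum_congr rfl fun a _ => sum_congr rfl fun b _ => ?_
    rw [← cond_mul_sq hd hl φ a b]; ring
  have h3 : ∑ a, φ a * lap d lam φ a = ∑ a, ∑ b, φ a * (wt d lam a b * w a b) := by
    refine sum_congr rfl fun a _ => ?_
    rw [lap_pot hd hl hU hw a, mul_sum]
  have h4 : ∑ a, ∑ b, φ a * (wt d lam a b * w a b) =
      ∑ a, ∑ b, - (φ b * (wt d lam a b * w a b)) := by
    rw [sum_comm]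
    refine sum_congr rfl fun a _ => sum_congr rfl fun b _ => ?_
    rw [wt_symm hd hl b a, hw b a]; ring
  have h5 : ∑ a, ∑ b, lam a b * w a b * slope d φ a b =
      ∑ a, ∑ b, φ a * (wt d lam a b * w a b) + ∑ a, ∑ b, - (φ b * (wt d lam a b * w a b)) := by
    rw [← sum_add_distrib]
    refine sum_congr rfl fun a _ => ?_
    rw [← sum_add_distrib]
    refine sum_congr rfl fun b _ => ?_
    have := wt_mul_sub hd hl φ a b
    linear_combination (- w a b) * this
  have h6 : ∑ a, ∑ b, lam a b * w a b * slope d φ a b = ∑ a, ∑ b, lam a b * slope d φ a b ^ 2 := by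
    rw [h5, ← h4, ← h3, h1, h2]; ring
  have h7 : 0 ≤ ∑ a, ∑ b, lam a b * (w a b - slope d φ a b) ^ 2 :=
    sum_nonneg fun a _ => sum_nonneg fun b _ => by
      have : 0 ≤ lam a b := by
        by_cases h : a = b
        · rw [h, hl.self]
        · exact (hl.pos a b h).le
      positivity
  have h8 : ∑ a, ∑ b, lam a b * (w a b - slope d φ a b) ^ 2 =
      ∑ a, ∑ b, lam a b * w a b ^ 2 - 2 * ∑ a, ∑ b, lam a b * w a b * slope d φ a b +
        ∑ a, ∑ b, lam a b * slope d φ a b ^ 2 := by
    rw [mul_sum, ← sum_sub_distrib, ← sum_add_distrib]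
    refine sum_congr rfl fun a _ => ?_
    rw [mul_sum, ← sum_sub_distrib, ← sum_add_distrib]
    refine sum_congr rfl fun b _ => ?_
    ring
  rw [h8, h6] at h7
  linarith

/-- The stretch of a pair. -/
noncomputable def Gam (d lam : V → V → ℝ) (U : V → V → V → ℝ) (a' b' : V) : ℝ :=
  ∑ a, ∑ b, |K d lam U a' b' a b|

/-- Lemma E, in the form used here. -/
lemma sum_lam_Gam_le (hE : LemmaEStmt V) (hd : AdmD d) (hl : AdmL lam) {U : V → V → V → ℝ}
    (hU : ∀ a b x, lap d lam (U a b) x = (if x = a then 1 else 0) - (if x = b then 1 else 0)) :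
    ∑ x, ∑ y, lam x y * Gam d lam U x y ≤
      8 * (∑ a, ∑ b, lam a b) * Real.log (Fintype.card V) := by
  have hdnn : ∀ a b, 0 ≤ d a b := fun a b => by
    by_cases h : a = b
    · rw [h, hd.self]
    · exact (hd.pos a b h).le
  have h := hE (cond d lam) d (cond_symm hd hl) (fun a b h => cond_pos hd hl h) (cond_self hl)
    hd.symm hdnn hd.pos U (fun a' b' v => hU a' b' v)
  simp only [cond_mul_d hd hl, cond_mul_d_sq hd hl] at h
  have h2 : ∑ x, ∑ y, lam x y * Gam d lam U x y =
      (1 / 2) * ∑ x, ∑ y, ∑ a, ∑ b, wt d lam x y * wt d lam a b * |U a b x - U a b y| := by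
    rw [mul_sum]
    refine sum_congr rfl fun x _ => ?_
    rw [mul_sum]
    refine sum_congr rfl fun y _ => ?_
    unfold Gam
    rw [mul_sum, mul_sum]
    refine sum_congr rfl fun a _ => ?_
    rw [mul_sum, mul_sum]
    refine sum_congr rfl fun b _ => ?_
    by_cases hxy : x = y
    · subst hxy; simp [hl.self, wt_self hl]
    · have hdp := hd.pos x y hxy
      have hlp := hl.pos x y hxy
      have hw := wt_nonneg hd hl a b
      unfold K
      rw [abs_div, abs_mul, abs_mul, abs_of_pos hdp, abs_of_nonneg hw, abs_of_pos (by norm_num : (0:ℝ) < 1 / 2)]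
      unfold wt
      field_simp
  rw [h2]
  linarith

/-- The energy of a pair. -/
noncomputable def Wen {J : Type*} [Fintype J] (d lam : V → V → ℝ) (U : V → V → V → ℝ)
    (om : J → ℝ) (w : J → V → V → ℝ) (a' b' : V) : ℝ :=
  ∑ j, om j * (∑ a, ∑ b, K d lam U a' b' a b * w j a b) ^ 2

lemma sum_lam_Wen_le {J : Type*} [Fintype J] (hd : AdmD d) (hl : AdmL lam) {U : V → V → V → ℝ}
    (hU : ∀ a b x, lap d lam (U a b) x = (if x = a then 1 else 0) - (if x = b then 1 else 0))
    {om : J → ℝ} {w : J → V → V → ℝ} (hom : ∀ j, 0 ≤ om j)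
    (hw : ∀ j a b, w j a b = - w j b a)
    (hB : ∀ a b, a ≠ b → ∑ j, om j * w j a b ^ 2 ≤ 1) :
    ∑ x, ∑ y, lam x y * Wen d lam U om w x y ≤ ∑ a, ∑ b, lam a b := by
  have h1 : ∑ x, ∑ y, lam x y * Wen d lam U om w x y =
      ∑ j, om j * ∑ x, ∑ y, lam x y * slope d (pot d lam U (w j)) x y ^ 2 := by
    calc ∑ x, ∑ y, lam x y * Wen d lam U om w x y
        = ∑ x, ∑ y, ∑ j, om j * (lam x y * slope d (pot d lam U (w j)) x y ^ 2) := by
          refine sum_congr rfl fun x _ => sum_congr rfl fun y _ => ?_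
          unfold Wen
          rw [mul_sum]
          refine sum_congr rfl fun j _ => ?_
          rw [K_apply]; ring
      _ = ∑ x, ∑ j, ∑ y, om j * (lam x y * slope d (pot d lam U (w j)) x y ^ 2) :=
          sum_congr rfl fun x _ => sum_comm
      _ = ∑ j, ∑ x, ∑ y, om j * (lam x y * slope d (pot d lam U (w j)) x y ^ 2) := sum_comm
      _ = _ := by
          refine sum_congr rfl fun j _ => ?_
          rw [mul_sum]
          refine sum_congr rfl fun x _ => ?_
          rw [mul_sum]
  have h2 : ∑ j, om j * ∑ x, ∑ y, lam x y * slope d (pot d lam U (w j)) x y ^ 2 ≤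
      ∑ j, om j * ∑ x, ∑ y, lam x y * w j x y ^ 2 :=
    sum_le_sum fun j _ => mul_le_mul_of_nonneg_left (energy_pot_le hd hl hU (hw j)) (hom j)
  have h3 : ∑ j, om j * ∑ x, ∑ y, lam x y * w j x y ^ 2 =
      ∑ x, ∑ y, lam x y * ∑ j, om j * w j x y ^ 2 := by
    calc ∑ j, om j * ∑ x, ∑ y, lam x y * w j x y ^ 2
        = ∑ j, ∑ x, ∑ y, lam x y * (om j * w j x y ^ 2) := by
          refine sum_congr rfl fun j _ => ?_
          rw [mul_sum]
          refine sum_congr rfl fun x _ => ?_
          rw [mul_sum]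
          refine sum_congr rfl fun y _ => ?_
          ring
      _ = ∑ x, ∑ j, ∑ y, lam x y * (om j * w j x y ^ 2) := sum_comm
      _ = ∑ x, ∑ y, ∑ j, lam x y * (om j * w j x y ^ 2) :=
          sum_congr rfl fun x _ => sum_comm
      _ = _ := by
          refine sum_congr rfl fun x _ => sum_congr rfl fun y _ => ?_
          rw [mul_sum]
  rw [h1]
  refine h2.trans ?_
  rw [h3]
  refine sum_le_sum fun x _ => sum_le_sum fun y _ => ?_
  by_cases hxy : x = y
  · subst hxy; simp [hl.self]
  · have := hB x y hxy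
    have hp := hl.pos x y hxy
    nlinarith

end basic

section minimax

variable {J : Type*} [Fintype J]

/-- a fixed choice of Poisson solutions. -/
noncomputable def theU (d lam : V → V → ℝ) : V → V → V → ℝ := by
  classical
  exact if h : ∃ U : V → V → V → ℝ, ∀ a b x,
      lap d lam (U a b) x = (if x = a then 1 else 0) - (if x = b then 1 else 0)
    then Classical.choose h else 0

lemma theU_spec [Nonempty V] {d lam : V → V → ℝ} (hd : AdmD d) (hl : AdmL lam) (a b x : V) :
    lap d lam (theU d lam a b) x = (if x = a then 1 else 0) - (if x = b then 1 else 0) := by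
  have h := exists_U hd hl
  unfold theU
  rw [dif_pos h]
  exact Classical.choose_spec h a b x

/-- payoff vector. -/
noncomputable def pay (d : V → V → ℝ) (om : J → ℝ) (w : J → V → V → ℝ) (C0 W0 : ℝ)
    (lam : V → V → ℝ) (i : Bool × V × V) : ℝ :=
  if i.1 then Gam d lam (theU d lam) i.2.1 i.2.2 / C0
  else Wen d lam (theU d lam) om w i.2.1 i.2.2 / W0

lemma exists_mixture [Nonempty V] (hE : LemmaEStmt V) (hn : 2 ≤ Fintype.card V)
    {d : V → V → ℝ} (hd : AdmD d) {om : J → ℝ} {w : J → V → V → ℝ} (hom : ∀ j, 0 ≤ om j)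
    (hw : ∀ j a b, w j a b = - w j b a)
    (hB : ∀ a b, a ≠ b → ∑ j, om j * w j a b ^ 2 ≤ 1) :
    ∃ x ∈ convexHull ℝ {v | ∃ lam : V → V → ℝ, AdmL lam ∧
        v = pay d om w (64 * Real.log (Fintype.card V)) 8 lam}, ∀ i, x i < 1 := by
  classical
  set C0 : ℝ := 64 * Real.log (Fintype.card V) with hC0
  have hlogn : 0 < Real.log (Fintype.card V) := by
    apply Real.log_pos
    exact_mod_cast (by omega : 1 < Fintype.card V)
  have hC0pos : 0 < C0 := by positivity
  set S := convexHull ℝ {v | ∃ lam : V → V → ℝ, AdmL lam ∧ v = pay d om w C0 8 lam} with hS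
  by_contra hcon
  push Not at hcon
  -- separate the open box from the convex hull
  let B : Set (Bool × V × V → ℝ) := Set.pi Set.univ (fun _ => Set.Iio 1)
  have hBopen : IsOpen B := isOpen_set_pi Set.finite_univ (fun _ _ => isOpen_Iio)
  have hBconv : Convex ℝ B := convex_pi (fun _ _ => convex_Iio 1)
  have hSconv : Convex ℝ S := convex_convexHull ℝ _
  have hdisj : Disjoint B S := by
    rw [Set.disjoint_left]
    intro x hxB hxS
    obtain ⟨i, hi⟩ := hcon x hxS
    exact absurd (hxB i (Set.mem_univ i)) (not_lt.2 hi)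
  obtain ⟨f, u, hfB, hfS⟩ := geometric_hahn_banach_open hBconv hBopen hSconv hdisj
  -- coefficients
  let α : Bool × V × V → ℝ := fun i => f (fun j => if i = j then 1 else 0)
  have hf : ∀ x, f x = ∑ i, α i * x i := by
    intro x
    have := LinearMap.pi_apply_eq_sum_univ (f : (Bool × V × V → ℝ) →ₗ[ℝ] ℝ) x
    simpa [α, mul_comm] using this
  set A : ℝ := ∑ i, α i with hA
  -- nonnegativity of the coefficients
  have hα : ∀ i, 0 ≤ α i := by
    intro i
    by_contra hi
    push Not at hi
    set T : ℝ := (|u| + |A / 2| + 1) / (- α i) with hT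
    have hαi : 0 < - α i := by linarith
    have hTpos : 0 < T := by positivity
    have hTα : - (T * α i) = |u| + |A / 2| + 1 := by
      have hne : α i ≠ 0 := hi.ne
      rw [hT]; field_simp
    let x : Bool × V × V → ℝ := fun j => 1 / 2 - T * (if j = i then 1 else 0)
    have hxB : x ∈ B := by
      intro j _
      simp only [x, Set.mem_Iio]
      split_ifs <;> nlinarith
    have h1 := hfB x hxB
    have h2 : f x = A / 2 - T * α i := by
      rw [hf x, hA]
      simp only [x, mul_sub, sum_sub_distrib]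
      congr 1
      · rw [sum_div]
        exact sum_congr rfl fun j _ => by ring
      · have : ∀ j, α j * (T * (if j = i then (1:ℝ) else 0)) = if j = i then T * α i else 0 := by
          intro j; split_ifs with h
          · rw [h]; ring
          · ring
        simp_rw [this]
        simp
    have h3 := le_abs_self u
    have h4 := neg_abs_le (A / 2)
    linarith
  have hA0 : 0 ≤ A := sum_nonneg fun i _ => hα i
  -- `A ≤ u`
  have hAu : A ≤ u := by
    by_contra hu
    push Not at hu
    set τ : ℝ := (A - u) / (2 * (|A| + 1)) with hτ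
    have hd1 : 0 < 2 * (|A| + 1) := by positivity
    have hτpos : 0 < τ := div_pos (by linarith) hd1
    have hτA : τ * |A| ≤ (A - u) / 2 := by
      rw [hτ, div_mul_eq_mul_div, div_le_div_iff₀ hd1 (by norm_num : (0:ℝ) < 2)]
      nlinarith [abs_nonneg A]
    let x : Bool × V × V → ℝ := fun _ => 1 - τ
    have hxB : x ∈ B := by
      intro j _
      simp only [x, Set.mem_Iio]; linarith
    have h1 := hfB x hxB
    have h2 : f x = A * (1 - τ) := by
      rw [hf x, hA, sum_mul]
    have h3 : A * τ ≤ τ * |A| := by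
      rw [mul_comm]
      exact mul_le_mul_of_nonneg_left (le_abs_self A) hτpos.le
    nlinarith
  -- `0 < A`
  have hApos : 0 < A := by
    rcases hA0.lt_or_eq with h | h
    · exact h
    exfalso
    have hzero : ∀ i, α i = 0 := by
      intro i
      have hs : ∑ i, α i = 0 := by rw [← hA]; exact h.symm
      exact (sum_eq_zero_iff_of_nonneg (fun i _ => hα i)).1 hs i (mem_univ i)
    have hf0 : ∀ x, f x = 0 := fun x => by simp [hf x, hzero]
    have h1 := hfB 0 (by intro j _; simp)
    let lam0 : V → V → ℝ := fun a b => if a = b then 0 else 1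
    have hl0 : AdmL lam0 :=
      { symm := fun a b => by simp [lam0, eq_comm]
        pos := fun a b h => by simp [lam0, h]
        self := fun a => by simp [lam0] }
    have h2 := hfS (pay d om w C0 8 lam0) (subset_convexHull ℝ _ ⟨lam0, hl0, rfl⟩)
    rw [hf0] at h1 h2
    linarith
  -- the adapted weights
  set n : ℝ := (Fintype.card V : ℝ) with hn'
  have hnpos : 0 < n := by
    rw [hn']; exact_mod_cast (by omega : 0 < Fintype.card V)
  set η : ℝ := 1 / n ^ 2 with hη
  have hηpos : 0 < η := by positivity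
  let X : V → V → ℝ := fun a b =>
    α (true, a, b) + α (true, b, a) + α (false, a, b) + α (false, b, a)
  have hX : ∀ a b, X a b = X b a := fun a b => by simp only [X]; ring
  have hXnn : ∀ a b, 0 ≤ X a b := fun a b => by
    have h1 := hα (true, a, b); have h2 := hα (true, b, a)
    have h3 := hα (false, a, b); have h4 := hα (false, b, a)
    simp only [X]; linarith
  let lam : V → V → ℝ := fun a b => if a = b then 0 else X a b / A + η
  have hl : AdmL lam :=
    { symm := fun a b => by
        simp only [lam]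
        by_cases h : a = b
        · simp [h]
        · rw [if_neg h, if_neg (Ne.symm h), hX]
      pos := fun a b h => by
        simp only [lam, if_neg h]
        have := hXnn a b
        positivity
      self := fun a => by simp [lam] }
  have hsumα : A = ∑ a, ∑ b, α (true, a, b) + ∑ a, ∑ b, α (false, a, b) := by
    rw [hA, Fintype.sum_prod_type, Fintype.sum_bool]
    simp only [Fintype.sum_prod_type]
  have hsumX : ∑ a, ∑ b, X a b = 2 * A := by
    have h1 : ∑ a, ∑ b, α (true, b, a) = ∑ a, ∑ b, α (true, a, b) := sum_comm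
    have h2 : ∑ a, ∑ b, α (false, b, a) = ∑ a, ∑ b, α (false, a, b) := sum_comm
    simp only [X, sum_add_distrib]
    rw [h1, h2, hsumα]; ring
  have hTot : ∑ a, ∑ b, lam a b ≤ 3 := by
    have h1 : ∀ a b, lam a b ≤ X a b / A + η := fun a b => by
      simp only [lam]
      split_ifs
      · have := hXnn a b; positivity
      · exact le_rfl
    have h2 : ∑ a, ∑ b, (X a b / A + η) = 3 := by
      simp only [sum_add_distrib, sum_const, card_univ, nsmul_eq_mul, ← sum_div]
      rw [hsumX, ← hn', hη]
      field_simp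
      ring
    calc ∑ a, ∑ b, lam a b ≤ ∑ a, ∑ b, (X a b / A + η) :=
          sum_le_sum fun a _ => sum_le_sum fun b _ => h1 a b
      _ = 3 := h2
  have hαle : ∀ a b, a ≠ b → α (true, a, b) ≤ A * lam a b ∧ α (false, a, b) ≤ A * lam a b := by
    intro a b hab
    have h1 := hα (true, a, b); have h2 := hα (true, b, a)
    have h3 := hα (false, a, b); have h4 := hα (false, b, a)
    have h5 : A * lam a b = X a b + A * η := by
      simp only [lam, if_neg hab]
      field_simp
    have h6 : 0 < A * η := by positivity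
    simp only [X] at h5
    constructor <;> linarith
  set U := theU d lam with hUdef
  have hU : ∀ a b x, lap d lam (U a b) x = (if x = a then 1 else 0) - (if x = b then 1 else 0) :=
    theU_spec hd hl
  have hGamnn : ∀ a b, 0 ≤ Gam d lam U a b := fun a b =>
    sum_nonneg fun _ _ => sum_nonneg fun _ _ => abs_nonneg _
  have hWennn : ∀ a b, 0 ≤ Wen d lam U om w a b := fun a b =>
    sum_nonneg fun j _ => mul_nonneg (hom j) (sq_nonneg _)
  have hGam0 : ∀ a, Gam d lam U a a = 0 := fun a => by
    simp [Gam, K, hd.self]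
  have hWen0 : ∀ a, Wen d lam U om w a a = 0 := fun a => by
    simp [Wen, K, hd.self]
  have hG : ∑ a, ∑ b, α (true, a, b) * Gam d lam U a b ≤
      A * (8 * 3 * Real.log (Fintype.card V)) := by
    have h1 : ∑ a, ∑ b, α (true, a, b) * Gam d lam U a b ≤
        ∑ a, ∑ b, A * (lam a b * Gam d lam U a b) := by
      refine sum_le_sum fun a _ => sum_le_sum fun b _ => ?_
      by_cases hab : a = b
      · subst hab; simp [hGam0, hl.self]
      · have := (hαle a b hab).1
        have h2 := hGamnn a b
        nlinarith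
    have h2 := sum_lam_Gam_le hE hd hl hU
    have h3 : ∑ a, ∑ b, A * (lam a b * Gam d lam U a b) =
        A * ∑ a, ∑ b, lam a b * Gam d lam U a b := by
      simp only [mul_sum]
    rw [h3] at h1
    refine h1.trans (mul_le_mul_of_nonneg_left ?_ hA0)
    refine h2.trans ?_
    have : 8 * (∑ a, ∑ b, lam a b) ≤ 8 * 3 := by linarith
    exact mul_le_mul_of_nonneg_right this hlogn.le
  have hW : ∑ a, ∑ b, α (false, a, b) * Wen d lam U om w a b ≤ A * 3 := by
    have h1 : ∑ a, ∑ b, α (false, a, b) * Wen d lam U om w a b ≤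
        ∑ a, ∑ b, A * (lam a b * Wen d lam U om w a b) := by
      refine sum_le_sum fun a _ => sum_le_sum fun b _ => ?_
      by_cases hab : a = b
      · subst hab; simp [hWen0, hl.self]
      · have := (hαle a b hab).2
        have h2 := hWennn a b
        nlinarith
    have h2 := sum_lam_Wen_le hd hl hU hom hw hB
    have h3 : ∑ a, ∑ b, A * (lam a b * Wen d lam U om w a b) =
        A * ∑ a, ∑ b, lam a b * Wen d lam U om w a b := by
      simp only [mul_sum]
    rw [h3] at h1
    refine h1.trans (mul_le_mul_of_nonneg_left ?_ hA0)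
    linarith
  have hmain := hfS (pay d om w C0 8 lam) (subset_convexHull ℝ _ ⟨lam, hl, rfl⟩)
  rw [hf, Fintype.sum_prod_type, Fintype.sum_bool] at hmain
  simp only [Fintype.sum_prod_type, pay, if_true, Bool.false_eq_true, if_false] at hmain
  have e1 : ∑ a, ∑ b, α (true, a, b) * (Gam d lam (theU d lam) a b / C0) =
      (∑ a, ∑ b, α (true, a, b) * Gam d lam U a b) / C0 := by
    rw [sum_div]
    refine sum_congr rfl fun a _ => ?_
    rw [sum_div]
    exact sum_congr rfl fun b _ => by ring
  have e2 : ∑ a, ∑ b, α (false, a, b) * (Wen d lam (theU d lam) om w a b / 8) =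
      (∑ a, ∑ b, α (false, a, b) * Wen d lam U om w a b) / 8 := by
    rw [sum_div]
    refine sum_congr rfl fun a _ => ?_
    rw [sum_div]
    exact sum_congr rfl fun b _ => by ring
  rw [e1, e2] at hmain
  have h1 : (∑ a, ∑ b, α (true, a, b) * Gam d lam U a b) / C0 ≤ A * (3 / 8) := by
    rw [div_le_iff₀ hC0pos, hC0]
    nlinarith
  have h2 : (∑ a, ∑ b, α (false, a, b) * Wen d lam U om w a b) / 8 ≤ A * (3 / 8) := by
    rw [div_le_iff₀ (by norm_num : (0:ℝ) < 8)]
    nlinarith
  linarith

lemma sq_wsum_le {ι : Type*} (t : Finset ι) (μ y : ι → ℝ) (hμ : ∀ i ∈ t, 0 ≤ μ i)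
    (hμ1 : ∑ i ∈ t, μ i = 1) : (∑ i ∈ t, μ i * y i) ^ 2 ≤ ∑ i ∈ t, μ i * y i ^ 2 := by
  set m := ∑ i ∈ t, μ i * y i with hm
  have h1 : 0 ≤ ∑ i ∈ t, μ i * (y i - m) ^ 2 :=
    sum_nonneg fun i hi => mul_nonneg (hμ i hi) (sq_nonneg _)
  have h2 : ∑ i ∈ t, μ i * (y i - m) ^ 2 =
      ∑ i ∈ t, μ i * y i ^ 2 - 2 * m * ∑ i ∈ t, μ i * y i + m ^ 2 * ∑ i ∈ t, μ i := by
    have h3 : ∀ i, μ i * (y i - m) ^ 2 = μ i * y i ^ 2 - 2 * m * (μ i * y i) + m ^ 2 * μ i :=
      fun i => by ring
    simp_rw [h3]
    rw [sum_add_distrib, sum_sub_distrib, ← mul_sum, ← mul_sum]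
  rw [h2, ← hm, hμ1] at h1
  nlinarith

/-- **The kernel theorem** (M2 + M4 of #1151, with Lemma E as input): one averaged electrical
kernel with all-pairs mass and energy bounds. -/
theorem exists_kernel_of_lemmaE [Nonempty V] (hE : LemmaEStmt V) (hn : 2 ≤ Fintype.card V)
    {d : V → V → ℝ} (hd : AdmD d) {om : J → ℝ} {w : J → V → V → ℝ} (hom : ∀ j, 0 ≤ om j)
    (hw : ∀ j a b, w j a b = - w j b a)
    (hB : ∀ a b, a ≠ b → ∑ j, om j * w j a b ^ 2 ≤ 1) :
    ∃ Kb : V → V → V → V → ℝ,
      (∀ a' b' (g : V → ℝ), ∑ a, ∑ b, Kb a' b' a b * slope d g a b = slope d g a' b') ∧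
      (∀ u : V → V → ℝ, (∀ a b, u a b = - u b a) → ∃ φ : V → ℝ, ∀ a' b',
        slope d φ a' b' = ∑ a, ∑ b, Kb a' b' a b * u a b) ∧
      (∀ a' b', ∑ a, ∑ b, |Kb a' b' a b| ≤ 64 * Real.log (Fintype.card V)) ∧
      (∀ a' b', ∑ j, om j * (∑ a, ∑ b, Kb a' b' a b * w j a b) ^ 2 ≤ 8) := by
  classical
  obtain ⟨x, hx, hxlt⟩ := exists_mixture (J := J) hE hn hd hom hw hB
  rw [_root_.convexHull_eq] at hx
  obtain ⟨ι, t, μ, z, hμ, hμ1, hz, hcm⟩ := hx
  have hz' : ∀ i ∈ t, ∃ lam : V → V → ℝ, AdmL lam ∧
      z i = pay d om w (64 * Real.log (Fintype.card V)) 8 lam := hz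
  choose! lamf hlamf using hz'
  have hx' : x = ∑ i ∈ t, μ i • z i := by
    rw [← hcm, Finset.centerMass_eq_of_sum_1 _ _ hμ1]
  have hxc : ∀ c, x c = ∑ i ∈ t, μ i * z i c := by
    intro c
    rw [hx', Finset.sum_apply]
    rfl
  have hlogn : 0 < Real.log (Fintype.card V) := by
    apply Real.log_pos
    exact_mod_cast (by omega : 1 < Fintype.card V)
  set C0 : ℝ := 64 * Real.log (Fintype.card V) with hC0
  have hC0pos : 0 < C0 := by positivity
  let U : ι → V → V → V → ℝ := fun i => theU d (lamf i)
  let Ki : ι → V → V → V → V → ℝ := fun i => K d (lamf i) (U i)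
  let Kb : V → V → V → V → ℝ := fun a' b' a b => ∑ i ∈ t, μ i * Ki i a' b' a b
  have happ : ∀ a' b' (u : V → V → ℝ), ∑ a, ∑ b, Kb a' b' a b * u a b =
      ∑ i ∈ t, μ i * slope d (pot d (lamf i) (U i) u) a' b' := by
    intro a' b' u
    have h1 : ∀ i, slope d (pot d (lamf i) (U i) u) a' b' = ∑ a, ∑ b, Ki i a' b' a b * u a b :=
      fun i => (K_apply (U i) u a' b').symm
    simp_rw [h1]
    calc ∑ a, ∑ b, Kb a' b' a b * u a b
        = ∑ a, ∑ b, ∑ i ∈ t, μ i * (Ki i a' b' a b * u a b) := by
          refine sum_congr rfl fun a _ => sum_congr rfl fun b _ => ?_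
          simp only [Kb, sum_mul]
          exact sum_congr rfl fun i _ => by ring
      _ = ∑ a, ∑ i ∈ t, ∑ b, μ i * (Ki i a' b' a b * u a b) :=
          sum_congr rfl fun a _ => sum_comm
      _ = ∑ i ∈ t, ∑ a, ∑ b, μ i * (Ki i a' b' a b * u a b) := sum_comm
      _ = _ := by
          refine sum_congr rfl fun i _ => ?_
          rw [mul_sum]
          refine sum_congr rfl fun a _ => ?_
          rw [mul_sum]
  refine ⟨Kb, ?_, ?_, ?_, ?_⟩
  · -- reproducing
    intro a' b' g
    rw [happ]
    have h1 : ∀ i ∈ t, μ i * slope d (pot d (lamf i) (U i) (slope d g)) a' b' =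
        μ i * slope d g a' b' := by
      intro i hi
      rw [slope_pot_slope hd (hlamf i hi).1 (theU_spec hd (hlamf i hi).1)]
    rw [sum_congr rfl h1, ← sum_mul, hμ1, one_mul]
  · -- potentials
    intro u _
    refine ⟨fun y => ∑ i ∈ t, μ i * pot d (lamf i) (U i) u y, fun a' b' => ?_⟩
    rw [happ]
    unfold slope
    rw [← sum_sub_distrib, sum_div]
    refine sum_congr rfl fun i _ => ?_
    ring
  · -- mass
    intro a' b'
    have h0 := hxlt (true, a', b')
    rw [hxc] at h0
    have h1 : ∀ i ∈ t, z i (true, a', b') = Gam d (lamf i) (U i) a' b' / C0 := by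
      intro i hi
      rw [(hlamf i hi).2]
      simp [pay, U]
    have h2 : ∑ i ∈ t, μ i * Gam d (lamf i) (U i) a' b' < C0 := by
      have h3 : ∑ i ∈ t, μ i * z i (true, a', b') =
          (∑ i ∈ t, μ i * Gam d (lamf i) (U i) a' b') / C0 := by
        rw [sum_div]
        refine sum_congr rfl fun i hi => ?_
        rw [h1 i hi]; ring
      rw [h3, div_lt_one hC0pos] at h0
      exact h0
    refine le_trans ?_ h2.le
    calc ∑ a, ∑ b, |Kb a' b' a b|
        ≤ ∑ a, ∑ b, ∑ i ∈ t, μ i * |Ki i a' b' a b| := by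
          refine sum_le_sum fun a _ => sum_le_sum fun b _ => ?_
          refine (abs_sum_le_sum_abs _ _).trans (sum_le_sum fun i hi => ?_)
          rw [abs_mul, abs_of_nonneg (hμ i hi)]
      _ = ∑ a, ∑ i ∈ t, ∑ b, μ i * |Ki i a' b' a b| := sum_congr rfl fun a _ => sum_comm
      _ = ∑ i ∈ t, ∑ a, ∑ b, μ i * |Ki i a' b' a b| := sum_comm
      _ = _ := by
          refine sum_congr rfl fun i _ => ?_
          unfold Gam
          rw [mul_sum]
          refine sum_congr rfl fun a _ => ?_
          rw [mul_sum]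
  · -- energy
    intro a' b'
    have h0 := hxlt (false, a', b')
    rw [hxc] at h0
    have h1 : ∀ i ∈ t, z i (false, a', b') = Wen d (lamf i) (U i) om w a' b' / 8 := by
      intro i hi
      rw [(hlamf i hi).2]
      simp [pay, U]
    have h2 : ∑ i ∈ t, μ i * Wen d (lamf i) (U i) om w a' b' < 8 := by
      have h3 : ∑ i ∈ t, μ i * z i (false, a', b') =
          (∑ i ∈ t, μ i * Wen d (lamf i) (U i) om w a' b') / 8 := by
        rw [sum_div]
        refine sum_congr rfl fun i hi => ?_
        rw [h1 i hi]; ring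
      rw [h3, div_lt_one (by norm_num : (0:ℝ) < 8)] at h0
      exact h0
    refine le_trans ?_ h2.le
    have happ2 : ∀ j, ∑ a, ∑ b, Kb a' b' a b * w j a b =
        ∑ i ∈ t, μ i * ∑ a, ∑ b, Ki i a' b' a b * w j a b := by
      intro j
      rw [happ]
      refine sum_congr rfl fun i _ => ?_
      rw [K_apply]
    calc ∑ j, om j * (∑ a, ∑ b, Kb a' b' a b * w j a b) ^ 2
        ≤ ∑ j, om j * ∑ i ∈ t, μ i * (∑ a, ∑ b, Ki i a' b' a b * w j a b) ^ 2 := by
          refine sum_le_sum fun j _ => mul_le_mul_of_nonneg_left ?_ (hom j)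
          rw [happ2]
          exact sq_wsum_le t μ _ hμ hμ1
      _ = ∑ j, ∑ i ∈ t, μ i * (om j * (∑ a, ∑ b, Ki i a' b' a b * w j a b) ^ 2) := by
          refine sum_congr rfl fun j _ => ?_
          rw [mul_sum]
          exact sum_congr rfl fun i _ => by ring
      _ = ∑ i ∈ t, ∑ j, μ i * (om j * (∑ a, ∑ b, Ki i a' b' a b * w j a b) ^ 2) := sum_comm
      _ = _ := by
          refine sum_congr rfl fun i _ => ?_
          unfold Wen
          rw [mul_sum]

end minimax

/-- Lemma E of helper77 (M3) in the form used above. -/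
lemma lemmaE_stmt (V : Type*) [Fintype V] [DecidableEq V] : LemmaEStmt V := by
  intro c d h1 h2 h3 h4 h5 h6 u hu
  exact Crest.Agent.LpDimRed.lemmaE c d h1 h2 h3 h4 h5 h6 u hu

/-- **The kernel theorem** of row 232: for lengths `d` on a finite set with at least two points,
and a finite family of antisymmetric fields `w j` with `∑ om j (w j)² ≤ 1` on every pair, there is
a kernel `Kb` which reproduces gradients, sends antisymmetric fields to gradients, and has mass
`≤ 64 log n` and energy `≤ 8` at every pair. -/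
theorem exists_kernel {J : Type*} [Fintype J] (hn : 2 ≤ Fintype.card V)
    {d : V → V → ℝ} (hd : AdmD d) {om : J → ℝ} {w : J → V → V → ℝ} (hom : ∀ j, 0 ≤ om j)
    (hw : ∀ j a b, w j a b = - w j b a)
    (hB : ∀ a b, a ≠ b → ∑ j, om j * w j a b ^ 2 ≤ 1) :
    ∃ Kb : V → V → V → V → ℝ,
      (∀ a' b' (g : V → ℝ), ∑ a, ∑ b, Kb a' b' a b * slope d g a b = slope d g a' b') ∧
      (∀ u : V → V → ℝ, (∀ a b, u a b = - u b a) → ∃ φ : V → ℝ, ∀ a' b',
        slope d φ a' b' = ∑ a, ∑ b, Kb a' b' a b * u a b) ∧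
      (∀ a' b', ∑ a, ∑ b, |Kb a' b' a b| ≤ 64 * Real.log (Fintype.card V)) ∧
      (∀ a' b', ∑ j, om j * (∑ a, ∑ b, Kb a' b' a b * w j a b) ^ 2 ≤ 8) := by
  haveI : Nonempty V := Fintype.card_pos_iff.1 (by omega)
  exact exists_kernel_of_lemmaE (lemmaE_stmt V) hn hd hom hw hB

end Crest.Agent.LpDimRed.Kernel
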