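/-
M2 + M3 + M4 packaged. The universal kernel, from `Kernel.exists_kernel` (helper16), which rests on
`lemmaE` (helper77). Paper: finding #1151 "M2", "M3", "M4".
-/
import Crest.Agent.Lib.LpDimRed.Basic
import Crest.Agent.Lib.LpDimRed.Kernel

set_option autoImplicit false

namespace Crest.Agent.LpDimRed

noncomputable section

open Finset

variable {X : Type*} [Fintype X] [DecidableEq X]

/-- THE UNIVERSAL KERNEL. No `p` here. Given any finite family of fields `w j` on pairs with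
`∑ ω_j (w_j e)^2 ≤ 1` for every pair `e`, there is a single linear operator
`K` on fields such that: `K` reproduces gradients on every pair, its range consists of gradients,
each row of `K` has `ℓ¹`-mass `≤ 64 log n`, and `∑ ω_j (K w_j)(e')^2 ≤ 8` for EVERY pair `e'`. -/
theorem universal_kernel (hX : 2 ≤ Fintype.card X) (d : X → X → ℝ)
    (hds : ∀ a b, d a b = d b a)
    (hd : ∀ a b, a ≠ b → 0 < d a b) (hd0 : ∀ a, d a a = 0)
    {J : Type*} [Fintype J] (ω : J → ℝ) (hω : ∀ j, 0 ≤ ω j) (w : J → X × X → ℝ)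
    (hw : ∀ e : X × X, ∑ j, ω j * w j e ^ 2 ≤ 1) :
    ∃ K : X × X → X × X → ℝ,
      (∀ (g : X → ℝ) (e' : X × X), ∑ e, K e' e * sl d g e = sl d g e') ∧
      (∀ f : X × X → ℝ, ∃ φ : X → ℝ, ∀ e', sl d φ e' = ∑ e, K e' e * f e) ∧
      (∀ e', ∑ e, |K e' e| ≤ 64 * Real.log (Fintype.card X)) ∧
      (∀ e', ∑ j, ω j * (∑ e, K e' e * w j e) ^ 2 ≤ 8) := by
  have hadm : Kernel.AdmD d := ⟨hds, hd, hd0⟩
  -- antisymmetric parts of the fields
  let w' : J → X → X → ℝ := fun j a b => (w j (a, b) - w j (b, a)) / 2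
  have hw'anti : ∀ j a b, w' j a b = - w' j b a := fun j a b => by simp only [w']; ring
  have hB : ∀ a b, a ≠ b → ∑ j, ω j * w' j a b ^ 2 ≤ 1 := by
    intro a b _
    have h1 := hw (a, b)
    have h2 := hw (b, a)
    have h3 : ∑ j, ω j * w' j a b ^ 2 ≤
        (∑ j, ω j * w j (a, b) ^ 2 + ∑ j, ω j * w j (b, a) ^ 2) / 2 := by
      rw [← sum_add_distrib, sum_div]
      refine sum_le_sum fun j _ => ?_
      have := hω j
      simp only [w']
      nlinarith [mul_nonneg this (sq_nonneg (w j (a, b) + w j (b, a)))]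
    linarith
  obtain ⟨Kb, hrep, hpot, hmass, hen⟩ := Kernel.exists_kernel hX hadm hω hw'anti hB
  -- the antisymmetrised kernel
  let K : X × X → X × X → ℝ := fun e' e =>
    (Kb e'.1 e'.2 e.1 e.2 - Kb e'.1 e'.2 e.2 e.1) / 2
  have hswap : ∀ (e' : X × X) (f : X × X → ℝ),
      ∑ e, K e' e * f e = ∑ a, ∑ b, Kb e'.1 e'.2 a b * ((f (a, b) - f (b, a)) / 2) := by
    intro e' f
    rw [Fintype.sum_prod_type]
    simp only [K]
    have h1 : ∑ a, ∑ b, Kb e'.1 e'.2 b a / 2 * f (a, b) =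
        ∑ a, ∑ b, Kb e'.1 e'.2 a b / 2 * f (b, a) := sum_comm
    have h2 : ∑ a, ∑ b, (Kb e'.1 e'.2 a b - Kb e'.1 e'.2 b a) / 2 * f (a, b) =
        ∑ a, ∑ b, Kb e'.1 e'.2 a b / 2 * f (a, b) - ∑ a, ∑ b, Kb e'.1 e'.2 b a / 2 * f (a, b) := by
      rw [← sum_sub_distrib]
      refine sum_congr rfl fun a _ => ?_
      rw [← sum_sub_distrib]
      exact sum_congr rfl fun b _ => by ring
    rw [h2, h1, ← sum_sub_distrib]
    refine sum_congr rfl fun a _ => ?_
    rw [← sum_sub_distrib]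
    exact sum_congr rfl fun b _ => by ring
  refine ⟨K, ?_, ?_, ?_, ?_⟩
  · -- reproducing
    intro g e'
    rw [hswap]
    have h1 : ∀ a b, (sl d g (a, b) - sl d g (b, a)) / 2 = Kernel.slope d g a b := by
      intro a b
      simp only [sl, Kernel.slope, hds b a]
      ring
    simp_rw [h1]
    exact hrep e'.1 e'.2 g
  · -- potentials
    intro f
    obtain ⟨φ, hφ⟩ := hpot (fun a b => (f (a, b) - f (b, a)) / 2) (fun a b => by ring)
    refine ⟨φ, fun e' => ?_⟩
    rw [hswap]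
    exact hφ e'.1 e'.2
  · -- mass
    intro e'
    rw [Fintype.sum_prod_type]
    have h1 : ∑ a, ∑ b, |Kb e'.1 e'.2 b a| = ∑ a, ∑ b, |Kb e'.1 e'.2 a b| := sum_comm
    calc ∑ a, ∑ b, |K e' (a, b)|
        ≤ ∑ a, ∑ b, (|Kb e'.1 e'.2 a b| + |Kb e'.1 e'.2 b a|) / 2 := by
          refine sum_le_sum fun a _ => sum_le_sum fun b _ => ?_
          simp only [K]
          rw [abs_div, abs_of_pos (by norm_num : (0:ℝ) < 2)]
          exact div_le_div_of_nonneg_right (abs_sub _ _) (by norm_num)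
      _ = (∑ a, ∑ b, |Kb e'.1 e'.2 a b| + ∑ a, ∑ b, |Kb e'.1 e'.2 b a|) / 2 := by
          rw [← sum_add_distrib, sum_div]
          refine sum_congr rfl fun a _ => ?_
          rw [← sum_add_distrib, sum_div]
      _ = ∑ a, ∑ b, |Kb e'.1 e'.2 a b| := by rw [h1]; ring
      _ ≤ _ := hmass _ _
  · -- energy
    intro e'
    have := hen e'.1 e'.2
    refine le_trans (le_of_eq ?_) this
    refine sum_congr rfl fun j _ => ?_
    rw [hswap]

end

end Crest.Agent.LpDimRed
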