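/-
S0358 (row 232): the band family on a finite subset of `ℓ_p`, from the universal kernel.
Paper: finding #1165 (helper23).
-/
import Crest.Agent.Lib.LpDimRed.Bands
import Crest.Agent.Lib.LpDimRed.Minimax

set_option autoImplicit false

namespace Crest.Agent.LpDimRed.Bands

open Finset

/-! ### The mass of a window -/

/-- The `p`-mass of the window. -/
noncomputable def winMass (p : ℝ) (L : ℕ) : ℝ := ∑ v ∈ Finset.Ioo (0 : ℤ) (2 * (L : ℤ)), tent L v ^ p

lemma tent_shift_sum (p : ℝ) (L : ℕ) (l : ℤ) :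
    ∑ u ∈ Finset.Ioo l (l + 2 * (L : ℤ)), tent L (u - l) ^ p = winMass p L := by
  unfold winMass
  apply Finset.sum_nbij' (fun u => u - l) (fun v => v + l)
  · intro u hu
    simp only [Finset.mem_Ioo] at hu ⊢
    constructor <;> linarith [hu.1, hu.2]
  · intro v hv
    simp only [Finset.mem_Ioo] at hv ⊢
    constructor <;> linarith [hv.1, hv.2]
  · intro u _; ring
  · intro v _; ring
  · intro u _; rfl

lemma tent_sum_le_mass {p : ℝ} (hp : 0 < p) {L : ℕ} (hL : 0 < L) (U : Finset ℤ) (l : ℤ) :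
    ∑ u ∈ U, tent L (u - l) ^ p ≤ winMass p L := by
  classical
  rw [← tent_shift_sum p L l]
  have h1 : ∑ u ∈ U, tent L (u - l) ^ p
      = ∑ u ∈ U.filter (fun u => u ∈ Finset.Ioo l (l + 2 * (L : ℤ))), tent L (u - l) ^ p := by
    rw [Finset.sum_filter]
    apply Finset.sum_congr rfl
    intro u _
    split_ifs with h
    · rfl
    · have : tent L (u - l) = 0 := by
        apply tent_eq_zero hL
        by_contra hcon
        push Not at hcon
        apply h
        rw [Finset.mem_Ioo]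
        constructor
        · linarith [hcon.1]
        · linarith [hcon.2]
      rw [this, Real.zero_rpow hp.ne']
  rw [h1]
  apply Finset.sum_le_sum_of_subset_of_nonneg
  · intro u hu
    exact (Finset.mem_filter.mp hu).2
  · intro u _ _
    exact Real.rpow_nonneg (tent_nonneg _ _) _

lemma winMass_le {p : ℝ} (hp : 1 ≤ p) {L : ℕ} (hL : 0 < L) : winMass p L ≤ 2 * L := by
  have := tent_sum_le hp hL (Finset.Ioo (0 : ℤ) (2 * (L : ℤ))) 0
  simpa [winMass] using this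

lemma winMass_ge {p : ℝ} (hp : 0 < p) {L : ℕ} (hL : 0 < L) :
    (L : ℝ) * (1 / 2 : ℝ) ^ p ≤ winMass p L := by
  set a : ℤ := (((L + 1) / 2 : ℕ) : ℤ) with ha
  have ha1 : 2 * a ≥ (L : ℤ) := by rw [ha]; omega
  have ha2 : 2 * a ≤ (L : ℤ) + 1 := by rw [ha]; omega
  have ha3 : 1 ≤ a := by rw [ha]; omega
  have hsub : Finset.Icc a (a + L - 1) ⊆ Finset.Ioo (0 : ℤ) (2 * (L : ℤ)) := by
    intro v hv
    simp only [Finset.mem_Icc, Finset.mem_Ioo] at hv ⊢
    constructor <;> omega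
  have hL' : (0 : ℝ) < L := by exact_mod_cast hL
  have hval : ∀ v ∈ Finset.Icc a (a + L - 1), (1 / 2 : ℝ) ^ p ≤ tent L v ^ p := by
    intro v hv
    apply Real.rpow_le_rpow (by norm_num) _ hp.le
    simp only [Finset.mem_Icc] at hv
    have h1 : (L : ℤ) ≤ 2 * v := by omega
    have h2 : 2 * v ≤ 3 * (L : ℤ) := by omega
    have h1' : (L : ℝ) ≤ 2 * v := by exact_mod_cast h1
    have h2' : 2 * (v : ℝ) ≤ 3 * L := by exact_mod_cast h2
    unfold tent
    apply le_trans _ (le_max_right _ _)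
    have h3 : |(v : ℝ) - L| / L ≤ 1 / 2 := by
      rw [div_le_iff₀ hL', abs_le]
      constructor <;> linarith
    linarith
  have hcard : ((Finset.Icc a (a + L - 1)).card : ℝ) = L := by
    rw [Int.card_Icc]
    have : (a + L - 1 + 1 - a).toNat = L := by omega
    rw [this]
  calc (L : ℝ) * (1 / 2 : ℝ) ^ p = ∑ _v ∈ Finset.Icc a (a + L - 1), (1 / 2 : ℝ) ^ p := by
        rw [Finset.sum_const, nsmul_eq_mul, hcard]
    _ ≤ ∑ v ∈ Finset.Icc a (a + L - 1), tent L v ^ p := Finset.sum_le_sum hval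
    _ ≤ winMass p L := by
        apply Finset.sum_le_sum_of_subset_of_nonneg hsub
        intro v _ _
        exact Real.rpow_nonneg (tent_nonneg _ _) _

/-! ### Atoms -/

/-- The part of `a` at level `l`. -/
noncomputable def atom (a : ℝ) (l : ℤ) : ℝ := by
  classical exact if a ≠ 0 ∧ lvl a = l then a else 0

lemma sum_atom {S : Finset ℤ} {a : ℝ} (ha : lvl a ∈ S) (G : ℤ → ℝ → ℝ) (hG : ∀ l, G l 0 = 0) :
    ∑ l ∈ S, G l (atom a l) = G (lvl a) a := by
  classical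
  by_cases h0 : a = 0
  · subst h0
    simp [atom, hG]
  · rw [Finset.sum_eq_single (lvl a)]
    · simp [atom, h0]
    · intro l _ hl
      have : atom a l = 0 := by
        unfold atom
        rw [if_neg]
        rintro ⟨_, h⟩
        exact hl h.symm
      rw [this, hG]
    · intro h
      exact absurd ha h

lemma abs_atom_le (a : ℝ) (l : ℤ) : |atom a l| ≤ (2 : ℝ) ^ (l : ℝ) := by
  classical
  unfold atom
  split_ifs with h
  · rw [← h.2]
    exact abs_le_two_rpow_lvl h.1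
  · simp only [abs_zero]
    positivity

/-- The exponent `(p-2)₊`. -/
noncomputable def pplus (p : ℝ) : ℝ := max 0 (p - 2)

lemma two_rpow_lvl_mul_le_of_nonneg {a q : ℝ} (ha : a ≠ 0) (hq : 0 ≤ q) :
    (2 : ℝ) ^ ((lvl a : ℝ) * q) ≤ 2 ^ q * |a| ^ q := by
  have h0 : 0 < |a| := abs_pos.mpr ha
  rw [Real.rpow_mul (by norm_num), ← Real.mul_rpow (by norm_num) h0.le]
  exact Real.rpow_le_rpow (by positivity) (two_rpow_lvl_lt ha).le hq

lemma two_rpow_lvl_mul_le_of_nonpos {a q : ℝ} (ha : a ≠ 0) (hq : q ≤ 0) :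
    (2 : ℝ) ^ ((lvl a : ℝ) * q) ≤ |a| ^ q := by
  have h0 : 0 < |a| := abs_pos.mpr ha
  rw [Real.rpow_mul (by norm_num)]
  exact Real.rpow_le_rpow_of_nonpos h0 (abs_le_two_rpow_lvl ha) hq

lemma abs_rpow_sub_two_mul_sq {p a : ℝ} (ha : a ≠ 0) : |a| ^ (p - 2) * a ^ 2 = |a| ^ p := by
  have h0 : 0 < |a| := abs_pos.mpr ha
  rw [← sq_abs a, ← Real.rpow_natCast (|a|) 2, ← Real.rpow_add h0]
  congr 1
  push_cast
  ring

/-- Estimate for the energy weights. -/
lemma level_energy_le {p : ℝ} (a : ℝ) :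
    (2 : ℝ) ^ ((lvl a : ℝ) * (p - 2)) * a ^ 2 ≤ 2 ^ pplus p * |a| ^ p ∨ a = 0 := by
  by_cases ha : a = 0
  · exact Or.inr ha
  left
  have h2 : (0:ℝ) ≤ a ^ 2 := sq_nonneg a
  rcases le_total 2 p with hp | hp
  · have h1 := two_rpow_lvl_mul_le_of_nonneg ha (by linarith : 0 ≤ p - 2)
    have e : pplus p = p - 2 := max_eq_right (by linarith)
    rw [e]
    calc _ ≤ 2 ^ (p - 2) * |a| ^ (p - 2) * a ^ 2 := mul_le_mul_of_nonneg_right h1 h2
      _ = 2 ^ (p - 2) * (|a| ^ (p - 2) * a ^ 2) := by ring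
      _ = _ := by rw [abs_rpow_sub_two_mul_sq ha]
  · have h1 := two_rpow_lvl_mul_le_of_nonpos ha (by linarith : p - 2 ≤ 0)
    have e : pplus p = 0 := max_eq_left (by linarith)
    rw [e, Real.rpow_zero, one_mul]
    calc _ ≤ |a| ^ (p - 2) * a ^ 2 := mul_le_mul_of_nonneg_right h1 h2
      _ = _ := abs_rpow_sub_two_mul_sq ha

lemma level_one_le {p : ℝ} (hp : 1 ≤ p) {a : ℝ} (ha : a ≠ 0) :
    (2 : ℝ) ^ ((lvl a : ℝ) * (p - 1)) * |a| ≤ 2 ^ (p - 1) * |a| ^ p := by
  have h0 : 0 < |a| := abs_pos.mpr ha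
  have h1 := two_rpow_lvl_mul_le_of_nonneg ha (by linarith : 0 ≤ p - 1)
  calc _ ≤ 2 ^ (p - 1) * |a| ^ (p - 1) * |a| := mul_le_mul_of_nonneg_right h1 h0.le
    _ = 2 ^ (p - 1) * (|a| ^ (p - 1) * |a|) := by ring
    _ = _ := by rw [← Real.rpow_add_one h0.ne']; congr 2; ring

/-- The band of `a` at `u`. -/
noncomputable def band (L : ℕ) (a : ℝ) (u : ℤ) : ℝ := tent L (u - lvl a) * a

lemma abs_band_le {L : ℕ} (hL : 0 < L) (a : ℝ) (u : ℤ) : |band L a u| ≤ (2 : ℝ) ^ (u : ℝ) := by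
  unfold band
  by_cases h0 : a = 0
  · subst h0
    simp only [mul_zero, abs_zero]
    positivity
  by_cases h : u - lvl a ≤ 0
  · rw [tent_eq_zero hL (Or.inl h)]
    simp only [zero_mul, abs_zero]
    positivity
  push Not at h
  rw [abs_mul, abs_of_nonneg (tent_nonneg _ _)]
  have h1 : |a| ≤ (2 : ℝ) ^ (u : ℝ) := by
    refine (abs_le_two_rpow_lvl h0).trans ?_
    apply Real.rpow_le_rpow_of_exponent_le (by norm_num)
    have : lvl a ≤ u := by omega
    exact_mod_cast this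
  calc _ ≤ 1 * (2 : ℝ) ^ (u : ℝ) :=
        mul_le_mul (tent_le_one _ _) h1 (abs_nonneg _) zero_le_one
    _ = _ := one_mul _

lemma band_eq_sum {S : Finset ℤ} {a : ℝ} (ha : lvl a ∈ S) (L : ℕ) (u : ℤ) :
    ∑ l ∈ S, tent L (u - l) * atom a l = band L a u :=
  sum_atom ha (fun l y => tent L (u - l) * y) (fun l => mul_zero _)

/-- The energy of all the bands of `a`. -/
lemma band_energy_le {p : ℝ} {L : ℕ} (hL : 0 < L) (U : Finset ℤ) (a : ℝ) :
    ∑ u ∈ U, (2 : ℝ) ^ ((u : ℝ) * (p - 2)) * band L a u ^ 2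
      ≤ (2 * L) * 2 ^ (2 * (L : ℝ) * pplus p) * 2 ^ pplus p * |a| ^ p ∨ a = 0 := by
  by_cases ha : a = 0
  · exact Or.inr ha
  left
  set M : ℝ := (2 : ℝ) ^ ((lvl a : ℝ) * (p - 2)) * 2 ^ (2 * (L : ℝ) * pplus p) with hM
  have hM0 : 0 ≤ M := by positivity
  have hsum := sum_le_of_support (U := U)
    (f := fun u => (2 : ℝ) ^ ((u : ℝ) * (p - 2)) * band L a u ^ 2) (a := lvl a)
    (b := lvl a + 2 * (L : ℤ)) (B := M * a ^ 2) (by positivity)
    (fun u => by positivity)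
    (fun u h1 h2 => by
      have h3 : (2 : ℝ) ^ ((u : ℝ) * (p - 2)) ≤ M := by
        rw [hM, ← Real.rpow_add (by norm_num)]
        apply Real.rpow_le_rpow_of_exponent_le (by norm_num)
        have h1' : (lvl a : ℝ) < u := by exact_mod_cast h1
        have h2' : (u : ℝ) < lvl a + 2 * L := by exact_mod_cast h2
        rcases le_total 2 p with hp | hp
        · have e : pplus p = p - 2 := max_eq_right (by linarith)
          rw [e]
          have : 0 ≤ p - 2 := by linarith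
          nlinarith
        · have e : pplus p = 0 := max_eq_left (by linarith)
          rw [e]
          have : p - 2 ≤ 0 := by linarith
          nlinarith
      have h4 : band L a u ^ 2 ≤ a ^ 2 := by
        unfold band
        rw [mul_pow]
        have h5 : tent L (u - lvl a) ^ 2 ≤ 1 := by
          have := tent_le_one L (u - lvl a)
          have := tent_nonneg L (u - lvl a)
          nlinarith
        have h6 := sq_nonneg a
        nlinarith
      exact mul_le_mul h3 h4 (sq_nonneg _) hM0)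
    (fun u hu => by
      have : band L a u = 0 := by
        unfold band
        rw [tent_eq_zero hL, zero_mul]
        by_contra hcon
        push Not at hcon
        exact hu ⟨by linarith [hcon.1], by linarith [hcon.2]⟩
      rw [this]
      simp)
    (n := 2 * L) (by push_cast; linarith) (by positivity)
  refine hsum.trans ?_
  rcases level_energy_le (p := p) a with h | h
  · have hLpos : (0:ℝ) ≤ 2 * L * 2 ^ (2 * (L : ℝ) * pplus p) := by positivity
    calc 2 * (L : ℝ) * (M * a ^ 2)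
        = 2 * L * 2 ^ (2 * (L : ℝ) * pplus p) * ((2 : ℝ) ^ ((lvl a : ℝ) * (p - 2)) * a ^ 2) := by
          rw [hM]; ring
      _ ≤ 2 * L * 2 ^ (2 * (L : ℝ) * pplus p) * (2 ^ pplus p * |a| ^ p) :=
          mul_le_mul_of_nonneg_left h hLpos
      _ = _ := by ring
  · exact absurd h ha


/-! ### The set-up from the universal kernel -/

section setup

variable {X : Type*} [Fintype X] [DecidableEq X] {T : Type*} [Fintype T]

/-- The size of the universal kernel. -/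
noncomputable def cK (X : Type*) [Fintype X] : ℝ := 64 * Real.log (Fintype.card X)

lemma one_le_cK (hX : 2 ≤ Fintype.card X) : 1 ≤ cK X := by
  unfold cK
  have h1 : (2 : ℝ) ≤ Fintype.card X := by exact_mod_cast hX
  have h2 : Real.log 2 ≤ Real.log (Fintype.card X) := Real.log_le_log (by norm_num) h1
  have h3 := Real.log_two_gt_d9
  linarith

/-- The energy bound of the bands. -/
noncomputable def Wb (p : ℝ) (L : ℕ) : ℝ := (2 * L) * 2 ^ (2 * (L : ℝ) * pplus p) * 2 ^ pplus p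

lemma lvl_zero : lvl 0 = 0 := by simp [lvl]

theorem exists_setup {p : ℝ} (hp1 : 1 < p) (hX : 2 ≤ Fintype.card X) (d : X → X → ℝ)
    (hds : ∀ a b, d a b = d b a) (hd : ∀ a b, a ≠ b → 0 < d a b) (hd0 : ∀ a, d a a = 0)
    (x : T → X → ℝ) (hN : ∀ a b, a ≠ b → ∑ t, |sl d (x t) (a, b)| ^ p = 1)
    (L : ℕ) (hL : 0 < L) :
    ∃ (S : Finset ℤ) (δ : T → ℤ → X × X → ℝ) (ψ : T → ℤ → X → ℝ),
      (∀ l ∈ S, l ≤ 0) ∧
      (∀ t, ∀ l, ∀ e, |δ t l e| ≤ cK X * (2 : ℝ) ^ (l : ℝ)) ∧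
      (∀ t e, ∑ l ∈ S, δ t l e = sl d (x t) e) ∧
      (∀ e, ∑ t, ∑ l ∈ S, (2 : ℝ) ^ ((l : ℝ) * (p - 2)) * (δ t l e) ^ 2 ≤ 8 * 2 ^ pplus p) ∧
      (∀ e, ∑ t, ∑ l ∈ S, (2 : ℝ) ^ ((l : ℝ) * (p - 1)) * |δ t l e| ≤ cK X * 2 ^ (p - 1)) ∧
      (∀ t u e, sl d (ψ t u) e = ∑ l ∈ S, tent L (u - l) * δ t l e) ∧
      (∀ t u e, |sl d (ψ t u) e| ≤ cK X * (2 : ℝ) ^ (u : ℝ)) ∧
      (∀ (U : Finset ℤ) e, ∑ t, ∑ u ∈ U, (2 : ℝ) ^ ((u : ℝ) * (p - 2)) * (sl d (ψ t u) e) ^ 2
        ≤ cK X ^ 2 * Wb p L) := by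
  classical
  have hp0 : 0 < p := by linarith
  set g : T → X × X → ℝ := fun t e => sl d (x t) e with hg
  have hnorm : ∀ e, ∑ t, |g t e| ^ p ≤ 1 := by
    rintro ⟨a, b⟩
    by_cases hab : a = b
    · subst hab
      have : ∀ t, |g t (a, a)| ^ p = 0 := by
        intro t
        simp [hg, Real.zero_rpow hp0.ne']
      simp [this]
    · exact (hN a b hab).le
  have hone : ∀ t e, |g t e| ≤ 1 := by
    intro t e
    have h1 : |g t e| ^ p ≤ 1 :=
      (Finset.single_le_sum (f := fun t => |g t e| ^ p) (fun _ _ => by positivity)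
        (Finset.mem_univ t)).trans (hnorm e)
    by_contra hcon
    push Not at hcon
    have := Real.one_lt_rpow hcon hp0
    linarith
  set S : Finset ℤ := (Finset.univ : Finset (T × (X × X))).image (fun q => lvl (g q.1 q.2)) with hSdef
  have hS : ∀ t e, lvl (g t e) ∈ S := fun t e =>
    Finset.mem_image.mpr ⟨(t, e), Finset.mem_univ _, rfl⟩
  have hSle : ∀ l ∈ S, l ≤ 0 := by
    intro l hl
    obtain ⟨q, _, rfl⟩ := Finset.mem_image.mp hl
    by_cases h0 : g q.1 q.2 = 0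
    · rw [h0, lvl_zero]
    · have h1 := two_rpow_lvl_lt h0
      have h2 := hone q.1 q.2
      have h3 : (2 : ℝ) ^ ((lvl (g q.1 q.2) : ℤ) : ℝ) < (2 : ℝ) ^ (1 : ℝ) := by
        rw [Real.rpow_one]; linarith
      have h4 := (Real.rpow_lt_rpow_left_iff (by norm_num : (1 : ℝ) < 2)).mp h3
      have h5 : lvl (g q.1 q.2) < 1 := by exact_mod_cast h4
      omega
  set B : ℝ := 2 ^ pplus p with hB
  have hBpos : 0 < B := by positivity
  -- the kernel
  let J := T × {l // l ∈ S}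
  let ω : J → ℝ := fun j => (2 : ℝ) ^ ((j.2.1 : ℝ) * (p - 2)) / B
  have hω : ∀ j, 0 ≤ ω j := fun j => by simp only [ω]; positivity
  let w : J → X × X → ℝ := fun j e => atom (g j.1 e) j.2.1
  have hsumJ : ∀ F : T → ℤ → ℝ, ∑ j : J, F j.1 j.2.1 = ∑ t, ∑ l ∈ S, F t l := by
    intro F
    rw [Fintype.sum_prod_type]
    apply Finset.sum_congr rfl
    intro t _
    exact Finset.sum_coe_sort S (F t)
  have hw : ∀ e : X × X, ∑ j, ω j * w j e ^ 2 ≤ 1 := by
    intro e
    have h1 := hsumJ (fun t l => (2 : ℝ) ^ ((l : ℝ) * (p - 2)) / B * atom (g t e) l ^ 2)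
    simp only [ω, w]
    rw [h1]
    have h2 : ∀ t, ∑ l ∈ S, (2 : ℝ) ^ ((l : ℝ) * (p - 2)) / B * atom (g t e) l ^ 2
        ≤ |g t e| ^ p := by
      intro t
      rw [sum_atom (hS t e) (fun l y => (2 : ℝ) ^ ((l : ℝ) * (p - 2)) / B * y ^ 2)
        (fun l => by simp)]
      rcases level_energy_le (p := p) (g t e) with h | h
      · rw [div_mul_eq_mul_div, div_le_iff₀ hBpos]
        calc _ ≤ _ := h
          _ = _ := by rw [hB]; ring
      · rw [h]
        simp only [ne_eq, OfNat.ofNat_ne_zero, not_false_eq_true, zero_pow, mul_zero]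
        positivity
    exact (Finset.sum_le_sum fun t _ => h2 t).trans (hnorm e)
  obtain ⟨K, hrep, hpot, hmass, hen⟩ := universal_kernel hX d hds hd hd0 ω hω w hw
  have hmass' : ∀ e', ∑ e, |K e' e| ≤ cK X := hmass
  have hK0 : ∀ e', 0 ≤ ∑ e, |K e' e| := fun e' => Finset.sum_nonneg fun _ _ => abs_nonneg _
  have hc0 : 0 ≤ cK X := le_trans zero_le_one (one_le_cK hX)
  set δ : T → ℤ → X × X → ℝ := fun t l e' => ∑ e, K e' e * atom (g t e) l with hδ
  -- a generic bound for kernel applied to a bounded field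
  have hgen : ∀ (f : X × X → ℝ) (M : ℝ), (∀ e, |f e| ≤ M) → ∀ e', |∑ e, K e' e * f e| ≤ cK X * M := by
    intro f M hf e'
    have hM : 0 ≤ M := (abs_nonneg _).trans (hf (e', e').1 |>.trans le_rfl |> fun h => by
      first | exact h)
    calc |∑ e, K e' e * f e| ≤ ∑ e, |K e' e * f e| := Finset.abs_sum_le_sum_abs _ _
      _ = ∑ e, |K e' e| * |f e| := by simp only [abs_mul]
      _ ≤ ∑ e, |K e' e| * M :=
          Finset.sum_le_sum fun e _ => mul_le_mul_of_nonneg_left (hf e) (abs_nonneg _)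
      _ = (∑ e, |K e' e|) * M := by rw [Finset.sum_mul]
      _ ≤ cK X * M := mul_le_mul_of_nonneg_right (hmass' e') hM
  -- the potentials
  have hψex : ∀ t u, ∃ φ : X → ℝ, ∀ e', sl d φ e' = ∑ e, K e' e * band L (g t e) u :=
    fun t u => hpot (fun e => band L (g t e) u)
  choose ψ hψ using hψex
  refine ⟨S, δ, ψ, hSle, ?_, ?_, ?_, ?_, ?_, ?_, ?_⟩
  · -- F1
    intro t l e
    exact hgen (fun e => atom (g t e) l) _ (fun e => abs_atom_le _ _) e
  · -- F2
    intro t e'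
    simp only [hδ]
    rw [Finset.sum_comm]
    have : ∀ e, ∑ l ∈ S, K e' e * atom (g t e) l = K e' e * g t e := by
      intro e
      rw [← Finset.mul_sum, sum_atom (hS t e) (fun _ y => y) (fun _ => rfl)]
    simp only [this]
    exact hrep (x t) e'
  · -- F3
    intro e'
    have h1 := hen e'
    have h2 := hsumJ (fun t l => (2 : ℝ) ^ ((l : ℝ) * (p - 2)) / B * (δ t l e') ^ 2)
    have h3 : ∑ j, ω j * (∑ e, K e' e * w j e) ^ 2
        = ∑ t, ∑ l ∈ S, (2 : ℝ) ^ ((l : ℝ) * (p - 2)) / B * (δ t l e') ^ 2 := h2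
    rw [h3] at h1
    have h4 : ∑ t, ∑ l ∈ S, (2 : ℝ) ^ ((l : ℝ) * (p - 2)) / B * (δ t l e') ^ 2
        = (∑ t, ∑ l ∈ S, (2 : ℝ) ^ ((l : ℝ) * (p - 2)) * (δ t l e') ^ 2) / B := by
      rw [Finset.sum_div]
      apply Finset.sum_congr rfl
      intro t _
      rw [Finset.sum_div]
      apply Finset.sum_congr rfl
      intro l _
      ring
    rw [h4, div_le_iff₀ hBpos] at h1
    exact h1
  · -- F4
    intro e'
    have hp1' : 0 ≤ p - 1 := by linarith
    have hterm : ∀ t, ∀ l ∈ S, (2 : ℝ) ^ ((l : ℝ) * (p - 1)) * |δ t l e'|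
        ≤ ∑ e, |K e' e| * ((2 : ℝ) ^ ((l : ℝ) * (p - 1)) * |atom (g t e) l|) := by
      intro t l _
      have h0 : |δ t l e'| ≤ ∑ e, |K e' e| * |atom (g t e) l| := by
        simp only [hδ]
        refine (Finset.abs_sum_le_sum_abs _ _).trans (le_of_eq ?_)
        simp only [abs_mul]
      calc _ ≤ (2 : ℝ) ^ ((l : ℝ) * (p - 1)) * ∑ e, |K e' e| * |atom (g t e) l| :=
            mul_le_mul_of_nonneg_left h0 (by positivity)
        _ = _ := by
            rw [Finset.mul_sum]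
            apply Finset.sum_congr rfl
            intro e _
            ring
    calc _ ≤ ∑ t, ∑ l ∈ S, ∑ e, |K e' e| * ((2 : ℝ) ^ ((l : ℝ) * (p - 1)) * |atom (g t e) l|) :=
          Finset.sum_le_sum fun t _ => Finset.sum_le_sum fun l hl => hterm t l hl
      _ = ∑ e, |K e' e| * ∑ t, ∑ l ∈ S, (2 : ℝ) ^ ((l : ℝ) * (p - 1)) * |atom (g t e) l| := by
          calc ∑ t, ∑ l ∈ S, ∑ e, |K e' e| * ((2 : ℝ) ^ ((l : ℝ) * (p - 1)) * |atom (g t e) l|)
              = ∑ t, ∑ e, ∑ l ∈ S, |K e' e| * ((2 : ℝ) ^ ((l : ℝ) * (p - 1)) * |atom (g t e) l|) :=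
                Finset.sum_congr rfl fun t _ => Finset.sum_comm
            _ = ∑ e, ∑ t, ∑ l ∈ S, |K e' e| * ((2 : ℝ) ^ ((l : ℝ) * (p - 1)) * |atom (g t e) l|) :=
                Finset.sum_comm
            _ = _ := by simp only [Finset.mul_sum]
      _ ≤ ∑ e, |K e' e| * 2 ^ (p - 1) := by
          apply Finset.sum_le_sum
          intro e _
          apply mul_le_mul_of_nonneg_left _ (abs_nonneg _)
          have h5 : ∀ t, ∑ l ∈ S, (2 : ℝ) ^ ((l : ℝ) * (p - 1)) * |atom (g t e) l|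
              ≤ 2 ^ (p - 1) * |g t e| ^ p := by
            intro t
            rw [sum_atom (hS t e) (fun l y => (2 : ℝ) ^ ((l : ℝ) * (p - 1)) * |y|)
              (fun l => by simp)]
            by_cases h0 : g t e = 0
            · rw [h0]
              simp [Real.zero_rpow hp0.ne']
            · exact level_one_le hp1.le h0
          calc _ ≤ ∑ t, 2 ^ (p - 1) * |g t e| ^ p := Finset.sum_le_sum fun t _ => h5 t
            _ = 2 ^ (p - 1) * ∑ t, |g t e| ^ p := by rw [Finset.mul_sum]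
            _ ≤ 2 ^ (p - 1) * 1 := mul_le_mul_of_nonneg_left (hnorm e) (by positivity)
            _ = _ := mul_one _
      _ = (∑ e, |K e' e|) * 2 ^ (p - 1) := by rw [Finset.sum_mul]
      _ ≤ _ := mul_le_mul_of_nonneg_right (hmass' e') (by positivity)
  · -- the slope of ψ
    intro t u e'
    rw [hψ]
    simp only [hδ]
    have : ∀ e, K e' e * band L (g t e) u
        = ∑ l ∈ S, tent L (u - l) * (K e' e * atom (g t e) l) := by
      intro e
      rw [← band_eq_sum (hS t e) L u, Finset.mul_sum]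
      apply Finset.sum_congr rfl
      intro l _
      ring
    simp only [this]
    rw [Finset.sum_comm]
    apply Finset.sum_congr rfl
    intro l _
    rw [Finset.mul_sum]
  · -- the bound
    intro t u e'
    rw [hψ]
    exact hgen (fun e => band L (g t e) u) _ (fun e => abs_band_le hL _ _) e'
  · -- the variance
    intro U e'
    have hcs : ∀ t u, (sl d (ψ t u) e') ^ 2
        ≤ cK X * ∑ e, |K e' e| * band L (g t e) u ^ 2 := by
      intro t u
      rw [hψ]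
      have h1 : (∑ e, K e' e * band L (g t e) u) ^ 2 ≤ (∑ e, |K e' e * band L (g t e) u|) ^ 2 := by
        rw [← sq_abs]
        exact pow_le_pow_left₀ (abs_nonneg _) (Finset.abs_sum_le_sum_abs _ _) 2
      have h2 : (∑ e, |K e' e * band L (g t e) u|) ^ 2
          ≤ (∑ e, |K e' e|) * ∑ e, |K e' e| * band L (g t e) u ^ 2 := by
        apply Finset.sum_sq_le_sum_mul_sum_of_sq_eq_mul
        · intro e _; exact abs_nonneg _
        · intro e _; positivity
        · intro e _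
          rw [abs_mul, mul_pow, sq_abs (band L (g t e) u)]
          ring
      have h3 : 0 ≤ ∑ e, |K e' e| * band L (g t e) u ^ 2 :=
        Finset.sum_nonneg fun e _ => by positivity
      calc _ ≤ _ := h1
        _ ≤ _ := h2
        _ ≤ _ := mul_le_mul_of_nonneg_right (hmass' e') h3
    have hWb : 0 ≤ Wb p L := by unfold Wb; positivity
    have hall : ∀ e, ∑ t, ∑ u ∈ U, (2 : ℝ) ^ ((u : ℝ) * (p - 2)) * band L (g t e) u ^ 2 ≤ Wb p L := by
      intro e
      have h5 : ∀ t, ∑ u ∈ U, (2 : ℝ) ^ ((u : ℝ) * (p - 2)) * band L (g t e) u ^ 2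
          ≤ Wb p L * |g t e| ^ p := by
        intro t
        rcases band_energy_le (p := p) hL U (g t e) with h | h
        · calc _ ≤ _ := h
            _ = _ := by unfold Wb; ring
        · rw [h]
          have : ∀ u, band L 0 u = 0 := fun u => by simp [band]
          simp [this, Real.zero_rpow hp0.ne']
      calc _ ≤ ∑ t, Wb p L * |g t e| ^ p := Finset.sum_le_sum fun t _ => h5 t
        _ = Wb p L * ∑ t, |g t e| ^ p := by rw [Finset.mul_sum]
        _ ≤ Wb p L * 1 := mul_le_mul_of_nonneg_left (hnorm e) hWb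
        _ = _ := mul_one _
    calc _ ≤ ∑ t, ∑ u ∈ U, (2 : ℝ) ^ ((u : ℝ) * (p - 2))
            * (cK X * ∑ e, |K e' e| * band L (g t e) u ^ 2) :=
          Finset.sum_le_sum fun t _ => Finset.sum_le_sum fun u _ =>
            mul_le_mul_of_nonneg_left (hcs t u) (by positivity)
      _ = cK X * ∑ e, |K e' e| * ∑ t, ∑ u ∈ U, (2 : ℝ) ^ ((u : ℝ) * (p - 2)) * band L (g t e) u ^ 2 := by
          calc ∑ t, ∑ u ∈ U, (2 : ℝ) ^ ((u : ℝ) * (p - 2))
                * (cK X * ∑ e, |K e' e| * band L (g t e) u ^ 2)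
              = ∑ t, ∑ u ∈ U, ∑ e, cK X * (|K e' e| * ((2 : ℝ) ^ ((u : ℝ) * (p - 2))
                  * band L (g t e) u ^ 2)) := by
                refine Finset.sum_congr rfl fun t _ => Finset.sum_congr rfl fun u _ => ?_
                rw [Finset.mul_sum, Finset.mul_sum]
                refine Finset.sum_congr rfl fun e _ => ?_
                ring
            _ = ∑ t, ∑ e, ∑ u ∈ U, cK X * (|K e' e| * ((2 : ℝ) ^ ((u : ℝ) * (p - 2))
                  * band L (g t e) u ^ 2)) :=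
                Finset.sum_congr rfl fun t _ => Finset.sum_comm
            _ = ∑ e, ∑ t, ∑ u ∈ U, cK X * (|K e' e| * ((2 : ℝ) ^ ((u : ℝ) * (p - 2))
                  * band L (g t e) u ^ 2)) := Finset.sum_comm
            _ = _ := by simp only [Finset.mul_sum]
      _ ≤ cK X * ∑ e, |K e' e| * Wb p L := by
          apply mul_le_mul_of_nonneg_left _ hc0
          exact Finset.sum_le_sum fun e _ => mul_le_mul_of_nonneg_left (hall e) (abs_nonneg _)
      _ = cK X * ((∑ e, |K e' e|) * Wb p L) := by rw [Finset.sum_mul]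
      _ ≤ cK X * (cK X * Wb p L) := by
          apply mul_le_mul_of_nonneg_left _ hc0
          exact mul_le_mul_of_nonneg_right (hmass' e') hWb
      _ = _ := by ring

end setup

/-! ### Pair lemmas -/

section pair

variable {T : Type*} [Fintype T]

lemma sum_prod_coe (U : Finset ℤ) (F : T → ℤ → ℝ) :
    ∑ i : T × {u // u ∈ U}, F i.1 i.2.1 = ∑ t, ∑ u ∈ U, F t u := by
  rw [Fintype.sum_prod_type]
  apply Finset.sum_congr rfl
  intro t _
  exact Finset.sum_coe_sort U (F t)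

/-- Upper bound of the kernel at a pair. -/
lemma pair_upper {p τ C₂ : ℝ} (hp : 0 < p)
    (hC₂ : ∀ a b : ℝ, 0 ≤ a → 0 ≤ b → (a + b) ^ p ≤ (1 + τ) * a ^ p + C₂ * b ^ p)
    (hτ : 0 ≤ τ) {L : ℕ} (hL : 0 < L) (U : Finset ℤ) (z : T → ℤ → ℝ) (g : T → ℝ) (l₀ : T → ℤ) {E : ℝ}
    (hC₂0 : 0 ≤ C₂)
    (hE : ∑ t, ∑ u ∈ U, |z t u - tent L (u - l₀ t) * g t| ^ p ≤ E) (hg : ∑ t, |g t| ^ p ≤ 1) :
    ∑ t, ∑ u ∈ U, |z t u| ^ p ≤ (1 + τ) * winMass p L + C₂ * E := by
  have hA : 0 ≤ winMass p L :=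
    Finset.sum_nonneg fun _ _ => Real.rpow_nonneg (tent_nonneg _ _) _
  have hterm : ∀ t, ∀ u ∈ U, |z t u| ^ p
      ≤ (1 + τ) * (tent L (u - l₀ t) ^ p * |g t| ^ p)
        + C₂ * |z t u - tent L (u - l₀ t) * g t| ^ p := by
    intro t u _
    have h1 : |z t u| ≤ |tent L (u - l₀ t) * g t| + |z t u - tent L (u - l₀ t) * g t| := by
      have := abs_add_le (tent L (u - l₀ t) * g t) (z t u - tent L (u - l₀ t) * g t)
      simpa using this
    have h2 := hC₂ _ _ (abs_nonneg (tent L (u - l₀ t) * g t))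
      (abs_nonneg (z t u - tent L (u - l₀ t) * g t))
    have h3 : |tent L (u - l₀ t) * g t| ^ p = tent L (u - l₀ t) ^ p * |g t| ^ p := by
      rw [abs_mul, abs_of_nonneg (tent_nonneg _ _), Real.mul_rpow (tent_nonneg _ _) (abs_nonneg _)]
    rw [h3] at h2
    exact (Real.rpow_le_rpow (abs_nonneg _) h1 hp.le).trans h2
  have hT : ∀ t, ∑ u ∈ U, tent L (u - l₀ t) ^ p * |g t| ^ p ≤ winMass p L * |g t| ^ p := by
    intro t
    rw [← Finset.sum_mul]
    exact mul_le_mul_of_nonneg_right (tent_sum_le_mass hp hL U _) (by positivity)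
  calc ∑ t, ∑ u ∈ U, |z t u| ^ p
      ≤ ∑ t, ∑ u ∈ U, ((1 + τ) * (tent L (u - l₀ t) ^ p * |g t| ^ p)
        + C₂ * |z t u - tent L (u - l₀ t) * g t| ^ p) :=
        Finset.sum_le_sum fun t _ => Finset.sum_le_sum fun u hu => hterm t u hu
    _ = (1 + τ) * ∑ t, ∑ u ∈ U, tent L (u - l₀ t) ^ p * |g t| ^ p
        + C₂ * ∑ t, ∑ u ∈ U, |z t u - tent L (u - l₀ t) * g t| ^ p := by
        simp only [Finset.sum_add_distrib, Finset.mul_sum]
    _ ≤ (1 + τ) * (winMass p L * 1) + C₂ * E := by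
        apply add_le_add _ (mul_le_mul_of_nonneg_left hE hC₂0)
        apply mul_le_mul_of_nonneg_left _ (by linarith)
        calc _ ≤ ∑ t, winMass p L * |g t| ^ p := Finset.sum_le_sum fun t _ => hT t
          _ = winMass p L * ∑ t, |g t| ^ p := by rw [Finset.mul_sum]
          _ ≤ _ := mul_le_mul_of_nonneg_left hg hA
    _ = _ := by rw [mul_one]

/-- Lower bound of the kernel at a pair, on a set `G` of coordinates, counting only the bands in
the window of each coordinate. -/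
lemma pair_lower {p τ C₂ : ℝ} (hp : 0 < p)
    (hC₂ : ∀ a b : ℝ, 0 ≤ a → 0 ≤ b → (a + b) ^ p ≤ (1 + τ) * a ^ p + C₂ * b ^ p)
    (hC₂0 : 0 ≤ C₂) {L : ℕ} (U₀ : Finset ℤ) (z : T → ℤ → ℝ) (g : T → ℝ) (l₀ : T → ℤ) {E : ℝ}
    (hτ : 0 ≤ τ) [DecidableEq T]
    (hz : ∀ t u, u ∉ U₀ → z t u = 0)
    (hE : ∀ U : Finset ℤ, ∑ t, ∑ u ∈ U, |z t u - tent L (u - l₀ t) * g t| ^ p ≤ E)
    (G : Finset T) :
    winMass p L * ∑ t ∈ G, |g t| ^ p
      ≤ (1 + τ) * ∑ t ∈ G, ∑ u ∈ U₀.filter (fun u => u ∈ Finset.Ioo (l₀ t) (l₀ t + 2 * (L : ℤ))),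
          |z t u| ^ p + C₂ * E := by
  classical
  set W : T → Finset ℤ := fun t => Finset.Ioo (l₀ t) (l₀ t + 2 * (L : ℤ)) with hW
  have hp0 : p ≠ 0 := hp.ne'
  have hterm : ∀ t, ∀ u, tent L (u - l₀ t) ^ p * |g t| ^ p
      ≤ (1 + τ) * |z t u| ^ p + C₂ * |z t u - tent L (u - l₀ t) * g t| ^ p := by
    intro t u
    have h1 : |tent L (u - l₀ t) * g t| ≤ |z t u| + |z t u - tent L (u - l₀ t) * g t| := by
      have := abs_sub_le (tent L (u - l₀ t) * g t) (z t u) 0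
      have h4 := abs_sub_comm (tent L (u - l₀ t) * g t) (z t u)
      simp only [sub_zero] at this
      rw [h4] at this
      linarith
    have h2 := hC₂ _ _ (abs_nonneg (z t u)) (abs_nonneg (z t u - tent L (u - l₀ t) * g t))
    have h3 : |tent L (u - l₀ t) * g t| ^ p = tent L (u - l₀ t) ^ p * |g t| ^ p := by
      rw [abs_mul, abs_of_nonneg (tent_nonneg _ _), Real.mul_rpow (tent_nonneg _ _) (abs_nonneg _)]
    rw [← h3]
    exact (Real.rpow_le_rpow (abs_nonneg _) h1 hp.le).trans h2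
  have hmass : ∀ t, winMass p L * |g t| ^ p = ∑ u ∈ W t, tent L (u - l₀ t) ^ p * |g t| ^ p := by
    intro t
    rw [← Finset.sum_mul, hW]
    simp only
    rw [tent_shift_sum]
  -- the big range
  set U' : Finset ℤ := (Finset.univ : Finset T).biUnion W with hU'
  have hWsub : ∀ t, W t ⊆ U' := fun t => Finset.subset_biUnion_of_mem W (Finset.mem_univ t)
  have hErr : ∑ t ∈ G, ∑ u ∈ W t, |z t u - tent L (u - l₀ t) * g t| ^ p ≤ E := by
    calc _ ≤ ∑ t ∈ G, ∑ u ∈ U', |z t u - tent L (u - l₀ t) * g t| ^ p :=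
          Finset.sum_le_sum fun t _ => Finset.sum_le_sum_of_subset_of_nonneg (hWsub t)
            (fun _ _ _ => by positivity)
      _ ≤ ∑ t, ∑ u ∈ U', |z t u - tent L (u - l₀ t) * g t| ^ p :=
          Finset.sum_le_sum_of_subset_of_nonneg (Finset.subset_univ _)
            (fun _ _ _ => Finset.sum_nonneg fun _ _ => by positivity)
      _ ≤ E := hE U'
  have hZ : ∀ t, ∑ u ∈ W t, |z t u| ^ p = ∑ u ∈ U₀.filter (fun u => u ∈ W t), |z t u| ^ p := by
    intro t
    symm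
    have e1 : U₀.filter (fun u => u ∈ W t) = W t ∩ U₀ := by
      ext u
      simp only [Finset.mem_filter, Finset.mem_inter]
      tauto
    rw [e1]
    apply Finset.sum_subset Finset.inter_subset_left
    intro u hu hu'
    have : u ∉ U₀ := by
      intro h
      exact hu' (Finset.mem_inter.mpr ⟨hu, h⟩)
    rw [hz t u this, abs_zero, Real.zero_rpow hp0]
  calc winMass p L * ∑ t ∈ G, |g t| ^ p
      = ∑ t ∈ G, ∑ u ∈ W t, tent L (u - l₀ t) ^ p * |g t| ^ p := by
        rw [Finset.mul_sum]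
        exact Finset.sum_congr rfl fun t _ => hmass t
    _ ≤ ∑ t ∈ G, ∑ u ∈ W t, ((1 + τ) * |z t u| ^ p
        + C₂ * |z t u - tent L (u - l₀ t) * g t| ^ p) :=
        Finset.sum_le_sum fun t _ => Finset.sum_le_sum fun u _ => hterm t u
    _ = (1 + τ) * ∑ t ∈ G, ∑ u ∈ W t, |z t u| ^ p
        + C₂ * ∑ t ∈ G, ∑ u ∈ W t, |z t u - tent L (u - l₀ t) * g t| ^ p := by
        simp only [Finset.sum_add_distrib, Finset.mul_sum]
    _ ≤ (1 + τ) * ∑ t ∈ G, ∑ u ∈ W t, |z t u| ^ p + C₂ * E :=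
        add_le_add le_rfl (mul_le_mul_of_nonneg_left hErr hC₂0)
    _ = _ := by
        congr 2
        exact Finset.sum_congr rfl fun t _ => hZ t

end pair

/-! ### Budgets -/

/-- `r = 2`. -/
lemma budget_two (p : ℝ) (S : Finset ℤ) (x : ℤ → ℝ) :
    budget p 2 S x = ∑ l ∈ S, (2 : ℝ) ^ ((l : ℝ) * (p - 2)) * x l ^ 2 := by
  unfold budget
  apply Finset.sum_congr rfl
  intro l _
  rw [Real.rpow_two, sq_abs]
  ring

/-- `1 < r < 2`: the budget is controlled by Young's inequality. -/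
lemma budget_young {p r c : ℝ} (hr1 : 1 < r) (hr2 : r < 2) (hc : 0 < c) (S : Finset ℤ) (x : ℤ → ℝ) :
    budget p r S x ≤ c ^ (2 - r) * ((2 - r) * (∑ l ∈ S, (2 : ℝ) ^ ((l : ℝ) * (p - 1)) * |x l|) / c
      + (r - 1) * ∑ l ∈ S, (2 : ℝ) ^ ((l : ℝ) * (p - 2)) * x l ^ 2) := by
  unfold budget
  have h2r : 0 < 2 - r := by linarith
  have hr1' : 0 < r - 1 := by linarith
  have hterm : ∀ l, |x l| ^ r * (2 : ℝ) ^ ((l : ℝ) * (p - r))
      ≤ c ^ (2 - r) * ((2 - r) * ((2 : ℝ) ^ ((l : ℝ) * (p - 1)) * |x l|) / c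
        + (r - 1) * ((2 : ℝ) ^ ((l : ℝ) * (p - 2)) * x l ^ 2)) := by
    intro l
    by_cases h0 : x l = 0
    · rw [h0, abs_zero, Real.zero_rpow (by linarith : r ≠ 0)]
      simp
    have hx : 0 < |x l| := abs_pos.mpr h0
    set a : ℝ := (2 : ℝ) ^ ((l : ℝ) * (p - 1)) * |x l| / c with ha
    set b : ℝ := (2 : ℝ) ^ ((l : ℝ) * (p - 2)) * x l ^ 2 with hb
    have ha0 : 0 < a := by positivity
    have hb0 : 0 < b := by
      rw [hb]
      have : 0 < x l ^ 2 := by positivity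
      positivity
    have hAG := Real.geom_mean_le_arith_mean2_weighted h2r.le hr1'.le ha0.le hb0.le (by ring)
    have e : a ^ (2 - r) * b ^ (r - 1)
        = c ^ (-(2 - r)) * (|x l| ^ r * (2 : ℝ) ^ ((l : ℝ) * (p - r))) := by
      rw [ha, hb, ← sq_abs (x l), Real.div_rpow (by positivity) hc.le,
        Real.mul_rpow (by positivity) hx.le, Real.mul_rpow (by positivity) (by positivity),
        ← Real.rpow_mul (by norm_num), ← Real.rpow_mul (by norm_num),
        ← Real.rpow_natCast (|x l|) 2, ← Real.rpow_mul hx.le, Real.rpow_neg hc.le]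
      have e1 : (2 : ℝ) ^ ((l : ℝ) * (p - r))
          = (2 : ℝ) ^ ((l : ℝ) * (p - 1) * (2 - r)) * (2 : ℝ) ^ ((l : ℝ) * (p - 2) * (r - 1)) := by
        rw [← Real.rpow_add (by norm_num)]
        congr 1
        ring
      have e2 : |x l| ^ r = |x l| ^ (2 - r) * |x l| ^ (((2 : ℕ) : ℝ) * (r - 1)) := by
        rw [← Real.rpow_add hx]
        congr 1
        push_cast
        ring
      rw [e1, e2]
      field_simp
    rw [e] at hAG
    have hcpos : 0 < c ^ (2 - r) := by positivity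
    have hcc : c ^ (2 - r) * c ^ (-(2 - r)) = 1 := by
      rw [← Real.rpow_add hc]
      simp
    calc |x l| ^ r * (2 : ℝ) ^ ((l : ℝ) * (p - r))
        = c ^ (2 - r) * (c ^ (-(2 - r)) * (|x l| ^ r * (2 : ℝ) ^ ((l : ℝ) * (p - r)))) := by
          rw [← mul_assoc, hcc, one_mul]
      _ ≤ c ^ (2 - r) * ((2 - r) * a + (r - 1) * b) := mul_le_mul_of_nonneg_left hAG hcpos.le
      _ = _ := by
          rw [ha]
          ring
  calc _ ≤ ∑ l ∈ S, c ^ (2 - r) * ((2 - r) * ((2 : ℝ) ^ ((l : ℝ) * (p - 1)) * |x l|) / c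
        + (r - 1) * ((2 : ℝ) ^ ((l : ℝ) * (p - 2)) * x l ^ 2)) :=
        Finset.sum_le_sum fun l _ => hterm l
    _ = _ := by
        rw [← Finset.mul_sum, Finset.sum_add_distrib, ← Finset.mul_sum, ← Finset.sum_div,
          ← Finset.mul_sum]


/-! ### Final statements -/

/-- The numerical smallness of the error. -/
lemma err_small {p τ C₂ D X₀ : ℝ} (hp : 0 < p) (hτ : 0 < τ) (hC₂ : 0 < C₂) (hD : 0 < D)
    (hX₀ : 0 ≤ X₀) {L : ℕ} (hL : 0 < L)
    (h : (2 ^ (p + 1) * C₂ * D / τ) ^ (1 / p) * X₀ ≤ L) :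
    C₂ * (D * (L : ℝ) ^ (1 - p) * X₀ ^ p) ≤ τ / 2 * winMass p L := by
  have hL' : (0 : ℝ) < L := by exact_mod_cast hL
  set c₀ : ℝ := (2 ^ (p + 1) * C₂ * D / τ) ^ (1 / p) with hc₀
  have hinner : 0 < 2 ^ (p + 1) * C₂ * D / τ := by positivity
  have hc₀pos : 0 < c₀ := by positivity
  have hc₀p : c₀ ^ p = 2 ^ (p + 1) * C₂ * D / τ := by
    rw [hc₀, ← Real.rpow_mul hinner.le, one_div, inv_mul_cancel₀ hp.ne', Real.rpow_one]
  have h1 : (c₀ * X₀) ^ p ≤ (L : ℝ) ^ p := Real.rpow_le_rpow (by positivity) h hp.le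
  rw [Real.mul_rpow hc₀pos.le hX₀, hc₀p] at h1
  have hXp : 0 ≤ X₀ ^ p := by positivity
  have hLL : (L : ℝ) ^ (1 - p) * (L : ℝ) ^ p = L := by
    rw [← Real.rpow_add hL']
    simp
  have hLp : 0 < (L : ℝ) ^ (1 - p) := by positivity
  have h2 : (L : ℝ) ^ (1 - p) * (2 ^ (p + 1) * C₂ * D / τ * X₀ ^ p) ≤ L := by
    calc _ ≤ (L : ℝ) ^ (1 - p) * (L : ℝ) ^ p := mul_le_mul_of_nonneg_left h1 hLp.le
      _ = L := hLL
  have h3 := winMass_ge hp hL
  have e : (1 / 2 : ℝ) ^ p = (2 ^ p)⁻¹ := by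
    rw [one_div, Real.inv_rpow (by norm_num)]
  rw [e] at h3
  have h2p : (0 : ℝ) < 2 ^ p := by positivity
  have e2 : (2 : ℝ) ^ (p + 1) = 2 ^ p * 2 := by
    rw [Real.rpow_add_one (by norm_num)]
  have h4 : (L : ℝ) ≤ 2 ^ p * winMass p L := by
    have := mul_le_mul_of_nonneg_left h3 h2p.le
    have e3 : (2 : ℝ) ^ p * ((L : ℝ) * (2 ^ p)⁻¹) = L := by
      field_simp
    rwa [e3] at this
  have e4 : (L : ℝ) ^ (1 - p) * (2 ^ (p + 1) * C₂ * D / τ * X₀ ^ p)
      = (2 ^ p * 2 / τ) * (C₂ * (D * (L : ℝ) ^ (1 - p) * X₀ ^ p)) := by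
    rw [e2]
    field_simp
  rw [e4] at h2
  have h5 : (2 ^ p * 2 / τ) * (C₂ * (D * (L : ℝ) ^ (1 - p) * X₀ ^ p)) ≤ 2 ^ p * winMass p L :=
    h2.trans h4
  have hpos : 0 < 2 ^ p * 2 / τ := by positivity
  have e5 : τ / 2 * winMass p L = (2 ^ p * 2 / τ)⁻¹ * (2 ^ p * winMass p L) := by
    field_simp
  rw [e5, ← div_eq_inv_mul, le_div_iff₀ hpos, mul_comm]
  exact h5

section final

universe u v

/-- The case `p > 2`. -/
theorem bands_gt2 {p τ : ℝ} (hp : 2 < p) (hτ : 0 < τ) :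
    ∃ c₀ : ℝ, 0 < c₀ ∧ ∀ (X : Type u) [Fintype X] [DecidableEq X] (T : Type v) [Fintype T],
      2 ≤ Fintype.card X → ∀ (d : X → X → ℝ), (∀ a b, d a b = d b a) →
      (∀ a b, a ≠ b → 0 < d a b) → (∀ a, d a a = 0) → ∀ (x : T → X → ℝ),
      (∀ a b, a ≠ b → ∑ t, |sl d (x t) (a, b)| ^ p = 1) →
      ∀ (L : ℕ), 0 < L → c₀ * cK X ^ (1 - 2 / p) ≤ L →
      ∃ (U : Finset ℤ) (ψ : T × {u // u ∈ U} → X → ℝ),
        (∀ i : T × {u // u ∈ U}, i.2.1 ≤ 2 * (L : ℤ)) ∧
        (∀ (i : T × {u // u ∈ U}) e, |sl d (ψ i) e| ≤ cK X * (2 : ℝ) ^ ((i.2.1 : ℤ) : ℝ)) ∧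
        (∀ e, ∑ i, (2 : ℝ) ^ (((i.2.1 : ℤ) : ℝ) * (p - 2)) * (sl d (ψ i) e) ^ 2
          ≤ cK X ^ 2 * Wb p L) ∧
        (∀ a b, a ≠ b → ∑ i, |sl d (ψ i) (a, b)| ^ p ≤ (1 + τ) * winMass p L) ∧
        (∀ a b, a ≠ b → (1 - τ) * winMass p L ≤ ∑ i, |sl d (ψ i) (a, b)| ^ p) := by
  have hp1 : 1 < p := by linarith
  have hp0 : 0 < p := by linarith
  obtain ⟨C₁, hC₁, herr⟩ := err_core (p := p) (r := 2) hp1 (by norm_num) hp
  obtain ⟨C₂, hC₂, hadd⟩ := exists_add_rpow_le (p := p) (τ := τ / 2) hp1 (by positivity)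
  set Y : ℝ := 8 * 2 ^ pplus p with hY
  have hYpos : 0 < Y := by positivity
  set D : ℝ := C₁ * Y with hD
  have hDpos : 0 < D := by positivity
  refine ⟨(2 ^ (p + 1) * C₂ * D / τ) ^ (1 / p), by positivity, ?_⟩
  intro X _ _ T _ hX d hds hd hd0 x hN L hL hLc
  classical
  obtain ⟨S, δ, ψ, hSle, hF1, hF2, hF3, hF4, hZ, hBd, hVar⟩ :=
    exists_setup hp1 hX d hds hd hd0 x hN L hL
  have hc1 := one_le_cK (X := X) hX
  have hc0 : 0 < cK X := by linarith
  set U₀ : Finset ℤ := S.biUnion (fun l => Finset.Ioo l (l + 2 * (L : ℤ))) with hU₀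
  have hzero : ∀ t u e, u ∉ U₀ → sl d (ψ t u) e = 0 := by
    intro t u e hu
    rw [hZ]
    apply Finset.sum_eq_zero
    intro l hl
    have : tent L (u - l) = 0 := by
      apply tent_eq_zero hL
      by_contra hcon
      push Not at hcon
      apply hu
      rw [hU₀, Finset.mem_biUnion]
      exact ⟨l, hl, Finset.mem_Ioo.mpr ⟨by linarith [hcon.1], by linarith [hcon.2]⟩⟩
    rw [this, zero_mul]
  refine ⟨U₀, fun i => ψ i.1 i.2.1, ?_, ?_, ?_, ?_, ?_⟩
  · -- B0
    rintro ⟨t, u, hu⟩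
    obtain ⟨l, hl, hul⟩ := Finset.mem_biUnion.mp hu
    have := hSle l hl
    have h2 := (Finset.mem_Ioo.mp hul).2
    simp only
    omega
  · intro i e
    exact hBd _ _ _
  · intro e
    have := sum_prod_coe (T := T) U₀
      (fun t u => (2 : ℝ) ^ ((u : ℝ) * (p - 2)) * (sl d (ψ t u) e) ^ 2)
    rw [this]
    exact hVar U₀ e
  all_goals
    intro a b hab
    set e : X × X := (a, b) with he
    set g : T → ℝ := fun t => sl d (x t) e with hg
    obtain ⟨l₀, -, hErr⟩ := herr T S (fun t l => δ t l e) g (cK X) hc0 L hL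
      (fun t l _ => hF1 t l e) (fun t => hF2 t e)
    have hbud : ∑ t, budget p 2 S (fun l => δ t l e) ≤ Y := by
      have := hF3 e
      simp only [budget_two]
      exact this
    have hsumg : ∑ t, |g t| ^ p = 1 := hN a b hab
    set z : T → ℤ → ℝ := fun t u => sl d (ψ t u) e with hz
    have hzz : ∀ t u, z t u = ∑ l ∈ S, tent L (u - l) * δ t l e := fun t u => hZ t u e
    set E : ℝ := D * (L : ℝ) ^ (1 - p) * (cK X ^ (1 - 2 / p)) ^ p with hE
    have hcpow : (cK X ^ (1 - 2 / p)) ^ p = cK X ^ (p - 2) := by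
      rw [← Real.rpow_mul hc0.le]
      congr 1
      field_simp
    have hEall : ∀ U : Finset ℤ, ∑ t, ∑ u ∈ U, |z t u - tent L (u - l₀ t) * g t| ^ p ≤ E := by
      intro U
      simp only [hzz]
      refine (hErr U).trans ?_
      rw [hE, hcpow, hD]
      have h0 : 0 ≤ C₁ * (L : ℝ) ^ (1 - p) * cK X ^ (p - 2) := by positivity
      calc _ ≤ C₁ * (L : ℝ) ^ (1 - p) * cK X ^ (p - 2) * Y := mul_le_mul_of_nonneg_left hbud h0
        _ = _ := by ring
    have hsmall : C₂ * E ≤ τ / 2 * winMass p L :=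
      err_small hp0 hτ hC₂ hDpos (by positivity) hL hLc
    have hA0 : 0 ≤ winMass p L :=
      Finset.sum_nonneg fun _ _ => Real.rpow_nonneg (tent_nonneg _ _) _
    have hsumi : ∑ i : T × {u // u ∈ U₀}, |sl d (ψ i.1 i.2.1) e| ^ p = ∑ t, ∑ u ∈ U₀, |z t u| ^ p :=
      sum_prod_coe (T := T) U₀ (fun t u => |z t u| ^ p)
    first
    | (rw [hsumi]
       have hup := pair_upper hp0 hadd (by positivity) hL U₀ z g l₀ hC₂.le (hEall U₀) hsumg.le
       linarith)
    | (rw [hsumi]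
       have hlow := pair_lower (G := Finset.univ) hp0 hadd hC₂.le U₀ z g l₀
         (by positivity : 0 ≤ τ / 2) (fun t u hu => hzero t u e hu) hEall
       rw [hsumg, mul_one] at hlow
       have hfil : ∑ t, ∑ u ∈ U₀.filter (fun u => u ∈ Finset.Ioo (l₀ t) (l₀ t + 2 * (L : ℤ))),
           |z t u| ^ p ≤ ∑ t, ∑ u ∈ U₀, |z t u| ^ p :=
         Finset.sum_le_sum fun t _ => Finset.sum_le_sum_of_subset_of_nonneg
           (Finset.filter_subset _ _) (fun _ _ _ => by positivity)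
       set Sz := ∑ t, ∑ u ∈ U₀, |z t u| ^ p with hSz
       have h1 : winMass p L ≤ (1 + τ / 2) * Sz + C₂ * E :=
         hlow.trans (add_le_add (mul_le_mul_of_nonneg_left hfil (by positivity)) le_rfl)
       have h2 : (1 + τ / 2) * ((1 - τ) * winMass p L) ≤ (1 + τ / 2) * Sz := by
         nlinarith [mul_nonneg (sq_nonneg τ) hA0]
       exact le_of_mul_le_mul_left h2 (by positivity))

/-- Geometric sum over a finite set of integers below `N`. -/
lemma exists_sum_two_rpow_le {p : ℝ} (hp : 0 < p) :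
    ∃ Cg : ℝ, 0 < Cg ∧ ∀ (W : Finset ℤ) (N : ℤ),
      ∑ u ∈ W, (2 : ℝ) ^ ((u : ℝ) * p) ≤ Cg * (2 : ℝ) ^ ((N : ℝ) * p) ∨ ∃ u ∈ W, N < u := by
  set ρ : ℝ := (2 : ℝ) ^ (-p) with hρ
  have hρ0 : 0 < ρ := by positivity
  have hρ1 : ρ < 1 := Real.rpow_lt_one_of_one_lt_of_neg (by norm_num) (by linarith)
  have hfs : Summable (fun n : ℕ => ρ ^ n) := summable_geometric_of_lt_one hρ0.le hρ1
  have hts : 0 ≤ ∑' n : ℕ, ρ ^ n := tsum_nonneg fun n => by positivity
  refine ⟨2 * ∑' n : ℕ, ρ ^ n + 1, by linarith, ?_⟩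
  intro W N
  by_cases hW : ∃ u ∈ W, N < u
  · exact Or.inr hW
  left
  push Not at hW
  have hterm : ∀ u ∈ W, (2 : ℝ) ^ ((u : ℝ) * p)
      = (2 : ℝ) ^ ((N : ℝ) * p) * ρ ^ (u - N).natAbs := by
    intro u hu
    have h1 := hW u hu
    have h2 : ((u - N).natAbs : ℝ) = (N : ℝ) - u := by
      rw [Nat.cast_natAbs, abs_of_nonpos (by omega : u - N ≤ 0)]
      push_cast
      ring
    rw [hρ, ← Real.rpow_natCast, ← Real.rpow_mul (by norm_num), ← Real.rpow_add (by norm_num), h2]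
    congr 1
    ring
  have hsum := sum_natAbs_le (f := fun n => ρ ^ n) (fun n => by positivity) hfs W N
  have hN : 0 < (2 : ℝ) ^ ((N : ℝ) * p) := by positivity
  calc ∑ u ∈ W, (2 : ℝ) ^ ((u : ℝ) * p)
      = (2 : ℝ) ^ ((N : ℝ) * p) * ∑ u ∈ W, ρ ^ (u - N).natAbs := by
        rw [Finset.mul_sum]
        exact Finset.sum_congr rfl hterm
    _ ≤ (2 : ℝ) ^ ((N : ℝ) * p) * (2 * ∑' n : ℕ, ρ ^ n) :=
        mul_le_mul_of_nonneg_left hsum hN.le
    _ ≤ _ := by nlinarith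

/-- The case `1 < p < 2`. -/
theorem bands_lt2 {p τ : ℝ} (hp1 : 1 < p) (hp2 : p < 2) (hτ : 0 < τ) :
    ∃ c₀ CM : ℝ, 0 < c₀ ∧ 0 < CM ∧ ∀ (X : Type u) [Fintype X] [DecidableEq X] (T : Type v)
      [Fintype T],
      2 ≤ Fintype.card X → ∀ (d : X → X → ℝ), (∀ a b, d a b = d b a) →
      (∀ a b, a ≠ b → 0 < d a b) → (∀ a, d a a = 0) → ∀ (x : T → X → ℝ),
      (∀ a b, a ≠ b → ∑ t, |sl d (x t) (a, b)| ^ p = 1) →
      ∀ (L : ℕ), 0 < L → c₀ * cK X ^ (2 - p) ≤ L →
      ∃ (U : Finset ℤ) (ψ : T × {u // u ∈ U} → X → ℝ),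
        (∀ i : T × {u // u ∈ U}, i.2.1 ≤ 2 * (L : ℤ)) ∧
        (∀ (i : T × {u // u ∈ U}) e, |sl d (ψ i) e| ≤ cK X * (2 : ℝ) ^ ((i.2.1 : ℤ) : ℝ)) ∧
        (∀ e, ∑ i, (2 : ℝ) ^ (((i.2.1 : ℤ) : ℝ) * (p - 2)) * (sl d (ψ i) e) ^ 2
          ≤ cK X ^ 2 * Wb p L) ∧
        (∀ a b, a ≠ b → ∑ i, |sl d (ψ i) (a, b)| ^ p ≤ (1 + τ) * winMass p L) ∧
        (∀ a b, a ≠ b → ∃ M : Finset (T × {u // u ∈ U}),
          (1 - τ) * winMass p L ≤ ∑ i ∈ M, |sl d (ψ i) (a, b)| ^ p ∧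
          ∑ i ∈ M, (2 : ℝ) ^ (((i.2.1 : ℤ) : ℝ) * p) ≤ CM * (2 : ℝ) ^ (2 * (L : ℝ) * p)) := by
  have hp0 : 0 < p := by linarith
  set r : ℝ := (2 - p + p ^ 2) / 2 with hr
  have hr1 : 1 < r := by rw [hr]; nlinarith
  have hr2 : r < 2 := by rw [hr]; nlinarith
  have hrp : r < p := by rw [hr]; nlinarith
  have hr0 : 0 < r := by linarith
  have hexp : p - r + (2 - r) = (2 - p) * p := by rw [hr]; ring
  have hpp : pplus p = 0 := max_eq_left (by linarith)
  obtain ⟨C₁, hC₁, herr⟩ := err_core (p := p) (r := r) hp1 hr0 hrp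
  obtain ⟨C₂, hC₂, hadd⟩ := exists_add_rpow_le (p := p) (τ := τ / 2) hp1 (by positivity)
  obtain ⟨Cg, hCg, hgeo⟩ := exists_sum_two_rpow_le hp0
  set Y : ℝ := (2 - r) * 2 ^ (p - 1) + (r - 1) * 8 with hY
  have hYpos : 0 < Y := by
    have h1 : 0 < 2 - r := by linarith
    have h2 : 0 < r - 1 := by linarith
    positivity
  set D : ℝ := C₁ * Y with hD
  have hDpos : 0 < D := by positivity
  set θ : ℝ := (τ / (4 * Y)) ^ (1 / p) with hθ
  have hθinner : 0 < τ / (4 * Y) := by positivity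
  have hθpos : 0 < θ := by positivity
  have hθp : θ ^ p = τ / (4 * Y) := by
    rw [hθ, ← Real.rpow_mul hθinner.le, one_div, inv_mul_cancel₀ hp0.ne', Real.rpow_one]
  have hθY : θ ^ p * Y = τ / 4 := by
    rw [hθp]
    field_simp
  refine ⟨(2 ^ (p + 1) * C₂ * D / (τ / 2)) ^ (1 / p), Cg * (θ ^ p)⁻¹, by positivity,
    by positivity, ?_⟩
  intro X _ _ T _ hX d hds hd hd0 x hN L hL hLc
  classical
  obtain ⟨S, δ, ψ, hSle, hF1, hF2, hF3, hF4, hZ, hBd, hVar⟩ :=
    exists_setup hp1 hX d hds hd hd0 x hN L hL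
  have hc1 := one_le_cK (X := X) hX
  have hc0 : 0 < cK X := by linarith
  set U₀ : Finset ℤ := S.biUnion (fun l => Finset.Ioo l (l + 2 * (L : ℤ))) with hU₀
  have hzero : ∀ t u e, u ∉ U₀ → sl d (ψ t u) e = 0 := by
    intro t u e hu
    rw [hZ]
    apply Finset.sum_eq_zero
    intro l hl
    have : tent L (u - l) = 0 := by
      apply tent_eq_zero hL
      by_contra hcon
      push Not at hcon
      apply hu
      rw [hU₀, Finset.mem_biUnion]
      exact ⟨l, hl, Finset.mem_Ioo.mpr ⟨by linarith [hcon.1], by linarith [hcon.2]⟩⟩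
    rw [this, zero_mul]
  -- the common analysis at a pair
  have hpair : ∀ a b, a ≠ b → ∃ l₀ : T → ℤ,
      (∀ t, sl d (x t) (a, b) ≠ 0 → ((2 : ℝ) ^ (l₀ t : ℝ)) ^ p
        ≤ budget p r S (fun l => δ t l (a, b)) / cK X ^ r) ∧
      (∑ t, budget p r S (fun l => δ t l (a, b)) ≤ cK X ^ (2 - r) * Y) ∧
      (∀ U : Finset ℤ, ∑ t, ∑ u ∈ U, |sl d (ψ t u) (a, b) - tent L (u - l₀ t) * sl d (x t) (a, b)| ^ p
        ≤ D * (L : ℝ) ^ (1 - p) * (cK X ^ (2 - p)) ^ p) := by
    intro a b _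
    set e : X × X := (a, b) with he
    obtain ⟨l₀, hl, hErr⟩ := herr T S (fun t l => δ t l e) (fun t => sl d (x t) e) (cK X) hc0 L hL
      (fun t l _ => hF1 t l e) (fun t => hF2 t e)
    have hbud : ∑ t, budget p r S (fun l => δ t l e) ≤ cK X ^ (2 - r) * Y := by
      have h1 : ∀ t, budget p r S (fun l => δ t l e)
          ≤ cK X ^ (2 - r) * ((2 - r) * (∑ l ∈ S, (2 : ℝ) ^ ((l : ℝ) * (p - 1)) * |δ t l e|) / cK X
            + (r - 1) * ∑ l ∈ S, (2 : ℝ) ^ ((l : ℝ) * (p - 2)) * (δ t l e) ^ 2) :=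
        fun t => budget_young hr1 hr2 hc0 S _
      have h2r : 0 < 2 - r := by linarith
      have hr1' : 0 < r - 1 := by linarith
      have h3 := hF3 e
      rw [hpp, Real.rpow_zero, mul_one] at h3
      have h4 := hF4 e
      calc _ ≤ ∑ t, cK X ^ (2 - r) * ((2 - r) * (∑ l ∈ S, (2 : ℝ) ^ ((l : ℝ) * (p - 1)) * |δ t l e|) / cK X
            + (r - 1) * ∑ l ∈ S, (2 : ℝ) ^ ((l : ℝ) * (p - 2)) * (δ t l e) ^ 2) :=
            Finset.sum_le_sum fun t _ => h1 t
        _ = cK X ^ (2 - r) * ((2 - r) * (∑ t, ∑ l ∈ S, (2 : ℝ) ^ ((l : ℝ) * (p - 1)) * |δ t l e|) / cK X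
            + (r - 1) * ∑ t, ∑ l ∈ S, (2 : ℝ) ^ ((l : ℝ) * (p - 2)) * (δ t l e) ^ 2) := by
            rw [← Finset.mul_sum, Finset.sum_add_distrib, ← Finset.mul_sum, ← Finset.sum_div,
              ← Finset.mul_sum]
        _ ≤ cK X ^ (2 - r) * ((2 - r) * (cK X * 2 ^ (p - 1)) / cK X + (r - 1) * 8) := by
            apply mul_le_mul_of_nonneg_left _ (by positivity)
            apply add_le_add
            · apply div_le_div_of_nonneg_right _ hc0.le
              exact mul_le_mul_of_nonneg_left h4 h2r.le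
            · exact mul_le_mul_of_nonneg_left h3 hr1'.le
        _ = _ := by
            rw [hY]
            field_simp
    refine ⟨l₀, hl, hbud, ?_⟩
    intro U
    have h5 : ∀ t u, sl d (ψ t u) e = ∑ l ∈ S, tent L (u - l) * δ t l e := fun t u => hZ t u e
    simp only [h5]
    refine (hErr U).trans ?_
    have hcpow : (cK X ^ (2 - p)) ^ p = cK X ^ (p - r) * cK X ^ (2 - r) := by
      rw [← Real.rpow_mul hc0.le, ← Real.rpow_add hc0, hexp]
    rw [hcpow, hD]
    have h0 : 0 ≤ C₁ * (L : ℝ) ^ (1 - p) * cK X ^ (p - r) := by positivity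
    calc _ ≤ C₁ * (L : ℝ) ^ (1 - p) * cK X ^ (p - r) * (cK X ^ (2 - r) * Y) :=
          mul_le_mul_of_nonneg_left hbud h0
      _ = _ := by ring
  have hA0 : 0 ≤ winMass p L :=
    Finset.sum_nonneg fun _ _ => Real.rpow_nonneg (tent_nonneg _ _) _
  have hsmall : C₂ * (D * (L : ℝ) ^ (1 - p) * (cK X ^ (2 - p)) ^ p) ≤ τ / 2 / 2 * winMass p L :=
    err_small hp0 (by positivity) hC₂ hDpos (by positivity) hL hLc
  refine ⟨U₀, fun i => ψ i.1 i.2.1, ?_, ?_, ?_, ?_, ?_⟩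
  · -- B0
    rintro ⟨t, u, hu⟩
    obtain ⟨l, hl, hul⟩ := Finset.mem_biUnion.mp hu
    have := hSle l hl
    have h2 := (Finset.mem_Ioo.mp hul).2
    simp only
    omega
  · intro i e
    exact hBd _ _ _
  · intro e
    have := sum_prod_coe (T := T) U₀
      (fun t u => (2 : ℝ) ^ ((u : ℝ) * (p - 2)) * (sl d (ψ t u) e) ^ 2)
    rw [this]
    exact hVar U₀ e
  · -- upper bound
    intro a b hab
    obtain ⟨l₀, -, -, hErr⟩ := hpair a b hab
    have hsumi : ∑ i : T × {u // u ∈ U₀}, |sl d (ψ i.1 i.2.1) (a, b)| ^ p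
        = ∑ t, ∑ u ∈ U₀, |sl d (ψ t u) (a, b)| ^ p :=
      sum_prod_coe (T := T) U₀ (fun t u => |sl d (ψ t u) (a, b)| ^ p)
    rw [hsumi]
    have hup := pair_upper hp0 hadd (by positivity) hL U₀ (fun t u => sl d (ψ t u) (a, b))
      (fun t => sl d (x t) (a, b)) l₀ hC₂.le (hErr U₀) (hN a b hab).le
    have : 0 ≤ τ * winMass p L := by positivity
    linarith
  · -- lower bound
    intro a b hab
    obtain ⟨l₀, hl, hbud, hErr⟩ := hpair a b hab
    set g : T → ℝ := fun t => sl d (x t) (a, b) with hg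
    have hsumg : ∑ t, |g t| ^ p = 1 := hN a b hab
    set G : Finset T := Finset.univ.filter (fun t => θ * (2 : ℝ) ^ (l₀ t : ℝ) ≤ |g t|) with hG
    -- the bad mass
    have hbad : ∑ t ∈ Finset.univ.filter (fun t => ¬ θ * (2 : ℝ) ^ (l₀ t : ℝ) ≤ |g t|), |g t| ^ p
        ≤ τ / 4 := by
      have hterm : ∀ t ∈ Finset.univ.filter (fun t => ¬ θ * (2 : ℝ) ^ (l₀ t : ℝ) ≤ |g t|),
          |g t| ^ p ≤ θ ^ p * (budget p r S (fun l => δ t l (a, b)) / cK X ^ r) := by
        intro t ht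
        have h1 := (Finset.mem_filter.mp ht).2
        push Not at h1
        by_cases h0 : g t = 0
        · rw [h0, abs_zero, Real.zero_rpow hp0.ne']
          have := budget_nonneg p r S (fun l => δ t l (a, b))
          positivity
        · have h2 := hl t h0
          calc |g t| ^ p ≤ (θ * (2 : ℝ) ^ (l₀ t : ℝ)) ^ p :=
                Real.rpow_le_rpow (abs_nonneg _) h1.le hp0.le
            _ = θ ^ p * ((2 : ℝ) ^ (l₀ t : ℝ)) ^ p :=
                Real.mul_rpow hθpos.le (by positivity)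
            _ ≤ _ := mul_le_mul_of_nonneg_left h2 (by positivity)
      have hcr : 0 < cK X ^ r := by positivity
      calc _ ≤ ∑ t ∈ Finset.univ.filter (fun t => ¬ θ * (2 : ℝ) ^ (l₀ t : ℝ) ≤ |g t|),
            θ ^ p * (budget p r S (fun l => δ t l (a, b)) / cK X ^ r) := Finset.sum_le_sum hterm
        _ ≤ ∑ t, θ ^ p * (budget p r S (fun l => δ t l (a, b)) / cK X ^ r) :=
            Finset.sum_le_sum_of_subset_of_nonneg (Finset.subset_univ _)
              (fun t _ _ => by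
                have := budget_nonneg p r S (fun l => δ t l (a, b))
                positivity)
        _ = θ ^ p * ((∑ t, budget p r S (fun l => δ t l (a, b))) / cK X ^ r) := by
            rw [← Finset.mul_sum, Finset.sum_div]
        _ ≤ θ ^ p * ((cK X ^ (2 - r) * Y) / cK X ^ r) := by
            apply mul_le_mul_of_nonneg_left _ (by positivity)
            exact div_le_div_of_nonneg_right hbud hcr.le
        _ ≤ θ ^ p * Y := by
            apply mul_le_mul_of_nonneg_left _ (by positivity)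
            rw [div_le_iff₀ hcr]
            have : cK X ^ (2 - r) ≤ cK X ^ r :=
              Real.rpow_le_rpow_of_exponent_le hc1 (by linarith)
            nlinarith
        _ = τ / 4 := hθY
    have hgood : 1 - τ / 4 ≤ ∑ t ∈ G, |g t| ^ p := by
      have := Finset.sum_filter_add_sum_filter_not (Finset.univ : Finset T)
        (fun t => θ * (2 : ℝ) ^ (l₀ t : ℝ) ≤ |g t|) (fun t => |g t| ^ p)
      rw [hsumg] at this
      rw [hG]
      linarith
    have hlow := pair_lower (G := G) hp0 hadd hC₂.le U₀ (fun t u => sl d (ψ t u) (a, b)) g l₀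
      (by positivity : 0 ≤ τ / 2) (fun t u hu => hzero t u _ hu) hErr
    -- the set `M`
    set M : Finset (T × {u // u ∈ U₀}) := Finset.univ.filter
      (fun i => i.1 ∈ G ∧ i.2.1 ∈ Finset.Ioo (l₀ i.1) (l₀ i.1 + 2 * (L : ℤ))) with hM
    have hMsum : ∀ F : T → ℤ → ℝ, ∑ i ∈ M, F i.1 i.2.1
        = ∑ t ∈ G, ∑ u ∈ U₀.filter (fun u => u ∈ Finset.Ioo (l₀ t) (l₀ t + 2 * (L : ℤ))), F t u := by
      intro F
      rw [hM, Finset.sum_filter]
      have h1 := sum_prod_coe (T := T) U₀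
        (fun t u => if t ∈ G ∧ u ∈ Finset.Ioo (l₀ t) (l₀ t + 2 * (L : ℤ)) then F t u else 0)
      rw [h1, ← Finset.sum_filter_add_sum_filter_not (Finset.univ : Finset T) (fun t => t ∈ G)]
      have h2 : ∑ t ∈ Finset.univ.filter (fun t => ¬ t ∈ G),
          ∑ u ∈ U₀, (if t ∈ G ∧ u ∈ Finset.Ioo (l₀ t) (l₀ t + 2 * (L : ℤ)) then F t u else 0) = 0 := by
        apply Finset.sum_eq_zero
        intro t ht
        have := (Finset.mem_filter.mp ht).2
        apply Finset.sum_eq_zero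
        intro u _
        rw [if_neg]
        tauto
      rw [h2, add_zero]
      have h3 : Finset.univ.filter (fun t => t ∈ G) = G := by
        ext t
        simp
      rw [h3]
      apply Finset.sum_congr rfl
      intro t ht
      rw [Finset.sum_filter]
      apply Finset.sum_congr rfl
      intro u _
      by_cases h4 : u ∈ Finset.Ioo (l₀ t) (l₀ t + 2 * (L : ℤ))
      · rw [if_pos ⟨ht, h4⟩, if_pos h4]
      · rw [if_neg (fun h => h4 h.2), if_neg h4]
    refine ⟨M, ?_, ?_⟩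
    · -- main mass
      have h1 := hMsum (fun t u => |sl d (ψ t u) (a, b)| ^ p)
      rw [h1]
      set Sz := ∑ t ∈ G, ∑ u ∈ U₀.filter (fun u => u ∈ Finset.Ioo (l₀ t) (l₀ t + 2 * (L : ℤ))),
        |sl d (ψ t u) (a, b)| ^ p with hSz
      have h2 : winMass p L * (1 - τ / 4) ≤ winMass p L * ∑ t ∈ G, |g t| ^ p :=
        mul_le_mul_of_nonneg_left hgood hA0
      have h3 : (1 + τ / 2) * ((1 - τ) * winMass p L) ≤ (1 + τ / 2) * Sz := by
        nlinarith [mul_nonneg (sq_nonneg τ) hA0]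
      exact le_of_mul_le_mul_left h3 (by positivity)
    · -- active mass
      have h1 := hMsum (fun t u => (2 : ℝ) ^ ((u : ℝ) * p))
      rw [h1]
      have hterm : ∀ t ∈ G,
          ∑ u ∈ U₀.filter (fun u => u ∈ Finset.Ioo (l₀ t) (l₀ t + 2 * (L : ℤ))), (2 : ℝ) ^ ((u : ℝ) * p)
          ≤ (Cg * (θ ^ p)⁻¹ * (2 : ℝ) ^ (2 * (L : ℝ) * p)) * |g t| ^ p := by
        intro t ht
        have hgt := (Finset.mem_filter.mp ht).2
        rcases hgeo (U₀.filter (fun u => u ∈ Finset.Ioo (l₀ t) (l₀ t + 2 * (L : ℤ))))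
            (l₀ t + 2 * (L : ℤ)) with h2 | h2
        · refine h2.trans ?_
          have e1 : (2 : ℝ) ^ (((l₀ t + 2 * (L : ℤ) : ℤ) : ℝ) * p)
              = ((2 : ℝ) ^ (l₀ t : ℝ)) ^ p * (2 : ℝ) ^ (2 * (L : ℝ) * p) := by
            rw [← Real.rpow_mul (by norm_num), ← Real.rpow_add (by norm_num)]
            congr 1
            push_cast
            ring
          have e2 : θ ^ p * ((2 : ℝ) ^ (l₀ t : ℝ)) ^ p ≤ |g t| ^ p := by
            rw [← Real.mul_rpow hθpos.le (by positivity)]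
            exact Real.rpow_le_rpow (by positivity) hgt hp0.le
          have hθp' : 0 < θ ^ p := by positivity
          have e3 : ((2 : ℝ) ^ (l₀ t : ℝ)) ^ p ≤ (θ ^ p)⁻¹ * |g t| ^ p := by
            rw [← div_eq_inv_mul, le_div_iff₀ hθp', mul_comm]
            exact e2
          rw [e1]
          have h2L : 0 < (2 : ℝ) ^ (2 * (L : ℝ) * p) := by positivity
          calc Cg * (((2 : ℝ) ^ (l₀ t : ℝ)) ^ p * (2 : ℝ) ^ (2 * (L : ℝ) * p))
              ≤ Cg * ((θ ^ p)⁻¹ * |g t| ^ p * (2 : ℝ) ^ (2 * (L : ℝ) * p)) := by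
                apply mul_le_mul_of_nonneg_left _ hCg.le
                exact mul_le_mul_of_nonneg_right e3 h2L.le
            _ = _ := by ring
        · obtain ⟨u, hu, hu2⟩ := h2
          have h3 := (Finset.mem_filter.mp hu).2
          have h4 := (Finset.mem_Ioo.mp h3).2
          omega
      calc _ ≤ ∑ t ∈ G, (Cg * (θ ^ p)⁻¹ * (2 : ℝ) ^ (2 * (L : ℝ) * p)) * |g t| ^ p :=
            Finset.sum_le_sum hterm
        _ = (Cg * (θ ^ p)⁻¹ * (2 : ℝ) ^ (2 * (L : ℝ) * p)) * ∑ t ∈ G, |g t| ^ p := by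
            rw [Finset.mul_sum]
        _ ≤ (Cg * (θ ^ p)⁻¹ * (2 : ℝ) ^ (2 * (L : ℝ) * p)) * 1 := by
            apply mul_le_mul_of_nonneg_left _ (by positivity)
            rw [← hsumg]
            exact Finset.sum_le_sum_of_subset_of_nonneg (Finset.subset_univ _)
              (fun _ _ _ => by positivity)
        _ = _ := mul_one _

end final

end Crest.Agent.LpDimRed.Bands
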