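import Mathlib

/-!
# Row 232, S0358, module M1: reduction of `L^p` to finite `ℓ_p`

`exists_finite_approx`: `n` points of an `L^p` space are, up to an additive error `η`, `n` points of
a finite `ℓ_p^T`. `exists_finite_mult`: the multiplicative version for injective families.
`s0358_of_finite_core`: the statement S0358 follows from the purely finite statement `FiniteCore`.
-/

set_option autoImplicit false
open MeasureTheory
open scoped ENNReal

namespace Crest.Agent.LpDimRed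

universe u

/-- The `ℓ_P` norm of a finite real vector. -/
noncomputable def lpn {ι : Type*} [Fintype ι] (P : ℝ) (v : ι → ℝ) : ℝ := (∑ t, |v t| ^ P) ^ (1 / P)

lemma lpn_nonneg {ι : Type*} [Fintype ι] (P : ℝ) (v : ι → ℝ) : 0 ≤ lpn P v :=
  Real.rpow_nonneg (Finset.sum_nonneg fun _ _ => Real.rpow_nonneg (abs_nonneg _) _) _

section simple

variable {α : Type u} [MeasurableSpace α] {μ : Measure α}

/-- The joint simple function of a finite family of simple functions. -/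
noncomputable def jointSimple {n : ℕ} (s : Fin n → SimpleFunc α ℝ) : SimpleFunc α (Fin n → ℝ) where
  toFun a := fun i => s i a
  measurableSet_fiber' := by
    intro v
    have hm : Measurable (fun a i => s i a) := measurable_pi_lambda _ fun i => (s i).measurable
    exact hm (measurableSet_singleton v)
  finite_range' := by
    have h : Set.Finite {f : Fin n → ℝ | ∀ i, f i ∈ Set.range (s i)} :=
      Set.Finite.pi' fun i => (s i).finite_range
    refine h.subset ?_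
    rintro _ ⟨a, rfl⟩ i
    exact ⟨a, rfl⟩

lemma lintegral_joint {n : ℕ} (s : Fin n → SimpleFunc α ℝ) (P : ℝ) (i j : Fin n) :
    ∫⁻ a, ‖s i a - s j a‖ₑ ^ P ∂μ =
      ∑ v ∈ (jointSimple s).range, ‖v i - v j‖ₑ ^ P * μ ((jointSimple s) ⁻¹' {v}) := by
  set g : (Fin n → ℝ) → ℝ≥0∞ := fun v => ‖v i - v j‖ₑ ^ P with hg
  have h1 : (fun a => ‖s i a - s j a‖ₑ ^ P) = ((jointSimple s).map g) := by
    ext a; rfl
  rw [h1, SimpleFunc.lintegral_eq_lintegral, SimpleFunc.map_lintegral]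

lemma exists_simple_finite {n : ℕ} (p : ℝ≥0∞) (hp0 : p ≠ 0) (hptop : p ≠ ⊤)
    (s : Fin n → SimpleFunc α ℝ) (hs : ∀ i, MemLp (s i) p μ) :
    ∃ (T : ℕ) (y : Fin n → Fin T → ℝ), ∀ i j,
      (eLpNorm (fun a => s i a - s j a) p μ).toReal = lpn p.toReal (fun t => y i t - y j t) := by
  classical
  set P := p.toReal with hP
  have hPpos : 0 < P := ENNReal.toReal_pos hp0 hptop
  set F := jointSimple s with hF
  let R := F.range
  let e : R ≃ Fin R.card := R.equivFin
  refine ⟨R.card, fun i t => (e.symm t : Fin n → ℝ) i *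
    ((μ (F ⁻¹' {(e.symm t : Fin n → ℝ)})).toReal) ^ (1 / P), ?_⟩
  intro i j
  -- finiteness of the lintegral
  have hmem : MemLp (fun a => s i a - s j a) p μ := (hs i).sub (hs j)
  have hfin : ∫⁻ a, ‖s i a - s j a‖ₑ ^ P ∂μ ≠ ⊤ := by
    have := hmem.eLpNorm_lt_top
    rw [eLpNorm_eq_lintegral_rpow_enorm_toReal hp0 hptop] at this
    have h2 : (∫⁻ a, ‖s i a - s j a‖ₑ ^ P ∂μ) ^ (1 / P) < ⊤ := this
    intro h3
    rw [h3, ENNReal.top_rpow_of_pos (by positivity)] at h2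
    exact lt_irrefl _ h2
  rw [lintegral_joint] at hfin
  have hterm : ∀ v ∈ R, ‖v i - v j‖ₑ ^ P * μ (F ⁻¹' {v}) ≠ ⊤ := by
    intro v hv h
    apply hfin
    exact (ENNReal.sum_eq_top).2 ⟨v, hv, h⟩
  -- each term
  have hkey : ∀ v ∈ R, ‖v i - v j‖ₑ ^ P * μ (F ⁻¹' {v}) =
      ENNReal.ofReal (|v i * (μ (F ⁻¹' {v})).toReal ^ (1 / P) -
        v j * (μ (F ⁻¹' {v})).toReal ^ (1 / P)| ^ P) := by
    intro v hv
    by_cases htop : μ (F ⁻¹' {v}) = ⊤
    · have h0 : ‖v i - v j‖ₑ ^ P = 0 := by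
        by_contra hne
        exact hterm v hv (by rw [htop]; exact ENNReal.mul_top hne)
      have hz : (0 : ℝ) ^ (1 / P) = 0 := Real.zero_rpow (by positivity)
      have hz' : (0 : ℝ) ^ P⁻¹ = 0 := Real.zero_rpow (by positivity)
      rw [h0, zero_mul, htop]
      simp [hz', Real.zero_rpow hPpos.ne']
    · have hm : 0 ≤ (μ (F ⁻¹' {v})).toReal := ENNReal.toReal_nonneg
      have e1 : |v i * (μ (F ⁻¹' {v})).toReal ^ (1 / P) -
          v j * (μ (F ⁻¹' {v})).toReal ^ (1 / P)| ^ P =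
          |v i - v j| ^ P * (μ (F ⁻¹' {v})).toReal := by
        rw [← sub_mul, abs_mul, Real.mul_rpow (abs_nonneg _) (abs_nonneg _),
          abs_of_nonneg (Real.rpow_nonneg hm _), ← Real.rpow_mul hm]
        rw [one_div, inv_mul_cancel₀ hPpos.ne', Real.rpow_one]
      rw [e1, ENNReal.ofReal_mul (Real.rpow_nonneg (abs_nonneg _) _),
        ENNReal.ofReal_toReal htop]
      congr 1
      rw [← ofReal_norm, Real.norm_eq_abs, ENNReal.ofReal_rpow_of_nonneg (abs_nonneg _) hPpos.le]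
  -- conclude
  have hL : eLpNorm (fun a => s i a - s j a) p μ =
      (∑ v ∈ R, ENNReal.ofReal (|v i * (μ (F ⁻¹' {v})).toReal ^ (1 / P) -
        v j * (μ (F ⁻¹' {v})).toReal ^ (1 / P)| ^ P)) ^ (1 / P) := by
    rw [eLpNorm_eq_lintegral_rpow_enorm_toReal hp0 hptop, lintegral_joint]
    rw [Finset.sum_congr rfl hkey]
  rw [hL, ← ENNReal.ofReal_sum_of_nonneg (fun _ _ => Real.rpow_nonneg (abs_nonneg _) _),
    ← ENNReal.toReal_rpow, ENNReal.toReal_ofReal (Finset.sum_nonneg fun _ _ => Real.rpow_nonneg (abs_nonneg _) _)]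
  unfold lpn
  congr 1
  have := Finset.sum_coe_sort R (fun v => |v i * (μ (F ⁻¹' {v})).toReal ^ (1 / P) -
        v j * (μ (F ⁻¹' {v})).toReal ^ (1 / P)| ^ P)
  rw [← this]
  exact (Equiv.sum_comp e.symm (fun v : R => |(v : Fin n → ℝ) i * (μ (F ⁻¹' {(v : Fin n → ℝ)})).toReal ^ (1 / P) -
        (v : Fin n → ℝ) j * (μ (F ⁻¹' {(v : Fin n → ℝ)})).toReal ^ (1 / P)| ^ P)).symm

end simple

/-- **M1** Additive approximation of `n` points of `L^p` by `n` points of a finite `ℓ_p^T`. -/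
theorem exists_finite_approx (p : ℝ≥0∞) [Fact (1 ≤ p)] (hptop : p ≠ ⊤)
    {α : Type u} [MeasurableSpace α] (μ : Measure α) {n : ℕ} (x : Fin n → Lp ℝ p μ)
    {η : ℝ} (hη : 0 < η) :
    ∃ (T : ℕ) (y : Fin n → Fin T → ℝ), ∀ i j,
      |lpn p.toReal (fun t => y i t - y j t) - ‖x i - x j‖| ≤ η := by
  have hp0 : p ≠ 0 := (lt_of_lt_of_le zero_lt_one (Fact.out : (1 : ℝ≥0∞) ≤ p)).ne'
  have hδ : 0 < η / 2 := by positivity
  have hex : ∀ i, ∃ s : SimpleFunc α ℝ,
      eLpNorm (⇑(x i) - ⇑s) p μ < ENNReal.ofReal (η / 2) ∧ MemLp s p μ := fun i =>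
    (Lp.memLp (x i)).exists_simpleFunc_eLpNorm_sub_lt hptop (by simpa using hδ)
  choose s hs1 hs2 using hex
  obtain ⟨T, y, hy⟩ := exists_simple_finite p hp0 hptop s hs2
  refine ⟨T, y, fun i j => ?_⟩
  set X : Fin n → Lp ℝ p μ := fun i => (hs2 i).toLp (s i) with hX
  have hclose : ∀ i, ‖x i - X i‖ ≤ η / 2 := by
    intro i
    rw [Lp.norm_def]
    have h1 : eLpNorm (⇑(x i - X i)) p μ = eLpNorm (⇑(x i) - ⇑(s i)) p μ := by
      apply eLpNorm_congr_ae
      filter_upwards [Lp.coeFn_sub (x i) (X i), (hs2 i).coeFn_toLp] with a ha hb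
      rw [ha, Pi.sub_apply, Pi.sub_apply, hb]
    rw [h1]
    have h2 := (hs1 i).le
    exact (ENNReal.toReal_le_of_le_ofReal hδ.le h2)
  have hnorm : ‖X i - X j‖ = lpn p.toReal (fun t => y i t - y j t) := by
    rw [← hy i j, Lp.norm_def]
    congr 1
    apply eLpNorm_congr_ae
    filter_upwards [Lp.coeFn_sub (X i) (X j), (hs2 i).coeFn_toLp, (hs2 j).coeFn_toLp] with a ha hb hc
    rw [ha, Pi.sub_apply, hb, hc]
  rw [← hnorm]
  have h3 : x i - x j = (x i - X i) + (X i - X j) + (X j - x j) := by abel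
  have h4 : X i - X j = (X i - x i) + (x i - x j) + (x j - X j) := by abel
  have t1 : ‖x i - x j‖ ≤ ‖x i - X i‖ + ‖X i - X j‖ + ‖X j - x j‖ := by
    rw [h3]; exact (norm_add_le _ _).trans (add_le_add_left (norm_add_le _ _) _)
  have t2 : ‖X i - X j‖ ≤ ‖X i - x i‖ + ‖x i - x j‖ + ‖x j - X j‖ := by
    rw [h4]; exact (norm_add_le _ _).trans (add_le_add_left (norm_add_le _ _) _)
  have c1 := hclose i
  have c2 := hclose j
  rw [norm_sub_rev (X j) (x j)] at t1
  rw [norm_sub_rev (X i) (x i)] at t2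
  rw [abs_le]
  constructor <;> linarith

/-- **M1** multiplicative form for injective families. -/
theorem exists_finite_mult (p : ℝ≥0∞) [Fact (1 ≤ p)] (hptop : p ≠ ⊤)
    {α : Type u} [MeasurableSpace α] (μ : Measure α) {n : ℕ} (x : Fin n → Lp ℝ p μ)
    (hx : Function.Injective x) {D : ℝ} (hD : 1 < D) :
    ∃ (T : ℕ) (y : Fin n → Fin T → ℝ), ∀ i j,
      lpn p.toReal (fun t => y i t - y j t) ≤ D * ‖x i - x j‖ ∧
      ‖x i - x j‖ ≤ D * lpn p.toReal (fun t => y i t - y j t) := by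
  classical
  have hp0 : p ≠ 0 := (lt_of_lt_of_le zero_lt_one (Fact.out : (1 : ℝ≥0∞) ≤ p)).ne'
  have hD0 : 0 < D := by linarith
  -- the minimal distance
  obtain ⟨m, hm0, hm⟩ : ∃ m : ℝ, 0 < m ∧ ∀ i j, i ≠ j → m ≤ ‖x i - x j‖ := by
    let S : Finset (Fin n × Fin n) := Finset.univ.filter fun q => q.1 ≠ q.2
    by_cases hS : S.Nonempty
    · obtain ⟨q, hq, hmin⟩ := S.exists_min_image (fun q => ‖x q.1 - x q.2‖) hS
      refine ⟨‖x q.1 - x q.2‖, ?_, fun i j hij => hmin (i, j) (by simpa [S] using hij)⟩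
      have : q.1 ≠ q.2 := by simpa [S] using hq
      exact norm_pos_iff.2 (sub_ne_zero.2 fun h => this (hx h))
    · refine ⟨1, one_pos, fun i j hij => ?_⟩
      exact absurd ⟨(i, j), by simpa [S] using hij⟩ hS
  have hη : 0 < m * (1 - 1 / D) := by
    apply mul_pos hm0
    have : 1 / D < 1 := by rw [div_lt_one hD0]; exact hD
    linarith
  obtain ⟨T, y, hy⟩ := exists_finite_approx p hptop μ x hη
  refine ⟨T, y, fun i j => ?_⟩
  by_cases hij : i = j
  · subst hij
    have hz : lpn p.toReal (fun t => y i t - y i t) = 0 := by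
      have hP : 0 < p.toReal := ENNReal.toReal_pos hp0 hptop
      have hP' : p.toReal⁻¹ ≠ 0 := (inv_pos.2 hP).ne'
      unfold lpn
      simp [Real.zero_rpow hP.ne', Real.zero_rpow hP']
    rw [hz]
    simp
  · have h1 := hm i j hij
    have h2 := hy i j
    rw [abs_le] at h2
    set a := lpn p.toReal (fun t => y i t - y j t)
    set b := ‖x i - x j‖
    have hb0 : 0 < b := lt_of_lt_of_le hm0 h1
    have h3 : m * (1 - 1 / D) ≤ b * (1 - 1 / D) :=
      mul_le_mul_of_nonneg_right h1 (by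
        have : 1 / D < 1 := by rw [div_lt_one hD0]; exact hD
        linarith)
    have hinv : D * (1 / D) = 1 := by field_simp
    constructor
    · -- a ≤ b + b(1 - 1/D) ≤ D b
      have h5 : a ≤ b + b * (1 - 1 / D) := by linarith [h2.2]
      have h6 : (2 - 1 / D) ≤ D := by
        have : 0 ≤ (D - 1) ^ 2 / D := by positivity
        have e : (D - 1) ^ 2 / D = D - 2 + 1 / D := by field_simp; ring
        linarith
      nlinarith
    · -- b ≤ a + b (1 - 1/D), so b / D ≤ a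
      have h5 : b - b * (1 - 1 / D) ≤ a := by linarith [h2.1]
      have h6 : b * (1 / D) ≤ a := by nlinarith
      calc b = D * (b * (1 / D)) := by field_simp
        _ ≤ D * a := mul_le_mul_of_nonneg_left h6 hD0.le

/-- The purely finite form of S0358. -/
def FiniteCore (P γ : ℝ) : Prop :=
  ∀ D : ℝ, 1 < D → ∃ C : ℝ, ∀ n : ℕ, 2 ≤ n → ∀ (T : ℕ) (y : Fin n → Fin T → ℝ),
    Function.Injective y →
    ∃ d : ℕ, (d : ℝ) ≤ Real.exp (C * Real.log n ^ γ) ∧ ∃ (z : Fin n → Fin d → ℝ) (s : ℝ), 0 < s ∧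
      ∀ i j, s * lpn P (fun t => y i t - y j t) ≤ lpn P (fun t => z i t - z j t) ∧
        lpn P (fun t => z i t - z j t) ≤ D * s * lpn P (fun t => y i t - y j t)

/-- S0358 from the finite core. -/
theorem s0358_of_finite_core (p : ℝ≥0∞) [Fact (1 ≤ p)] (hptop : p ≠ ⊤)
    (hp0 : 0 < p.toReal) (γ : ℝ) (hcore : FiniteCore p.toReal γ)
    (D : ℝ) (hD : 1 < D) :
    ∃ C : ℝ, ∀ (n : ℕ), 2 ≤ n →
      ∀ (α : Type u) [MeasurableSpace α] (μ : Measure α) (x : Fin n → Lp ℝ p μ),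
        Function.Injective x →
        ∃ d : ℕ, (d : ℝ) ≤ Real.exp (C * Real.log n ^ γ) ∧
          ∃ (y : Fin n → PiLp p (fun _ : Fin d => ℝ)) (s : ℝ), 0 < s ∧
            ∀ i j, s * ‖x i - x j‖ ≤ ‖y i - y j‖ ∧ ‖y i - y j‖ ≤ D * s * ‖x i - x j‖ := by
  -- `D₁ = D^(1/3)`
  set D₁ := D ^ ((1 : ℝ) / 3) with hD₁
  have hD0 : 0 < D := by linarith
  have hD₁1 : 1 < D₁ := Real.one_lt_rpow hD (by norm_num)
  have hD₁0 : 0 < D₁ := by linarith
  have hcube : D₁ * D₁ * D₁ = D := by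
    rw [hD₁, ← Real.rpow_add hD0, ← Real.rpow_add hD0]
    norm_num
  obtain ⟨C, hC⟩ := hcore D₁ hD₁1
  refine ⟨C, fun n hn α _ μ x hx => ?_⟩
  obtain ⟨T, y, hy⟩ := exists_finite_mult p hptop μ x hx hD₁1
  have hyinj : Function.Injective y := by
    intro i j hij
    by_contra hne
    have h1 : ‖x i - x j‖ ≤ D₁ * lpn p.toReal (fun t => y i t - y j t) := (hy i j).2
    have hz : lpn p.toReal (fun t => y i t - y j t) = 0 := by
      have hP' : p.toReal⁻¹ ≠ 0 := (inv_pos.2 hp0).ne'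
      unfold lpn
      simp [hij, Real.zero_rpow hp0.ne', Real.zero_rpow hP']
    rw [hz, mul_zero] at h1
    have h2 : 0 < ‖x i - x j‖ := norm_pos_iff.2 (sub_ne_zero.2 fun h => hne (hx h))
    linarith
  obtain ⟨d, hd, z, s, hs, hz⟩ := hC n hn T y hyinj
  refine ⟨d, hd, fun i => WithLp.toLp p (z i), s / D₁, by positivity, fun i j => ?_⟩
  have hnorm : ‖(WithLp.toLp p (z i) : PiLp p (fun _ : Fin d => ℝ)) - WithLp.toLp p (z j)‖ =
      lpn p.toReal (fun t => z i t - z j t) := by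
    rw [PiLp.norm_eq_sum hp0]
    unfold lpn
    simp [Real.norm_eq_abs]
  rw [hnorm]
  obtain ⟨h1, h2⟩ := hy i j
  obtain ⟨h3, h4⟩ := hz i j
  constructor
  · have : s * (‖x i - x j‖ / D₁) ≤ s * lpn p.toReal (fun t => y i t - y j t) := by
      apply mul_le_mul_of_nonneg_left _ hs.le
      rw [div_le_iff₀ hD₁0]; linarith
    calc s / D₁ * ‖x i - x j‖ = s * (‖x i - x j‖ / D₁) := by ring
      _ ≤ _ := this.trans h3
  · calc lpn p.toReal (fun t => z i t - z j t)
        ≤ D₁ * s * lpn p.toReal (fun t => y i t - y j t) := h4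
      _ ≤ D₁ * s * (D₁ * ‖x i - x j‖) := by
          apply mul_le_mul_of_nonneg_left h1; positivity
      _ = D * (s / D₁) * ‖x i - x j‖ := by
          rw [← hcube]; field_simp

end Crest.Agent.LpDimRed
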