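import Crest.Agent.Lib.LpDimRed.Sparsify
import Crest.Agent.Lib.LpDimRed.Finite

/-!
# From a finite mixture of Lipschitz functions to an embedding in `ℓ_P^N` (row 232, S0358; helper71)

A finite mixture `(w j, f j)` with `K`-bounded slopes whose `P`-th moments of slopes are in
`A (1 ± ε)` on all pairs gives, via `exists_sparse_average`, `N` coordinates realising the metric `d`
up to the factor `Dd`, `Dd^P ≥ (1+2ε)/(1-2ε)`.
-/

set_option autoImplicit false

namespace Crest.Agent.LpDimRed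

open Finset

theorem embed_of_family {V : Type*} [Fintype V] [Nonempty V] (d : V → V → ℝ)
    (hd : ∀ x y, x ≠ y → 0 < d x y)
    {P A ε K Dd : ℝ} (hP : 0 < P) (hA : 0 < A) (hε : 0 < ε) (hε' : ε ≤ 1 / 4)
    (hDd0 : 0 ≤ Dd) (hDd : (1 + 2 * ε) / (1 - 2 * ε) ≤ Dd ^ P)
    {n : ℕ} (w : Fin n → ℝ) (f : Fin n → V → ℝ) (hw0 : ∀ j, 0 ≤ w j) (hw1 : ∑ j, w j = 1)
    (hf : ∀ j x y, |(f j x - f j y) / d x y| ≤ K)
    (hlo : ∀ x y, x ≠ y → A * (1 - ε) ≤ ∑ j, w j * |(f j x - f j y) / d x y| ^ P)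
    (hhi : ∀ x y, x ≠ y → ∑ j, w j * |(f j x - f j y) / d x y| ^ P ≤ A * (1 + ε))
    {N : ℕ} (hN : 0 < N)
    (hNB : 4 * (K ^ P) ^ 2 * Real.log (2 * (Fintype.card V : ℝ) ^ 2) ≤ N * (ε * A) ^ 2) :
    ∃ (z : V → Fin N → ℝ) (s : ℝ), 0 < s ∧ ∀ x y, x ≠ y →
      s * d x y ≤ lpn P (fun t => z x t - z y t) ∧
      lpn P (fun t => z x t - z y t) ≤ Dd * s * d x y := by
  have hcard : (Fintype.card (V × V) : ℝ) = (Fintype.card V : ℝ) ^ 2 := by
    rw [Fintype.card_prod]; push_cast; ring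
  set F : Fin n → V × V → ℝ := fun j e => |(f j e.1 - f j e.2) / d e.1 e.2| ^ P with hF
  have hFb : ∀ j e, 0 ≤ F j e ∧ F j e ≤ K ^ P := fun j e =>
    ⟨Real.rpow_nonneg (abs_nonneg _) _,
      Real.rpow_le_rpow (abs_nonneg _) (hf j e.1 e.2) hP.le⟩
  have hτ : 0 < ε * A := mul_pos hε hA
  obtain ⟨ωs, hωs⟩ := exists_sparse_average (P := V × V) w hw0 hw1 F hFb hτ hN
    (by rw [hcard]; exact hNB)
  set z : V → Fin N → ℝ := fun x t => f (ωs t) x with hz
  have hN' : (0 : ℝ) < N := by exact_mod_cast hN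
  have h12 : 0 < 1 - 2 * ε := by linarith
  set s : ℝ := ((N : ℝ) * (A * (1 - 2 * ε))) ^ (1 / P) with hs
  have hbase : 0 < (N : ℝ) * (A * (1 - 2 * ε)) := by positivity
  have hspos : 0 < s := Real.rpow_pos_of_pos hbase _
  refine ⟨z, s, hspos, fun x y hxy => ?_⟩
  have hdxy := hd x y hxy
  set m : ℝ := (∑ t, F (ωs t) (x, y)) / N with hm
  have h1 := hωs (x, y)
  have h2 := abs_le.1 h1
  have hμlo := hlo x y hxy
  have hμhi := hhi x y hxy
  have hmlo : A * (1 - 2 * ε) ≤ m := by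
    have : m ≥ ∑ j, w j * F j (x, y) - ε * A := by linarith [h2.1]
    have e : ∑ j, w j * F j (x, y) = ∑ j, w j * |(f j x - f j y) / d x y| ^ P := rfl
    rw [e] at this
    nlinarith
  have hmhi : m ≤ A * (1 + 2 * ε) := by
    have : m ≤ ∑ j, w j * F j (x, y) + ε * A := by linarith [h2.2]
    have e : ∑ j, w j * F j (x, y) = ∑ j, w j * |(f j x - f j y) / d x y| ^ P := rfl
    rw [e] at this
    nlinarith
  -- the sum of `|z x t - z y t|^P`
  have hsum : ∑ t, |z x t - z y t| ^ P = (N : ℝ) * m * d x y ^ P := by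
    have e1 : ∀ t, |z x t - z y t| ^ P = F (ωs t) (x, y) * d x y ^ P := by
      intro t
      simp only [hF, hz]
      rw [abs_div, abs_of_pos hdxy, Real.div_rpow (abs_nonneg _) hdxy.le]
      have : d x y ^ P ≠ 0 := (Real.rpow_pos_of_pos hdxy _).ne'
      field_simp
    simp only [e1]
    rw [← Finset.sum_mul, hm]
    field_simp
  have hlpn : lpn P (fun t => z x t - z y t) = ((N : ℝ) * m) ^ (1 / P) * d x y := by
    unfold lpn
    rw [hsum]
    have hm0 : 0 ≤ (N : ℝ) * m := by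
      have : 0 ≤ m := le_trans (by positivity) hmlo
      positivity
    rw [Real.mul_rpow hm0 (Real.rpow_nonneg hdxy.le _), ← Real.rpow_mul hdxy.le,
      mul_one_div_cancel hP.ne', Real.rpow_one]
  rw [hlpn]
  have hPi : 0 ≤ 1 / P := by positivity
  constructor
  · apply mul_le_mul_of_nonneg_right _ hdxy.le
    apply Real.rpow_le_rpow hbase.le _ hPi
    exact mul_le_mul_of_nonneg_left hmlo hN'.le
  · -- upper bound
    have h3 : ((N : ℝ) * m) ^ (1 / P) ≤ ((N : ℝ) * (A * (1 + 2 * ε))) ^ (1 / P) := by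
      apply Real.rpow_le_rpow _ (mul_le_mul_of_nonneg_left hmhi hN'.le) hPi
      have : 0 ≤ m := le_trans (by positivity) hmlo
      positivity
    have h4 : (N : ℝ) * (A * (1 + 2 * ε))
        = ((1 + 2 * ε) / (1 - 2 * ε)) * ((N : ℝ) * (A * (1 - 2 * ε))) := by
      field_simp
    have h5 : ((N : ℝ) * (A * (1 + 2 * ε))) ^ (1 / P) ≤ Dd * s := by
      rw [h4, Real.mul_rpow (by positivity) hbase.le]
      apply mul_le_mul_of_nonneg_right _ hspos.le
      calc ((1 + 2 * ε) / (1 - 2 * ε)) ^ (1 / P) ≤ (Dd ^ P) ^ (1 / P) :=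
            Real.rpow_le_rpow (by positivity) hDd hPi
        _ = Dd := by
            rw [← Real.rpow_mul hDd0, mul_one_div_cancel hP.ne', Real.rpow_one]
    exact mul_le_mul_of_nonneg_right (h3.trans h5) hdxy.le

/-- `FiniteCore`-shaped output: the index set is `Fin n`, the metric comes from `y`. -/
theorem embed_core_of_family {n T : ℕ} (y : Fin n → Fin T → ℝ) (hy : Function.Injective y)
    (hn : 2 ≤ n)
    {P A ε K Dd : ℝ} (hP : 0 < P) (hA : 0 < A) (hε : 0 < ε) (hε' : ε ≤ 1 / 4)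
    (hDd0 : 0 ≤ Dd) (hDd : (1 + 2 * ε) / (1 - 2 * ε) ≤ Dd ^ P)
    {m : ℕ} (w : Fin m → ℝ) (f : Fin m → Fin n → ℝ) (hw0 : ∀ j, 0 ≤ w j) (hw1 : ∑ j, w j = 1)
    (hf : ∀ j a b, |(f j a - f j b) / lpn P (fun t => y a t - y b t)| ≤ K)
    (hlo : ∀ a b, a ≠ b →
      A * (1 - ε) ≤ ∑ j, w j * |(f j a - f j b) / lpn P (fun t => y a t - y b t)| ^ P)
    (hhi : ∀ a b, a ≠ b →
      ∑ j, w j * |(f j a - f j b) / lpn P (fun t => y a t - y b t)| ^ P ≤ A * (1 + ε))
    {N : ℕ} (hN : 0 < N)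
    (hNB : 4 * (K ^ P) ^ 2 * Real.log (2 * (n : ℝ) ^ 2) ≤ N * (ε * A) ^ 2) :
    ∃ (z : Fin n → Fin N → ℝ) (s : ℝ), 0 < s ∧ ∀ i j,
      s * lpn P (fun t => y i t - y j t) ≤ lpn P (fun t => z i t - z j t) ∧
      lpn P (fun t => z i t - z j t) ≤ Dd * s * lpn P (fun t => y i t - y j t) := by
  have : Nonempty (Fin n) := ⟨⟨0, by omega⟩⟩
  have hpos : ∀ a b : Fin n, a ≠ b → 0 < lpn P (fun t => y a t - y b t) := by
    intro a b hab
    have hne : y a ≠ y b := fun h => hab (hy h)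
    obtain ⟨t, ht⟩ := Function.ne_iff.1 hne
    have h1 : 0 < |y a t - y b t| ^ P :=
      Real.rpow_pos_of_pos (abs_pos.2 (sub_ne_zero.2 ht)) _
    have h2 : |y a t - y b t| ^ P ≤ ∑ t, |y a t - y b t| ^ P :=
      Finset.single_le_sum (f := fun t => |y a t - y b t| ^ P)
        (fun _ _ => Real.rpow_nonneg (abs_nonneg _) _) (Finset.mem_univ t)
    unfold lpn
    exact Real.rpow_pos_of_pos (lt_of_lt_of_le h1 h2) _
  obtain ⟨z, s, hs, hz⟩ := embed_of_family (V := Fin n)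
    (fun a b => lpn P (fun t => y a t - y b t)) hpos hP hA hε hε' hDd0 hDd w f hw0 hw1 hf hlo hhi
    hN (by simpa using hNB)
  refine ⟨z, s, hs, fun i j => ?_⟩
  by_cases hij : i = j
  · subst hij
    have h0 : ∀ (N' : ℕ) (v : Fin N' → ℝ), (∀ t, v t = 0) → lpn P v = 0 := by
      intro N' v hv
      unfold lpn
      have hP' : (1 / P) ≠ 0 := by positivity
      have hs0 : ∑ t, |v t| ^ P = 0 :=
        Finset.sum_eq_zero (fun t _ => by rw [hv t, abs_zero, Real.zero_rpow hP.ne'])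
      rw [hs0, Real.zero_rpow hP']
    rw [h0 _ _ (fun t => sub_self _), h0 _ _ (fun t => sub_self _)]
    simp
  · exact hz i j hij

end Crest.Agent.LpDimRed
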