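import Mathlib

/-!
# Finite sampling for the `L^p` dimension reduction (row 232, S0358, module M7 of finding #1151; helper71)

Everything is finite: a "random variable" is a finite list of (weight, value) pairs.
`mix q φ l` is the law of `∑_{i ∈ l} ξ_i ε_i φ_i` with independent three point factors:
`0` with probability `1 - q i` and `± φ i` with probability `q i / 2` each.
-/

set_option autoImplicit false

noncomputable section

namespace Crest.Agent.LpDimRed.Sampling

open Real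

variable {W I : Type*}

/-- A finite mixture: a list of (weight, value). -/
abbrev Mix (W : Type*) := List (ℝ × W)

/-- Expectation of `F` under the mixture `L`. -/
noncomputable def Ex (L : Mix W) (F : W → ℝ) : ℝ := (L.map fun x => x.1 * F x.2).sum

@[simp] lemma Ex_nil (F : W → ℝ) : Ex ([] : Mix W) F = 0 := rfl

@[simp] lemma Ex_cons (x : ℝ × W) (L : Mix W) (F : W → ℝ) :
    Ex (x :: L) F = x.1 * F x.2 + Ex L F := by
  simp [Ex]

lemma Ex_append (L M : Mix W) (F : W → ℝ) : Ex (L ++ M) F = Ex L F + Ex M F := by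
  simp [Ex]

lemma Ex_add (L : Mix W) (F G : W → ℝ) : Ex L (fun w => F w + G w) = Ex L F + Ex L G := by
  induction L with
  | nil => simp
  | cons x L ih => simp only [Ex_cons, ih]; ring

lemma Ex_const_mul (L : Mix W) (c : ℝ) (F : W → ℝ) : Ex L (fun w => c * F w) = c * Ex L F := by
  induction L with
  | nil => simp
  | cons x L ih => simp only [Ex_cons, ih]; ring

lemma Ex_sub (L : Mix W) (F G : W → ℝ) : Ex L (fun w => F w - G w) = Ex L F - Ex L G := by
  induction L with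
  | nil => simp
  | cons x L ih => simp only [Ex_cons, ih]; ring

lemma Ex_zero (L : Mix W) : Ex L (fun _ => (0 : ℝ)) = 0 := by
  induction L with
  | nil => simp
  | cons x L ih => simp [ih]

lemma Ex_congr (L : Mix W) {F G : W → ℝ} (h : ∀ w, F w = G w) : Ex L F = Ex L G := by
  have : F = G := funext h
  rw [this]

/-- All weights are nonnegative. -/
def WNonneg (L : Mix W) : Prop := ∀ x ∈ L, 0 ≤ x.1

lemma Ex_mono {L : Mix W} (hL : WNonneg L) {F G : W → ℝ} (h : ∀ w, F w ≤ G w) :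
    Ex L F ≤ Ex L G := by
  induction L with
  | nil => simp
  | cons x L ih =>
    simp only [Ex_cons]
    have hx : 0 ≤ x.1 := hL x (by simp)
    have := ih (fun y hy => hL y (by simp [hy]))
    have h2 := mul_le_mul_of_nonneg_left (h x.2) hx
    linarith

lemma Ex_nonneg {L : Mix W} (hL : WNonneg L) {F : W → ℝ} (h : ∀ w, 0 ≤ F w) : 0 ≤ Ex L F := by
  have := Ex_mono hL (F := fun _ => 0) (G := F) h
  rwa [Ex_zero] at this

section Group

variable [AddCommGroup W]

/-- Add an independent three-point factor: `0` w.p. `1-q`, `±φ` w.p. `q/2`. -/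
def step (q : ℝ) (φ : W) (L : Mix W) : Mix W :=
  L.flatMap fun x => [(x.1 * (1 - q), x.2), (x.1 * (q / 2), x.2 + φ), (x.1 * (q / 2), x.2 - φ)]

lemma Ex_step (q : ℝ) (φ : W) (L : Mix W) (F : W → ℝ) :
    Ex (step q φ L) F = Ex L (fun w => (1 - q) * F w + (q / 2) * F (w + φ) + (q / 2) * F (w - φ)) := by
  induction L with
  | nil => simp [step]
  | cons x L ih =>
    have : step q φ (x :: L) = [(x.1 * (1 - q), x.2), (x.1 * (q / 2), x.2 + φ), (x.1 * (q / 2), x.2 - φ)]
        ++ step q φ L := by simp [step]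
    rw [this, Ex_append, ih, Ex_cons]
    simp only [Ex_cons, Ex_nil]
    ring

lemma WNonneg_step {q : ℝ} (h0 : 0 ≤ q) (h1 : q ≤ 1) (φ : W) {L : Mix W} (hL : WNonneg L) :
    WNonneg (step q φ L) := by
  intro y hy
  simp only [step, List.mem_flatMap] at hy
  obtain ⟨x, hx, hy⟩ := hy
  have hx0 := hL x hx
  simp only [List.mem_cons, List.not_mem_nil, or_false] at hy
  rcases hy with rfl | rfl | rfl
  · exact mul_nonneg hx0 (by linarith)
  · exact mul_nonneg hx0 (by linarith)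
  · exact mul_nonneg hx0 (by linarith)

/-- The law of `∑_{i ∈ l} ξ_i ε_i φ_i`. -/
def mix (q : I → ℝ) (φ : I → W) : List I → Mix W
  | [] => [(1, 0)]
  | i :: l => step (q i) (φ i) (mix q φ l)

lemma Ex_mix_nil (q : I → ℝ) (φ : I → W) (F : W → ℝ) : Ex (mix q φ []) F = F 0 := by
  simp [mix]

lemma Ex_mix_cons (q : I → ℝ) (φ : I → W) (i : I) (l : List I) (F : W → ℝ) :
    Ex (mix q φ (i :: l)) F =
      Ex (mix q φ l) (fun w => (1 - q i) * F w + (q i / 2) * F (w + φ i) + (q i / 2) * F (w - φ i)) := by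
  simp [mix, Ex_step]

lemma WNonneg_mix {q : I → ℝ} (φ : I → W) (h0 : ∀ i, 0 ≤ q i) (h1 : ∀ i, q i ≤ 1) (l : List I) :
    WNonneg (mix q φ l) := by
  induction l with
  | nil => intro x hx; simp [mix] at hx; simp [hx]
  | cons i l ih => exact WNonneg_step (h0 i) (h1 i) _ ih

lemma Ex_mix_one (q : I → ℝ) (φ : I → W) (l : List I) : Ex (mix q φ l) (fun _ => 1) = 1 := by
  induction l with
  | nil => simp [mix]
  | cons i l ih =>
    rw [Ex_mix_cons]
    have : (fun _ : W => (1 - q i) * 1 + (q i / 2) * 1 + (q i / 2) * 1) = fun _ => (1 : ℝ) := by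
      funext _; ring
    rw [this, ih]

lemma Ex_mix_add_const (q : I → ℝ) (φ : I → W) (l : List I) (F : W → ℝ) (c : ℝ) :
    Ex (mix q φ l) (fun w => F w + c) = Ex (mix q φ l) F + c := by
  rw [Ex_add]
  have := Ex_const_mul (mix q φ l) c (fun _ => 1)
  simp only [mul_one] at this
  rw [this, Ex_mix_one, mul_one]

end Group

/-! ### Scalar inequalities -/

lemma abs_rpow_nonneg' (x p : ℝ) : 0 ≤ |x| ^ p := Real.rpow_nonneg (abs_nonneg x) p

/-- power mean for two terms. -/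
lemma mean_rpow_le {p : ℝ} (hp : 1 ≤ p) {s t : ℝ} (hs : 0 ≤ s) (ht : 0 ≤ t) :
    ((s + t) / 2) ^ p ≤ (s ^ p + t ^ p) / 2 := by
  have h := (convexOn_rpow hp).2 (Set.mem_Ici.2 hs) (Set.mem_Ici.2 ht)
    (by norm_num : (0 : ℝ) ≤ 1 / 2) (by norm_num : (0 : ℝ) ≤ 1 / 2) (by norm_num)
  simp only [smul_eq_mul] at h
  have e : 1 / 2 * s + 1 / 2 * t = (s + t) / 2 := by ring
  rw [e] at h
  linarith

lemma midpoint_le {p : ℝ} (hp : 1 ≤ p) (a b : ℝ) :
    |a| ^ p ≤ (|a + b| ^ p + |a - b| ^ p) / 2 := by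
  have h1 : |a| ≤ (|a + b| + |a - b|) / 2 := by
    have : |(a + b) + (a - b)| ≤ |a + b| + |a - b| := abs_add_le _ _
    have e : (a + b) + (a - b) = 2 * a := by ring
    rw [e, abs_mul, abs_two] at this
    linarith
  calc |a| ^ p ≤ ((|a + b| + |a - b|) / 2) ^ p :=
        Real.rpow_le_rpow (abs_nonneg a) h1 (by linarith)
    _ ≤ _ := mean_rpow_le hp (abs_nonneg _) (abs_nonneg _)

lemma abs_rpow_eq_sq_rpow (x p : ℝ) : |x| ^ p = (x ^ 2) ^ (p / 2) := by
  have h : x ^ 2 = |x| ^ (2 : ℝ) := by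
    rw [Real.rpow_two, sq_abs]
  rw [h, ← Real.rpow_mul (abs_nonneg x)]
  congr 1
  ring

/-- Clarkson for `1 ≤ p ≤ 2` (scalars). -/
lemma clarkson_le {p : ℝ} (h1 : 0 ≤ p) (h2 : p ≤ 2) (a b : ℝ) :
    |a + b| ^ p + |a - b| ^ p ≤ 2 * (|a| ^ p + |b| ^ p) := by
  have hr0 : 0 ≤ p / 2 := by linarith
  have hr1 : p / 2 ≤ 1 := by linarith
  rw [abs_rpow_eq_sq_rpow (a + b), abs_rpow_eq_sq_rpow (a - b), abs_rpow_eq_sq_rpow a,
    abs_rpow_eq_sq_rpow b]
  set r := p / 2
  have hc := (Real.concaveOn_rpow hr0 hr1).2 (Set.mem_Ici.2 (sq_nonneg (a + b)))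
    (Set.mem_Ici.2 (sq_nonneg (a - b))) (by norm_num : (0 : ℝ) ≤ 1 / 2)
    (by norm_num : (0 : ℝ) ≤ 1 / 2) (by norm_num)
  simp only [smul_eq_mul] at hc
  have e : 1 / 2 * (a + b) ^ 2 + 1 / 2 * (a - b) ^ 2 = a ^ 2 + b ^ 2 := by ring
  rw [e] at hc
  have hs := Real.rpow_add_le_add_rpow (sq_nonneg a) (sq_nonneg b) hr0 hr1
  linarith

/-- Reverse Clarkson for `p ≥ 2` (scalars). -/
lemma clarkson_ge {p : ℝ} (h2 : 2 ≤ p) (a b : ℝ) :
    2 * (|a| ^ p + |b| ^ p) ≤ |a + b| ^ p + |a - b| ^ p := by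
  have hr1 : 1 ≤ p / 2 := by linarith
  rw [abs_rpow_eq_sq_rpow (a + b), abs_rpow_eq_sq_rpow (a - b), abs_rpow_eq_sq_rpow a,
    abs_rpow_eq_sq_rpow b]
  set r := p / 2
  have hc := (convexOn_rpow hr1).2 (Set.mem_Ici.2 (sq_nonneg (a + b)))
    (Set.mem_Ici.2 (sq_nonneg (a - b))) (by norm_num : (0 : ℝ) ≤ 1 / 2)
    (by norm_num : (0 : ℝ) ≤ 1 / 2) (by norm_num)
  simp only [smul_eq_mul] at hc
  have e : 1 / 2 * (a + b) ^ 2 + 1 / 2 * (a - b) ^ 2 = a ^ 2 + b ^ 2 := by ring
  rw [e] at hc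
  have hs := Real.add_rpow_le_rpow_add (sq_nonneg a) (sq_nonneg b) hr1
  linarith

/-- Weighted convexity: `|x+y|^p ≤ (1+θ)^(p-1) |x|^p + (1+1/θ)^(p-1) |y|^p`. -/
lemma add_rpow_le_weighted {p θ : ℝ} (hp : 1 ≤ p) (hθ : 0 < θ) (x y : ℝ) :
    |x + y| ^ p ≤ (1 + θ) ^ (p - 1) * |x| ^ p + (1 + 1 / θ) ^ (p - 1) * |y| ^ p := by
  have h1θ : 0 < 1 + θ := by linarith
  have h1θ' : 0 < 1 + 1 / θ := by positivity
  set α : ℝ := 1 / (1 + θ)
  set β : ℝ := θ / (1 + θ)
  have hα : 0 ≤ α := by positivity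
  have hβ : 0 ≤ β := by positivity
  have hαβ : α + β = 1 := by simp only [α, β]; field_simp
  have hx : 0 ≤ (1 + θ) * |x| := by positivity
  have hy : 0 ≤ (1 + 1 / θ) * |y| := by positivity
  have hc := (convexOn_rpow hp).2 (Set.mem_Ici.2 hx) (Set.mem_Ici.2 hy) hα hβ hαβ
  simp only [smul_eq_mul] at hc
  have e1 : α * ((1 + θ) * |x|) = |x| := by simp only [α]; field_simp
  have e2 : β * ((1 + 1 / θ) * |y|) = |y| := by simp only [β]; field_simp; ring
  rw [e1, e2] at hc
  have e3 : α * ((1 + θ) * |x|) ^ p = (1 + θ) ^ (p - 1) * |x| ^ p := by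
    rw [Real.mul_rpow h1θ.le (abs_nonneg x), Real.rpow_sub_one h1θ.ne']
    simp only [α]; field_simp
  have e4 : β * ((1 + 1 / θ) * |y|) ^ p = (1 + 1 / θ) ^ (p - 1) * |y| ^ p := by
    rw [Real.mul_rpow h1θ'.le (abs_nonneg y), Real.rpow_sub_one h1θ'.ne']
    have : β = 1 / (1 + 1 / θ) := by simp only [β]; field_simp; ring
    rw [this]; field_simp
  rw [e3, e4] at hc
  calc |x + y| ^ p ≤ (|x| + |y|) ^ p :=
        Real.rpow_le_rpow (abs_nonneg _) (abs_add_le _ _) (by linarith)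
    _ ≤ _ := hc

/-- `cosh z ≤ 1 + z²` for `|z| ≤ 1`. -/
lemma cosh_le_one_add_sq {z : ℝ} (hz : |z| ≤ 1) : Real.cosh z ≤ 1 + z ^ 2 := by
  have h1 := Real.cosh_le_exp_half_sq z
  have hz2 : z ^ 2 ≤ 1 := by
    have := sq_le_sq' (abs_le.1 hz).1 (abs_le.1 hz).2
    simpa using this
  have ht0 : 0 ≤ z ^ 2 / 2 := by positivity
  have ht1 : z ^ 2 / 2 ≤ 1 / 2 := by linarith
  -- `exp t ≤ 1 + 2t` on `[0,1/2]`
  have h2 : Real.exp (z ^ 2 / 2) ≤ 1 + z ^ 2 := by
    set t := z ^ 2 / 2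
    have h3 : 1 - t ≤ Real.exp (-t) := by
      have := Real.add_one_le_exp (-t); linarith
    have h4 : Real.exp t * Real.exp (-t) = 1 := by
      rw [← Real.exp_add]; simp
    have hpos : 0 < Real.exp t := Real.exp_pos t
    have h5 : Real.exp t * (1 - t) ≤ 1 := by
      calc Real.exp t * (1 - t) ≤ Real.exp t * Real.exp (-t) :=
            mul_le_mul_of_nonneg_left h3 hpos.le
        _ = 1 := h4
    have h6 : z ^ 2 = 2 * t := by simp only [t]; ring
    rw [h6]
    -- (1+2t)(1-t) ≥ 1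
    have h7 : 1 ≤ (1 + 2 * t) * (1 - t) := by nlinarith
    have h8 : 0 < 1 - t := by linarith
    by_contra hcon
    have hcon' := not_le.1 hcon
    nlinarith
  linarith

/-- The mgf factor of a three-point variable. -/
lemma three_point_exp {q z x : ℝ} (h0 : 0 ≤ q) (hz : |z| ≤ 1) :
    (1 - q) * Real.exp x + (q / 2) * Real.exp (x + z) + (q / 2) * Real.exp (x - z)
      ≤ Real.exp (q * z ^ 2) * Real.exp x := by
  have e : (1 - q) * Real.exp x + (q / 2) * Real.exp (x + z) + (q / 2) * Real.exp (x - z)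
      = (1 - q + q * Real.cosh z) * Real.exp x := by
    rw [Real.exp_add, sub_eq_add_neg x z, Real.exp_add, Real.cosh_eq]
    ring
  rw [e]
  have h1 := cosh_le_one_add_sq hz
  have h2 : 1 - q + q * Real.cosh z ≤ 1 + q * z ^ 2 := by nlinarith
  have h3 : 1 + q * z ^ 2 ≤ Real.exp (q * z ^ 2) := by
    have := Real.add_one_le_exp (q * z ^ 2); linarith
  exact mul_le_mul_of_nonneg_right (h2.trans h3) (Real.exp_pos x).le

/-- `t^r ≤ r^r e^t`, for `t ≥ 0`. -/
lemma rpow_le_exp_mul {r t : ℝ} (hr : 0 < r) (ht : 0 ≤ t) :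
    t ^ r ≤ r ^ r * Real.exp t := by
  have h1 : t / r ≤ Real.exp (t / r) := by
    have := Real.add_one_le_exp (t / r); linarith
  have h2 : (t / r) ^ r ≤ (Real.exp (t / r)) ^ r :=
    Real.rpow_le_rpow (by positivity) h1 hr.le
  have h3 : (Real.exp (t / r)) ^ r = Real.exp t := by
    rw [← Real.exp_mul]; congr 1; field_simp
  rw [h3, Real.div_rpow ht hr.le] at h2
  have hrr : 0 < r ^ r := Real.rpow_pos_of_pos hr r
  rw [div_le_iff₀ hrr] at h2
  linarith

/-! ### Moments of `mix` along an additive functional -/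

section Moments

variable [AddCommGroup W] (q : I → ℝ) (φ : I → W) (ℓ : W →+ ℝ)

/-- Upper moment bound, `p ≤ 2` (Clarkson). -/
lemma mom_le_of_le_two {p : ℝ} (hp1 : 1 ≤ p) (hp2 : p ≤ 2) (h0 : ∀ i, 0 ≤ q i) (h1 : ∀ i, q i ≤ 1)
    (l : List I) :
    Ex (mix q φ l) (fun w => |ℓ w| ^ p) ≤ (l.map fun i => q i * |ℓ (φ i)| ^ p).sum := by
  induction l with
  | nil =>
    rw [Ex_mix_nil]
    simp only [map_zero, abs_zero, List.map_nil, List.sum_nil]
    rw [Real.zero_rpow (by linarith)]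
  | cons i l ih =>
    rw [Ex_mix_cons, List.map_cons, List.sum_cons]
    have hL := WNonneg_mix φ h0 h1 l
    have key : ∀ w : W, (1 - q i) * |ℓ w| ^ p + (q i / 2) * |ℓ (w + φ i)| ^ p
        + (q i / 2) * |ℓ (w - φ i)| ^ p ≤ |ℓ w| ^ p + q i * |ℓ (φ i)| ^ p := by
      intro w
      have := clarkson_le (by linarith) hp2 (ℓ w) (ℓ (φ i))
      rw [map_add, map_sub]
      have hq := h0 i
      nlinarith
    have h2 := Ex_mono hL key
    rw [Ex_mix_add_const q φ l (fun w => |ℓ w| ^ p) (q i * |ℓ (φ i)| ^ p)] at h2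
    linarith

/-- Lower moment bound, `p ≥ 2` (reverse Clarkson). -/
lemma mom_ge_of_ge_two {p : ℝ} (hp2 : 2 ≤ p) (h0 : ∀ i, 0 ≤ q i) (h1 : ∀ i, q i ≤ 1)
    (l : List I) :
    (l.map fun i => q i * |ℓ (φ i)| ^ p).sum ≤ Ex (mix q φ l) (fun w => |ℓ w| ^ p) := by
  induction l with
  | nil =>
    rw [Ex_mix_nil]
    simp only [map_zero, abs_zero, List.map_nil, List.sum_nil]
    rw [Real.zero_rpow (by linarith)]
  | cons i l ih =>
    rw [Ex_mix_cons, List.map_cons, List.sum_cons]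
    have hL := WNonneg_mix φ h0 h1 l
    have key : ∀ w : W, |ℓ w| ^ p + q i * |ℓ (φ i)| ^ p ≤ (1 - q i) * |ℓ w| ^ p
        + (q i / 2) * |ℓ (w + φ i)| ^ p + (q i / 2) * |ℓ (w - φ i)| ^ p := by
      intro w
      have := clarkson_ge hp2 (ℓ w) (ℓ (φ i))
      rw [map_add, map_sub]
      have hq := h0 i
      nlinarith
    have h2 := Ex_mono hL key
    rw [Ex_mix_add_const q φ l (fun w => |ℓ w| ^ p) (q i * |ℓ (φ i)| ^ p)] at h2
    linarith

/-- Lower moment bound for any `p ≥ 1` restricted to a set `B` of indices: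
`E|S|^p ≥ (1 - Q_B) Σ_B q_i |z_i|^p`. -/
lemma mom_ge_subset {p : ℝ} (hp1 : 1 ≤ p) (h0 : ∀ i, 0 ≤ q i) (h1 : ∀ i, q i ≤ 1)
    (B : I → Prop) [DecidablePred B] (l : List I) :
    (1 - (l.map fun i => if B i then q i else 0).sum)
        * (l.map fun i => if B i then q i * |ℓ (φ i)| ^ p else 0).sum
      ≤ Ex (mix q φ l) (fun w => |ℓ w| ^ p) := by
  have hp0 : p ≠ 0 := by linarith
  induction l with
  | nil =>
    rw [Ex_mix_nil]
    simp [Real.zero_rpow hp0]
  | cons i l ih =>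
    rw [Ex_mix_cons, List.map_cons, List.sum_cons, List.map_cons, List.sum_cons]
    have hL := WNonneg_mix φ h0 h1 l
    have hQ : 0 ≤ (l.map fun i => if B i then q i else 0).sum := by
      apply List.sum_nonneg
      intro x hx
      simp only [List.mem_map] at hx
      obtain ⟨j, _, rfl⟩ := hx
      split_ifs
      · exact h0 j
      · exact le_rfl
    have hK : 0 ≤ (l.map fun i => if B i then q i * |ℓ (φ i)| ^ p else 0).sum := by
      apply List.sum_nonneg
      intro x hx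
      simp only [List.mem_map] at hx
      obtain ⟨j, _, rfl⟩ := hx
      split_ifs
      · exact mul_nonneg (h0 j) (abs_rpow_nonneg' _ _)
      · exact le_rfl
    by_cases hB : B i
    · simp only [hB, if_true]
      set Q := (l.map fun i => if B i then q i else 0).sum
      set K := (l.map fun i => if B i then q i * |ℓ (φ i)| ^ p else 0).sum
      set Y := q i * |ℓ (φ i)| ^ p with hY
      have hY0 : 0 ≤ Y := mul_nonneg (h0 i) (abs_rpow_nonneg' _ _)
      have key : ∀ w : W, (1 - q i) * |ℓ w| ^ p + Y ≤ (1 - q i) * |ℓ w| ^ p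
          + (q i / 2) * |ℓ (w + φ i)| ^ p + (q i / 2) * |ℓ (w - φ i)| ^ p := by
        intro w
        have h := midpoint_le hp1 (ℓ (φ i)) (ℓ w)
        rw [map_add, map_sub]
        have e1 : |ℓ (φ i) + ℓ w| = |ℓ w + ℓ (φ i)| := by rw [add_comm]
        have e2 : |ℓ (φ i) - ℓ w| = |ℓ w - ℓ (φ i)| := abs_sub_comm _ _
        rw [e1, e2] at h
        have hq := h0 i
        rw [hY]
        nlinarith
      have h2 := Ex_mono hL key
      rw [Ex_mix_add_const q φ l (fun w => (1 - q i) * |ℓ w| ^ p) Y, Ex_const_mul] at h2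
      have hq1 : 0 ≤ 1 - q i := by linarith [h1 i]
      have h4 := mul_le_mul_of_nonneg_left ih hq1
      have hq0 := h0 i
      have h5 : (1 - (q i + Q)) * (Y + K) ≤ (1 - q i) * ((1 - Q) * K) + Y := by
        nlinarith [mul_nonneg hq0 hQ, mul_nonneg (mul_nonneg hq0 hQ) hK, mul_nonneg hQ hY0,
          mul_nonneg hq0 hY0]
      linarith
    · simp only [hB, if_false, zero_add]
      have key : ∀ w : W, |ℓ w| ^ p ≤ (1 - q i) * |ℓ w| ^ p
          + (q i / 2) * |ℓ (w + φ i)| ^ p + (q i / 2) * |ℓ (w - φ i)| ^ p := by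
        intro w
        have h := midpoint_le hp1 (ℓ w) (ℓ (φ i))
        rw [map_add, map_sub]
        have hq := h0 i
        nlinarith
      have h2 := Ex_mono hL key
      linarith

/-- Exponential moment. -/
lemma mgf_le {t : ℝ} (h0 : ∀ i, 0 ≤ q i) (h1 : ∀ i, q i ≤ 1) (l : List I)
    (hz : ∀ i ∈ l, |t * ℓ (φ i)| ≤ 1) :
    Ex (mix q φ l) (fun w => Real.exp (t * ℓ w))
      ≤ Real.exp ((l.map fun i => q i * (t * ℓ (φ i)) ^ 2).sum) := by
  induction l with
  | nil =>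
    rw [Ex_mix_nil]
    simp
  | cons i l ih =>
    rw [Ex_mix_cons, List.map_cons, List.sum_cons, Real.exp_add]
    have hL := WNonneg_mix φ h0 h1 l
    have key : ∀ w : W, (1 - q i) * Real.exp (t * ℓ w) + (q i / 2) * Real.exp (t * ℓ (w + φ i))
        + (q i / 2) * Real.exp (t * ℓ (w - φ i))
        ≤ Real.exp (q i * (t * ℓ (φ i)) ^ 2) * Real.exp (t * ℓ w) := by
      intro w
      have := three_point_exp (x := t * ℓ w) (h0 i) (hz i (by simp))
      rw [map_add, map_sub, mul_add, mul_sub]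
      exact this
    have h2 := Ex_mono hL key
    rw [Ex_const_mul] at h2
    refine h2.trans ?_
    exact mul_le_mul_of_nonneg_left (ih (fun j hj => hz j (by simp [hj]))) (Real.exp_pos _).le

/-- Tail bound (Chernoff). -/
lemma tail_le {K : ℝ} (hK : 0 < K) (h0 : ∀ i, 0 ≤ q i) (h1 : ∀ i, q i ≤ 1) (l : List I)
    (hz : ∀ i ∈ l, |ℓ (φ i)| ≤ K) {V₁ : ℝ}
    (hV : (l.map fun i => q i * (ℓ (φ i) / K) ^ 2).sum ≤ V₁) :
    Ex (mix q φ l) (fun w => Real.exp (ℓ w / K) + Real.exp (-(ℓ w / K))) ≤ 2 * Real.exp V₁ := by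
  have hL := WNonneg_mix φ h0 h1 l
  have h1' : Ex (mix q φ l) (fun w => Real.exp ((1 / K) * ℓ w)) ≤
      Real.exp ((l.map fun i => q i * ((1 / K) * ℓ (φ i)) ^ 2).sum) := by
    apply mgf_le q φ ℓ h0 h1 l
    intro i hi
    rw [abs_mul, abs_of_pos (by positivity : (0 : ℝ) < 1 / K), one_div, inv_mul_le_iff₀ hK]
    simpa using hz i hi
  have h2' : Ex (mix q φ l) (fun w => Real.exp ((-1 / K) * ℓ w)) ≤
      Real.exp ((l.map fun i => q i * ((-1 / K) * ℓ (φ i)) ^ 2).sum) := by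
    apply mgf_le q φ ℓ h0 h1 l
    intro i hi
    have : -1 / K * ℓ (φ i) = -(ℓ (φ i) / K) := by ring
    rw [this, abs_neg, abs_div, abs_of_pos hK, div_le_one hK]
    exact hz i hi
  have e1 : (l.map fun i => q i * ((1 / K) * ℓ (φ i)) ^ 2)
      = (l.map fun i => q i * (ℓ (φ i) / K) ^ 2) := by
    apply List.map_congr_left
    intro i _
    ring
  have e2 : (l.map fun i => q i * ((-1 / K) * ℓ (φ i)) ^ 2)
      = (l.map fun i => q i * (ℓ (φ i) / K) ^ 2) := by
    apply List.map_congr_left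
    intro i _
    ring
  rw [e1] at h1'
  rw [e2] at h2'
  have h3 : Ex (mix q φ l) (fun w => Real.exp (ℓ w / K) + Real.exp (-(ℓ w / K)))
      = Ex (mix q φ l) (fun w => Real.exp ((1 / K) * ℓ w))
        + Ex (mix q φ l) (fun w => Real.exp ((-1 / K) * ℓ w)) := by
    rw [← Ex_add]
    apply Ex_congr
    intro w
    congr 2
    · ring
    · ring
  rw [h3]
  have h4 := Real.exp_le_exp.2 hV
  linarith

/-- A list sum of nonnegative terms is nonnegative (local helper). -/
lemma list_map_sum_nonneg (l : List I) (g : I → ℝ) (h : ∀ i, 0 ≤ g i) : 0 ≤ (l.map g).sum := by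
  apply List.sum_nonneg
  intro x hx
  simp only [List.mem_map] at hx
  obtain ⟨j, _, rfl⟩ := hx
  exact h j

/-- Moment bound for a sum of "large" items: `E|S|^p ≤ exp((A-1)Q) B K`, where
`A = (1+1/θ)^(p-1)`, `B = (1+θ)^(p-1)`, `Q` is the total activation probability of the items with
`ℓ φ_i ≠ 0` and `K = Σ q_i |ℓ φ_i|^p`. -/
lemma mom_le_big {p θ : ℝ} (hp : 1 ≤ p) (hθ : 0 < θ) (h0 : ∀ i, 0 ≤ q i) (h1 : ∀ i, q i ≤ 1)
    (l : List I) [DecidableEq ℝ] :
    Ex (mix q φ l) (fun w => |ℓ w| ^ p)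
      ≤ Real.exp (((1 + 1 / θ) ^ (p - 1) - 1) * (l.map fun i => if ℓ (φ i) = 0 then 0 else q i).sum)
        * ((1 + θ) ^ (p - 1) * (l.map fun i => q i * |ℓ (φ i)| ^ p).sum) := by
  have hp0 : p ≠ 0 := by linarith
  have hp' : 0 ≤ p - 1 := by linarith
  set A := (1 + 1 / θ) ^ (p - 1) with hA
  set B := (1 + θ) ^ (p - 1) with hB
  have hA1 : 1 ≤ A := Real.one_le_rpow (by have : 0 < 1 / θ := by positivity
                                           linarith) hp'
  have hB1 : 1 ≤ B := Real.one_le_rpow (by linarith) hp'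
  induction l with
  | nil =>
    rw [Ex_mix_nil]
    simp [Real.zero_rpow hp0]
  | cons i l ih =>
    rw [Ex_mix_cons, List.map_cons, List.sum_cons, List.map_cons, List.sum_cons]
    have hL := WNonneg_mix φ h0 h1 l
    set Q := (l.map fun i => if ℓ (φ i) = 0 then 0 else q i).sum with hQdef
    set K := (l.map fun i => q i * |ℓ (φ i)| ^ p).sum with hKdef
    have hQ : 0 ≤ Q := list_map_sum_nonneg l _ (fun j => by
      split_ifs
      · exact le_rfl
      · exact h0 j)
    have hK : 0 ≤ K := list_map_sum_nonneg l _ (fun j => mul_nonneg (h0 j) (abs_rpow_nonneg' _ _))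
    by_cases hz : ℓ (φ i) = 0
    · have e : ∀ w : W, (1 - q i) * |ℓ w| ^ p + (q i / 2) * |ℓ (w + φ i)| ^ p
          + (q i / 2) * |ℓ (w - φ i)| ^ p = |ℓ w| ^ p := by
        intro w
        rw [map_add, map_sub, hz, add_zero, sub_zero]
        ring
      rw [Ex_congr _ e]
      simp only [hz, if_true, zero_add, abs_zero, Real.zero_rpow hp0, mul_zero]
      exact ih
    · simp only [hz, if_false]
      set z := ℓ (φ i) with hzdef
      set Y := |z| ^ p with hY
      have hY0 : 0 ≤ Y := abs_rpow_nonneg' _ _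
      have hq0 := h0 i
      have key : ∀ w : W, (1 - q i) * |ℓ w| ^ p + (q i / 2) * |ℓ (w + φ i)| ^ p
          + (q i / 2) * |ℓ (w - φ i)| ^ p
          ≤ (1 + q i * (A - 1)) * |ℓ w| ^ p + q i * B * Y := by
        intro w
        rw [map_add, map_sub, ← hzdef]
        have h3 := add_rpow_le_weighted hp hθ z (ℓ w)
        have h4 := add_rpow_le_weighted hp hθ (-z) (ℓ w)
        rw [abs_neg, ← hY, ← hA, ← hB] at h4
        rw [← hY, ← hA, ← hB] at h3
        have e1 : |ℓ w + z| = |z + ℓ w| := by rw [add_comm]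
        have e2 : |ℓ w - z| = |-z + ℓ w| := by congr 1; ring
        rw [e1, e2]
        have h3' := mul_le_mul_of_nonneg_left h3 (by linarith : 0 ≤ q i / 2)
        have h4' := mul_le_mul_of_nonneg_left h4 (by linarith : 0 ≤ q i / 2)
        nlinarith
      have h2 := Ex_mono hL key
      rw [Ex_mix_add_const q φ l (fun w => (1 + q i * (A - 1)) * |ℓ w| ^ p) (q i * B * Y),
        Ex_const_mul] at h2
      have hfac : 0 ≤ 1 + q i * (A - 1) := by nlinarith
      have h5 := mul_le_mul_of_nonneg_left ih hfac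
      have hA' : 0 ≤ A - 1 := by linarith
      have hE1 : 1 + q i * (A - 1) ≤ Real.exp ((A - 1) * q i) := by
        have := Real.add_one_le_exp ((A - 1) * q i)
        nlinarith
      have hΘ : 1 ≤ Real.exp ((A - 1) * q i) :=
        Real.one_le_exp (mul_nonneg hA' hq0)
      have hΞ : 1 ≤ Real.exp ((A - 1) * Q) :=
        Real.one_le_exp (mul_nonneg hA' hQ)
      have eexp : Real.exp ((A - 1) * (q i + Q))
          = Real.exp ((A - 1) * q i) * Real.exp ((A - 1) * Q) := by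
        rw [← Real.exp_add]; congr 1; ring
      rw [eexp]
      set Θ := Real.exp ((A - 1) * q i)
      set Ξ := Real.exp ((A - 1) * Q)
      have hBK : 0 ≤ B * K := mul_nonneg (by linarith) hK
      have hqBY : 0 ≤ q i * B * Y := mul_nonneg (mul_nonneg hq0 (by linarith)) hY0
      have h6 : (1 + q i * (A - 1)) * (Ξ * (B * K)) ≤ Θ * (Ξ * (B * K)) :=
        mul_le_mul_of_nonneg_right hE1 (mul_nonneg (by linarith) hBK)
      have h7 : q i * B * Y ≤ Θ * Ξ * (q i * B * Y) := by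
        have : 1 ≤ Θ * Ξ := by nlinarith
        nlinarith
      have e3 : Θ * Ξ * (B * (q i * Y + K)) = Θ * (Ξ * (B * K)) + Θ * Ξ * (q i * B * Y) := by ring
      rw [e3]
      linarith

/-- Moments from the exponential moment: `E|S|^r ≤ r^r K^r · 2 exp V₁`. -/
lemma mom_le_of_mgf {r K V₁ : ℝ} (hr : 0 < r) (hK : 0 < K) (h0 : ∀ i, 0 ≤ q i) (h1 : ∀ i, q i ≤ 1)
    (l : List I) (hz : ∀ i ∈ l, |ℓ (φ i)| ≤ K)
    (hV : (l.map fun i => q i * (ℓ (φ i) / K) ^ 2).sum ≤ V₁) :
    Ex (mix q φ l) (fun w => |ℓ w| ^ r) ≤ r ^ r * K ^ r * (2 * Real.exp V₁) := by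
  have hL := WNonneg_mix φ h0 h1 l
  have ht := tail_le q φ ℓ hK h0 h1 l hz hV
  have key : ∀ w : W, |ℓ w| ^ r ≤ (r ^ r * K ^ r) * (Real.exp (ℓ w / K) + Real.exp (-(ℓ w / K))) := by
    intro w
    set x := ℓ w
    have h2 : |x| ^ r = K ^ r * (|x| / K) ^ r := by
      rw [Real.div_rpow (abs_nonneg x) hK.le]
      have : K ^ r ≠ 0 := (Real.rpow_pos_of_pos hK r).ne'
      field_simp
    have h3 := rpow_le_exp_mul hr (by positivity : 0 ≤ |x| / K)
    have h4 : Real.exp (|x| / K) ≤ Real.exp (x / K) + Real.exp (-(x / K)) := by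
      rcases abs_cases x with ⟨h, _⟩ | ⟨h, _⟩
      · rw [h]; have := Real.exp_pos (-(x / K)); linarith
      · rw [h, neg_div]; have := Real.exp_pos (x / K); linarith
    have hKr : 0 < K ^ r := Real.rpow_pos_of_pos hK r
    have hrr : 0 < r ^ r := Real.rpow_pos_of_pos hr r
    rw [h2]
    calc K ^ r * (|x| / K) ^ r ≤ K ^ r * (r ^ r * Real.exp (|x| / K)) :=
          mul_le_mul_of_nonneg_left h3 hKr.le
      _ ≤ K ^ r * (r ^ r * (Real.exp (x / K) + Real.exp (-(x / K)))) := by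
          apply mul_le_mul_of_nonneg_left _ hKr.le
          exact mul_le_mul_of_nonneg_left h4 hrr.le
      _ = _ := by ring
  have h5 := Ex_mono hL key
  rw [Ex_const_mul] at h5
  have hnn : 0 ≤ r ^ r * K ^ r :=
    mul_nonneg (Real.rpow_pos_of_pos hr r).le (Real.rpow_pos_of_pos hK r).le
  exact h5.trans (mul_le_mul_of_nonneg_left ht hnn)

open Classical in
/-- Tail bound: `P(|S| > K u) ≤ 2 exp (V₁ - u)`. -/
lemma prob_tail_le {K u V₁ : ℝ} (hK : 0 < K) (h0 : ∀ i, 0 ≤ q i) (h1 : ∀ i, q i ≤ 1)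
    (l : List I) (hz : ∀ i ∈ l, |ℓ (φ i)| ≤ K)
    (hV : (l.map fun i => q i * (ℓ (φ i) / K) ^ 2).sum ≤ V₁) :
    Ex (mix q φ l) (fun w => if K * u < |ℓ w| then 1 else 0) ≤ 2 * Real.exp (V₁ - u) := by
  have hL := WNonneg_mix φ h0 h1 l
  have ht := tail_le q φ ℓ hK h0 h1 l hz hV
  have key : ∀ w : W, (if K * u < |ℓ w| then (1 : ℝ) else 0)
      ≤ Real.exp (-u) * (Real.exp (ℓ w / K) + Real.exp (-(ℓ w / K))) := by
    intro w
    set x := ℓ w
    have hpos : 0 ≤ Real.exp (-u) * (Real.exp (x / K) + Real.exp (-(x / K))) := by positivity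
    split_ifs with h
    · have h2 : u < |x| / K := by rwa [lt_div_iff₀ hK, mul_comm]
      have h3 : 1 ≤ Real.exp (-u) * Real.exp (|x| / K) := by
        rw [← Real.exp_add]
        exact Real.one_le_exp (by linarith)
      have h4 : Real.exp (|x| / K) ≤ Real.exp (x / K) + Real.exp (-(x / K)) := by
        rcases abs_cases x with ⟨h, _⟩ | ⟨h, _⟩
        · rw [h]; have := Real.exp_pos (-(x / K)); linarith
        · rw [h, neg_div]; have := Real.exp_pos (x / K); linarith
      have h5 := mul_le_mul_of_nonneg_left h4 (Real.exp_pos (-u)).le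
      linarith
    · exact hpos
  have h5 := Ex_mono hL key
  rw [Ex_const_mul] at h5
  refine h5.trans ?_
  have e : 2 * Real.exp (V₁ - u) = Real.exp (-u) * (2 * Real.exp V₁) := by
    rw [sub_eq_add_neg, Real.exp_add]; ring
  rw [e]
  exact mul_le_mul_of_nonneg_left ht (Real.exp_pos _).le

end Moments

/-! ### Truncation -/

section Trunc

variable [AddCommGroup W]

open Classical in
/-- Replace the value by `0` off the good event. -/
def trunc (G : W → Prop) (L : Mix W) : Mix W :=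
  L.map fun x => (x.1, if G x.2 then x.2 else 0)

open Classical in
lemma Ex_trunc (G : W → Prop) (L : Mix W) (F : W → ℝ) :
    Ex (trunc G L) F = Ex L (fun w => F (if G w then w else 0)) := by
  induction L with
  | nil => simp [trunc]
  | cons x L ih =>
    have : trunc G (x :: L) = (x.1, if G x.2 then x.2 else 0) :: trunc G L := by simp [trunc]
    rw [this, Ex_cons, Ex_cons, ih]

lemma WNonneg_trunc (G : W → Prop) {L : Mix W} (hL : WNonneg L) : WNonneg (trunc G L) := by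
  intro y hy
  simp only [trunc, List.mem_map] at hy
  obtain ⟨x, hx, rfl⟩ := hy
  exact hL x hx

open Classical in
lemma mem_trunc_value (G : W → Prop) {L : Mix W} {y : ℝ × W} (hy : y ∈ trunc G L) :
    G y.2 ∨ y.2 = 0 := by
  simp only [trunc, List.mem_map] at hy
  obtain ⟨x, _, rfl⟩ := hy
  by_cases h : G x.2
  · left; simp [h]
  · right; simp [h]

omit [AddCommGroup W] in
lemma Ex_sum {E : Type*} (L : Mix W) (s : Finset E) (F : E → W → ℝ) :
    Ex L (fun w => ∑ e ∈ s, F e w) = ∑ e ∈ s, Ex L (F e) := by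
  classical
  induction s using Finset.induction_on with
  | empty => simp [Ex_zero]
  | insert a s ha ih =>
    simp only [Finset.sum_insert ha]
    rw [Ex_add, ih]

/-- Loss under truncation: auxiliary form for an abstract good event `G`. -/
theorem trunc_moment_aux {E : Type*} [Fintype E] (q : I → ℝ) (φ : I → W) (ℓ : E → W →+ ℝ)
    {p K u V₁ τ : ℝ} (hp : 0 < p) (hK : 0 < K) (hτ : 0 < τ)
    (h0 : ∀ i, 0 ≤ q i) (h1 : ∀ i, q i ≤ 1) (l : List I)
    (hz : ∀ e, ∀ i ∈ l, |ℓ e (φ i)| ≤ K)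
    (hV : ∀ e, (l.map fun i => q i * (ℓ e (φ i) / K) ^ 2).sum ≤ V₁)
    (hu : 2 * (Fintype.card E : ℝ) * Real.exp (V₁ - u)
        * ((2 * p) ^ (2 * p) * K ^ (2 * p) * (2 * Real.exp V₁)) ≤ τ ^ 2) (e : E)
    (G : W → Prop) (hG : ∀ w, ¬ G w → ∃ e', K * u < |ℓ e' w|) :
    Ex (mix q φ l) (fun w => |ℓ e w| ^ p) - τ
        ≤ Ex (trunc G (mix q φ l)) (fun w => |ℓ e w| ^ p) ∧
      Ex (trunc G (mix q φ l)) (fun w => |ℓ e w| ^ p)
        ≤ Ex (mix q φ l) (fun w => |ℓ e w| ^ p) := by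
  classical
  have hL := WNonneg_mix φ h0 h1 l
  set L := mix q φ l with hLdef
  have hp0 : p ≠ 0 := hp.ne'
  set F : W → ℝ := fun w => |ℓ e w| ^ p with hF
  rw [Ex_trunc]
  have hF0 : ∀ w, 0 ≤ F w := fun w => abs_rpow_nonneg' _ _
  have hFz : F 0 = 0 := by simp [hF, Real.zero_rpow hp0]
  have e1 : ∀ w, F (if G w then w else 0) = if G w then F w else 0 := by
    intro w
    split_ifs
    · rfl
    · exact hFz
  refine ⟨?_, ?_⟩
  · -- lower bound
    set X := (2 * p) ^ (2 * p) * K ^ (2 * p) * (2 * Real.exp V₁) with hX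
    have hXpos : 0 < X := by
      have h1 : 0 < (2 * p) ^ (2 * p) := Real.rpow_pos_of_pos (by linarith) _
      have h2 : 0 < K ^ (2 * p) := Real.rpow_pos_of_pos hK _
      have h3 := Real.exp_pos V₁
      positivity
    set η := τ / X with hη
    have hηpos : 0 < η := div_pos hτ hXpos
    -- pointwise bound
    have key : ∀ w, F w ≤ F (if G w then w else 0)
        + (η / 2 * |ℓ e w| ^ (2 * p)
          + (1 / (2 * η)) * ∑ e', if K * u < |ℓ e' w| then (1 : ℝ) else 0) := by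
      intro w
      rw [e1]
      have hs : 0 ≤ ∑ e', if K * u < |ℓ e' w| then (1 : ℝ) else 0 :=
        Finset.sum_nonneg (fun _ _ => by split_ifs <;> norm_num)
      have hsq : 0 ≤ |ℓ e w| ^ (2 * p) := abs_rpow_nonneg' _ _
      by_cases hg : G w
      · simp only [hg, if_true]
        have : 0 ≤ η / 2 * |ℓ e w| ^ (2 * p)
            + (1 / (2 * η)) * ∑ e', if K * u < |ℓ e' w| then (1 : ℝ) else 0 := by positivity
        linarith
      · simp only [hg, if_false, zero_add]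
        obtain ⟨e', he'⟩ := hG w hg
        have hs1 : 1 ≤ ∑ e', if K * u < |ℓ e' w| then (1 : ℝ) else 0 := by
          have := Finset.single_le_sum (f := fun e'' => if K * u < |ℓ e'' w| then (1 : ℝ) else 0)
            (fun _ _ => by split_ifs <;> norm_num) (Finset.mem_univ e')
          simpa [he'] using this
        -- `F ≤ η/2 F² + 1/(2η)`
        have hsq' : |ℓ e w| ^ (2 * p) = F w ^ 2 := by
          simp only [hF]
          rw [← Real.rpow_natCast, ← Real.rpow_mul (abs_nonneg _)]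
          congr 1
          push_cast
          ring
        rw [hsq']
        have h3 : F w ≤ η / 2 * F w ^ 2 + 1 / (2 * η) := by
          have h4 : 0 ≤ (η * F w - 1) ^ 2 := sq_nonneg _
          have h5 : η / 2 * F w ^ 2 + 1 / (2 * η) - F w = (η * F w - 1) ^ 2 / (2 * η) := by
            field_simp
            ring
          have h6 : 0 ≤ (η * F w - 1) ^ 2 / (2 * η) := by positivity
          linarith
        have h7 : 1 / (2 * η) ≤ (1 / (2 * η)) * ∑ e', if K * u < |ℓ e' w| then (1 : ℝ) else 0 := by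
          have : 0 < 1 / (2 * η) := by positivity
          nlinarith
        linarith
    have h2 := Ex_mono hL key
    rw [Ex_add, Ex_add, Ex_const_mul, Ex_const_mul, Ex_sum] at h2
    -- moment bound
    have hm : Ex L (fun w => |ℓ e w| ^ (2 * p)) ≤ X :=
      mom_le_of_mgf q φ (ℓ e) (by linarith) hK h0 h1 l (hz e) (hV e)
    have hP : ∑ e', Ex L (fun w => if K * u < |ℓ e' w| then (1 : ℝ) else 0)
        ≤ (Fintype.card E : ℝ) * (2 * Real.exp (V₁ - u)) := by
      have : ∀ e' ∈ (Finset.univ : Finset E),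
          Ex L (fun w => if K * u < |ℓ e' w| then (1 : ℝ) else 0) ≤ 2 * Real.exp (V₁ - u) := by
        intro e' _
        have := prob_tail_le (u := u) q φ (ℓ e') hK h0 h1 l (hz e') (hV e')
        convert this using 2
      calc _ ≤ ∑ _e' : E, 2 * Real.exp (V₁ - u) := Finset.sum_le_sum this
        _ = _ := by simp
    -- combine
    have h3 : η / 2 * Ex L (fun w => |ℓ e w| ^ (2 * p)) ≤ τ / 2 := by
      have : η / 2 * Ex L (fun w => |ℓ e w| ^ (2 * p)) ≤ η / 2 * X :=
        mul_le_mul_of_nonneg_left hm (by positivity)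
      have e2 : η / 2 * X = τ / 2 := by
        simp only [hη]; field_simp
      linarith
    have h4 : (1 / (2 * η)) * ∑ e', Ex L (fun w => if K * u < |ℓ e' w| then (1 : ℝ) else 0)
        ≤ τ / 2 := by
      have h5 : (1 / (2 * η)) * ∑ e', Ex L (fun w => if K * u < |ℓ e' w| then (1 : ℝ) else 0)
          ≤ (1 / (2 * η)) * ((Fintype.card E : ℝ) * (2 * Real.exp (V₁ - u))) :=
        mul_le_mul_of_nonneg_left hP (by positivity)
      have h6 : (1 / (2 * η)) * ((Fintype.card E : ℝ) * (2 * Real.exp (V₁ - u))) ≤ τ / 2 := by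
        have e3 : (1 / (2 * η)) * ((Fintype.card E : ℝ) * (2 * Real.exp (V₁ - u)))
            = (2 * (Fintype.card E : ℝ) * Real.exp (V₁ - u) * X) / (2 * τ) := by
          simp only [hη]; field_simp
        rw [e3, div_le_iff₀ (by positivity)]
        nlinarith
      linarith
    linarith
  · apply Ex_mono hL
    intro w
    rw [e1]
    split_ifs
    · exact le_rfl
    · exact hF0 w

/-- Loss under truncation: with `G = {∀ e, |ℓ_e| ≤ K u}`, the `p`-th moments move by at most `τ`. -/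
theorem trunc_moment {E : Type*} [Fintype E] (q : I → ℝ) (φ : I → W) (ℓ : E → W →+ ℝ)
    {p K u V₁ τ : ℝ} (hp : 0 < p) (hK : 0 < K) (hτ : 0 < τ)
    (h0 : ∀ i, 0 ≤ q i) (h1 : ∀ i, q i ≤ 1) (l : List I)
    (hz : ∀ e, ∀ i ∈ l, |ℓ e (φ i)| ≤ K)
    (hV : ∀ e, (l.map fun i => q i * (ℓ e (φ i) / K) ^ 2).sum ≤ V₁)
    (hu : 2 * (Fintype.card E : ℝ) * Real.exp (V₁ - u)
        * ((2 * p) ^ (2 * p) * K ^ (2 * p) * (2 * Real.exp V₁)) ≤ τ ^ 2) (e : E) :
    Ex (mix q φ l) (fun w => |ℓ e w| ^ p) - τ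
        ≤ Ex (trunc (fun w => ∀ e, |ℓ e w| ≤ K * u) (mix q φ l)) (fun w => |ℓ e w| ^ p) ∧
      Ex (trunc (fun w => ∀ e, |ℓ e w| ≤ K * u) (mix q φ l)) (fun w => |ℓ e w| ^ p)
        ≤ Ex (mix q φ l) (fun w => |ℓ e w| ^ p) := by
  refine trunc_moment_aux q φ ℓ hp hK hτ h0 h1 l hz hV hu e _ ?_
  intro w hw
  by_contra hcon
  apply hw
  intro e'
  by_contra h
  exact hcon ⟨e', not_le.1 h⟩

end Trunc

/-- A mixture as an honest finite family. -/
lemma family_of_mix {W : Type*} (L : Mix W) :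
    ∃ (n : ℕ) (w : Fin n → ℝ) (c : Fin n → W), (∀ j, (w j, c j) ∈ L) ∧
      ∀ F : W → ℝ, ∑ j, w j * F (c j) = Ex L F := by
  refine ⟨L.length, fun j => L[j.1].1, fun j => L[j.1].2, fun j => ?_, fun F => ?_⟩
  · exact List.getElem_mem _
  · exact Fin.sum_univ_fun_getElem L (fun x => x.1 * F x.2)

/-! ### The coefficient law and the final family -/

section Final

variable {E : Type*} [Fintype I] [DecidableEq I] [Fintype E]

/-- Linear functional with coefficient vector `u`. -/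
def ellOf (u : I → ℝ) : (I → ℝ) →+ ℝ where
  toFun c := ∑ i, u i * c i
  map_zero' := by simp
  map_add' := by intro x y; simp [mul_add, Finset.sum_add_distrib]

omit [DecidableEq I] in
lemma ellOf_apply (u c : I → ℝ) : ellOf u c = ∑ i, u i * c i := rfl

lemma ellOf_single (u : I → ℝ) (i : I) (a : ℝ) : ellOf u (Pi.single i a) = u i * a := by
  rw [ellOf_apply, Finset.sum_eq_single i]
  · simp
  · intro j _ hj
    simp [Pi.single_eq_of_ne hj]
  · simp

lemma q_mul_abs_rpow {b K y p : ℝ} (hb : 0 < b) (hK : 0 < K) :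
    (b / K) ^ p * |y * (K / b)| ^ p = |y| ^ p := by
  have h1 : 0 ≤ b / K := by positivity
  rw [← Real.mul_rpow h1 (abs_nonneg _)]
  congr 1
  rw [abs_mul, abs_of_pos (by positivity : 0 < K / b)]
  field_simp

theorem core (y : E → I → ℝ) (b : I → ℝ) {p K u V₁ τ : ℝ} (hp : 1 ≤ p) (hK : 0 < K)
    (hb0 : ∀ i, 0 < b i) (hbK : ∀ i, b i ≤ K) (hy : ∀ e i, |y e i| ≤ b i)
    (hV₁ : ∀ e, ∑ i, (b i / K) ^ p * (y e i / b i) ^ 2 ≤ V₁) (hτ : 0 < τ) (hu0 : 0 ≤ u)
    (hu : 2 * (Fintype.card E : ℝ) * Real.exp (V₁ - u)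
        * ((2 * p) ^ (2 * p) * K ^ (2 * p) * (2 * Real.exp V₁)) ≤ τ ^ 2) :
    ∃ (n : ℕ) (w : Fin n → ℝ) (c : Fin n → I → ℝ) (M : E → ℝ),
      (∀ j, 0 ≤ w j) ∧ (∑ j, w j = 1) ∧
      (∀ j e, |∑ i, y e i * c j i| ≤ K * u) ∧
      (∀ e, M e - τ ≤ ∑ j, w j * |∑ i, y e i * c j i| ^ p ∧
        ∑ j, w j * |∑ i, y e i * c j i| ^ p ≤ M e) ∧
      (p ≤ 2 → ∀ e, M e ≤ ∑ i, |y e i| ^ p) ∧
      (2 ≤ p → ∀ e, ∑ i, |y e i| ^ p ≤ M e) ∧
      (∀ e (B : Finset I), (1 - ∑ i ∈ B, (b i / K) ^ p) * ∑ i ∈ B, |y e i| ^ p ≤ M e) ∧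
      (∀ e (θ V₂ : ℝ), 0 < θ → ∑ i, (b i / K) ^ p * (y e i * (K / b i)) ^ 2 ≤ V₂ →
        M e ≤ (1 + θ) ^ (p - 1) * (1 + θ) ^ (p - 1)
            * Real.exp (((1 + 1 / θ) ^ (p - 1) - 1) * V₂) * ∑ i, |y e i| ^ p
          + (1 + 1 / θ) ^ (p - 1) * (p ^ p * (2 * Real.exp V₂))) := by
  classical
  have hp0 : 0 < p := by linarith
  set q : I → ℝ := fun i => (b i / K) ^ p with hq
  set a : I → ℝ := fun i => K / b i with ha
  set φ : I → (I → ℝ) := fun i => Pi.single i (a i) with hφ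
  set l : List I := (Finset.univ : Finset I).toList with hl
  have hmem : ∀ i, i ∈ l := fun i => by simp [hl]
  have hsum : ∀ g : I → ℝ, (l.map g).sum = ∑ i, g i := fun g => Finset.sum_map_toList _ _
  have h0 : ∀ i, 0 ≤ q i := fun i => Real.rpow_nonneg (div_nonneg (hb0 i).le hK.le) _
  have h1 : ∀ i, q i ≤ 1 := fun i =>
    Real.rpow_le_one (div_nonneg (hb0 i).le hK.le) ((div_le_one hK).2 (hbK i)) hp0.le
  set ℓ : E → (I → ℝ) →+ ℝ := fun e => ellOf (y e) with hℓ
  have hℓφ : ∀ e i, ℓ e (φ i) = y e i * (K / b i) := fun e i => by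
    simp only [hℓ, hφ, ha, ellOf_single]
  have hz : ∀ e, ∀ i ∈ l, |ℓ e (φ i)| ≤ K := by
    intro e i _
    rw [hℓφ, abs_mul, abs_of_pos (div_pos hK (hb0 i))]
    calc |y e i| * (K / b i) ≤ b i * (K / b i) :=
          mul_le_mul_of_nonneg_right (hy e i) (div_pos hK (hb0 i)).le
      _ = K := by have := (hb0 i).ne'; field_simp
  have hV : ∀ e, (l.map fun i => q i * (ℓ e (φ i) / K) ^ 2).sum ≤ V₁ := by
    intro e
    rw [hsum]
    refine le_trans (le_of_eq ?_) (hV₁ e)
    apply Finset.sum_congr rfl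
    intro i _
    rw [hℓφ]
    have := (hb0 i).ne'
    have h' := hK.ne'
    congr 2
    field_simp
  set G : (I → ℝ) → Prop := fun w => ∀ e, |ℓ e w| ≤ K * u with hG
  set L := trunc G (mix q φ l) with hL
  obtain ⟨n, w, c, hmemL, hEx⟩ := family_of_mix L
  have hLnn : WNonneg L := WNonneg_trunc G (WNonneg_mix φ h0 h1 l)
  have hcval : ∀ j e, |ℓ e (c j)| ≤ K * u := by
    intro j e
    rcases mem_trunc_value G (hmemL j) with h | h
    · exact h e
    · have h' : c j = 0 := h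
      rw [h', map_zero, abs_zero]
      exact mul_nonneg hK.le hu0
  refine ⟨n, w, c, fun e => Ex (mix q φ l) (fun x => |ℓ e x| ^ p), fun j => hLnn _ (hmemL j), ?_,
    fun j e => hcval j e, ?_, ?_, ?_, ?_, ?_⟩
  · have := hEx (fun _ => 1)
    simp only [mul_one] at this
    rw [this, hL, Ex_trunc]
    exact Ex_mix_one q φ l
  · intro e
    have h2 := trunc_moment q φ ℓ hp0 hK hτ h0 h1 l hz hV hu e
    have h3 := hEx (fun x => |ℓ e x| ^ p)
    have h4 : ∑ j, w j * |∑ i, y e i * c j i| ^ p = ∑ j, w j * |ℓ e (c j)| ^ p := rfl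
    rw [h4, h3]
    exact h2
  · intro hp2 e
    have := mom_le_of_le_two q φ (ℓ e) hp hp2 h0 h1 l
    rw [hsum] at this
    refine this.trans (le_of_eq ?_)
    apply Finset.sum_congr rfl
    intro i _
    rw [hℓφ]
    exact q_mul_abs_rpow (hb0 i) hK
  · intro hp2 e
    have := mom_ge_of_ge_two q φ (ℓ e) hp2 h0 h1 l
    rw [hsum] at this
    refine le_trans (le_of_eq ?_) this
    apply Finset.sum_congr rfl
    intro i _
    rw [hℓφ]
    exact (q_mul_abs_rpow (hb0 i) hK).symm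
  · intro e B
    have := mom_ge_subset q φ (ℓ e) hp h0 h1 (fun i => i ∈ B) l
    rw [hsum, hsum] at this
    refine le_trans (le_of_eq ?_) this
    congr 1
    · congr 1
      rw [← Finset.sum_filter]
      simp
    · rw [← Finset.sum_filter]
      simp only [Finset.filter_mem_eq_inter, Finset.univ_inter]
      apply Finset.sum_congr rfl
      intro i _
      rw [hℓφ]
      exact (q_mul_abs_rpow (hb0 i) hK).symm
  · intro e θ V₂ hθ hV₂
    set A := (1 + 1 / θ) ^ (p - 1) with hA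
    set B := (1 + θ) ^ (p - 1) with hB
    have hp' : 0 ≤ p - 1 := by linarith
    have hA1 : 1 ≤ A := Real.one_le_rpow (by have : 0 < 1 / θ := by positivity
                                             linarith) hp'
    have hB1 : 1 ≤ B := Real.one_le_rpow (by linarith) hp'
    -- split
    set big : I → Prop := fun i => 1 ≤ |y e i * (K / b i)| with hbig
    set u1 : I → ℝ := fun i => if big i then y e i else 0 with hu1
    set u2 : I → ℝ := fun i => if big i then 0 else y e i with hu2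
    have hsplit : ∀ x : I → ℝ, ℓ e x = ellOf u1 x + ellOf u2 x := by
      intro x
      simp only [hℓ, ellOf_apply]
      rw [← Finset.sum_add_distrib]
      apply Finset.sum_congr rfl
      intro i _
      simp only [hu1, hu2]
      split_ifs <;> ring
    have hpt : ∀ x : I → ℝ, |ℓ e x| ^ p ≤ B * |ellOf u1 x| ^ p + A * |ellOf u2 x| ^ p := by
      intro x
      rw [hsplit]
      exact add_rpow_le_weighted hp hθ _ _
    have hLm := WNonneg_mix φ h0 h1 l
    have h2 := Ex_mono hLm hpt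
    rw [Ex_add, Ex_const_mul, Ex_const_mul] at h2
    have hKer0 : 0 ≤ ∑ i, |y e i| ^ p := Finset.sum_nonneg (fun _ _ => abs_rpow_nonneg' _ _)
    -- big part
    have hφ1 : ∀ i, ellOf u1 (φ i) = u1 i * (K / b i) := fun i => by
      simp only [hφ, ha, ellOf_single]
    have hφ2 : ∀ i, ellOf u2 (φ i) = u2 i * (K / b i) := fun i => by
      simp only [hφ, ha, ellOf_single]
    have hbigm := mom_le_big q φ (ellOf u1) hp hθ h0 h1 l
    rw [hsum, hsum, ← hA, ← hB] at hbigm
    have hQ : (∑ i, if ellOf u1 (φ i) = 0 then 0 else q i) ≤ V₂ := by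
      refine le_trans ?_ hV₂
      apply Finset.sum_le_sum
      intro i _
      have hqz : 0 ≤ q i * (y e i * (K / b i)) ^ 2 := mul_nonneg (h0 i) (sq_nonneg _)
      split_ifs with h
      · exact hqz
      · -- `i` is big
        have hb : big i := by
          by_contra hnb
          apply h
          rw [hφ1]
          simp [hu1, hnb]
        have h1z : 1 ≤ (y e i * (K / b i)) ^ 2 := by
          have hb' : 1 ≤ |y e i * (K / b i)| := hb
          have := sq_le_sq' (by linarith [abs_nonneg (y e i * (K / b i))]) hb'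
          simpa [sq_abs] using this
        nlinarith [h0 i]
    have hK1 : (∑ i, q i * |ellOf u1 (φ i)| ^ p) ≤ ∑ i, |y e i| ^ p := by
      apply Finset.sum_le_sum
      intro i _
      rw [hφ1]
      simp only [hu1]
      split_ifs with h
      · exact le_of_eq (q_mul_abs_rpow (hb0 i) hK)
      · simp only [zero_mul, abs_zero, Real.zero_rpow hp0.ne', mul_zero]
        exact abs_rpow_nonneg' _ _
    have hK1nn : 0 ≤ ∑ i, q i * |ellOf u1 (φ i)| ^ p :=
      Finset.sum_nonneg (fun i _ => mul_nonneg (h0 i) (abs_rpow_nonneg' _ _))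
    have hbig2 : Ex (mix q φ l) (fun x => |ellOf u1 x| ^ p)
        ≤ Real.exp ((A - 1) * V₂) * (B * ∑ i, |y e i| ^ p) := by
      refine hbigm.trans ?_
      have hexp : Real.exp ((A - 1) * ∑ i, if ellOf u1 (φ i) = 0 then 0 else q i)
          ≤ Real.exp ((A - 1) * V₂) :=
        Real.exp_le_exp.2 (mul_le_mul_of_nonneg_left hQ (by linarith))
      apply mul_le_mul hexp _ (mul_nonneg (by linarith) hK1nn) (Real.exp_pos _).le
      exact mul_le_mul_of_nonneg_left hK1 (by linarith)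
    -- small part
    have hsm : Ex (mix q φ l) (fun x => |ellOf u2 x| ^ p)
        ≤ p ^ p * ((1 : ℝ) ^ p) * (2 * Real.exp V₂) := by
      apply mom_le_of_mgf q φ (ellOf u2) hp0 one_pos h0 h1 l
      · intro i _
        rw [hφ2]
        simp only [hu2]
        split_ifs with h
        · simp
        · exact (not_le.1 h).le
      · rw [hsum]
        refine le_trans ?_ hV₂
        apply Finset.sum_le_sum
        intro i _
        rw [hφ2]
        simp only [hu2, div_one]
        split_ifs with h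
        · simp only [zero_mul]
          have hqz : 0 ≤ q i * (y e i * (K / b i)) ^ 2 := mul_nonneg (h0 i) (sq_nonneg _)
          simpa using hqz
        · exact le_rfl
    rw [Real.one_rpow, mul_one] at hsm
    have hfin := mul_le_mul_of_nonneg_left hbig2 (by linarith : 0 ≤ B)
    have hfin2 := mul_le_mul_of_nonneg_left hsm (by linarith : 0 ≤ A)
    have e3 : B * (Real.exp ((A - 1) * V₂) * (B * ∑ i, |y e i| ^ p))
        = B * B * Real.exp ((A - 1) * V₂) * ∑ i, |y e i| ^ p := by ring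
    rw [e3] at hfin
    linarith

end Final

section Slopes

variable {V : Type*} [Fintype V] [Fintype I] [DecidableEq I]

/-- The slope of a linear combination. -/
lemma slope_lin (d : V → V → ℝ) (ψ : I → V → ℝ) (c : I → ℝ) (x y : V) :
    ((∑ i, c i * ψ i x) - (∑ i, c i * ψ i y)) / d x y
      = ∑ i, ((ψ i x - ψ i y) / d x y) * c i := by
  rw [← Finset.sum_sub_distrib, Finset.sum_div]
  apply Finset.sum_congr rfl
  intro i _
  ring

/-- **Sampling, `p ≤ 2`.** `ψ i` have slopes at most `b i ≤ K`; then there is a finite mixture of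
`K u`-Lipschitz functions whose `p`-th moment of the slope at each pair is at most the kernel
`∑ i, |slope ψ_i|^p`, and at least `(1 - Q_B) ∑_B |slope ψ_i|^p - τ` for every set `B` of indices,
where `Q_B = ∑_B (b i / K)^p`. -/
theorem family_le_two (d : V → V → ℝ) (ψ : I → V → ℝ) (b : I → ℝ) {p K u V₁ τ : ℝ}
    (hp : 1 ≤ p) (hp2 : p ≤ 2) (hK : 0 < K)
    (hb0 : ∀ i, 0 < b i) (hbK : ∀ i, b i ≤ K) (hy : ∀ x y i, |(ψ i x - ψ i y) / d x y| ≤ b i)
    (hV₁ : ∀ x y, ∑ i, (b i / K) ^ p * (((ψ i x - ψ i y) / d x y) / b i) ^ 2 ≤ V₁)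
    (hτ : 0 < τ) (hu0 : 0 ≤ u)
    (hu : 2 * (Fintype.card V : ℝ) ^ 2 * Real.exp (V₁ - u)
        * ((2 * p) ^ (2 * p) * K ^ (2 * p) * (2 * Real.exp V₁)) ≤ τ ^ 2) :
    ∃ (n : ℕ) (w : Fin n → ℝ) (f : Fin n → V → ℝ),
      (∀ j, 0 ≤ w j) ∧ (∑ j, w j = 1) ∧
      (∀ j x y, |(f j x - f j y) / d x y| ≤ K * u) ∧
      (∀ x y, ∑ j, w j * |(f j x - f j y) / d x y| ^ p
          ≤ ∑ i, |(ψ i x - ψ i y) / d x y| ^ p) ∧
      (∀ x y (B : Finset I), (1 - ∑ i ∈ B, (b i / K) ^ p) * ∑ i ∈ B, |(ψ i x - ψ i y) / d x y| ^ p - τ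
          ≤ ∑ j, w j * |(f j x - f j y) / d x y| ^ p) := by
  have hcard : (Fintype.card (V × V) : ℝ) = (Fintype.card V : ℝ) ^ 2 := by
    rw [Fintype.card_prod]; push_cast; ring
  obtain ⟨n, w, c, M, hw0, hw1, hb, hM, hle, -, hB, -⟩ :=
    core (E := V × V) (fun e i => (ψ i e.1 - ψ i e.2) / d e.1 e.2) b hp hK hb0 hbK
      (fun e i => hy e.1 e.2 i) (fun e => hV₁ e.1 e.2) hτ hu0 (by rw [hcard]; exact hu)
  refine ⟨n, w, fun j v => ∑ i, c j i * ψ i v, hw0, hw1, ?_, ?_, ?_⟩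
  · intro j x y
    rw [slope_lin]
    exact hb j (x, y)
  · intro x y
    simp only [slope_lin]
    exact (hM (x, y)).2.trans (hle hp2 (x, y))
  · intro x y B
    simp only [slope_lin]
    have h1 := (hM (x, y)).1
    have h2 := hB (x, y) B
    simp only at h1 h2
    linarith

/-- **Sampling, `p ≥ 2`.** As above; now the moment is at least the kernel minus `τ`, and the upper
bound holds for all `θ > 0` and all `V₂ ≥ ∑ i (b i / K)^p (slope ψ_i · K / b i)²`. -/
theorem family_ge_two (d : V → V → ℝ) (ψ : I → V → ℝ) (b : I → ℝ) {p K u V₁ τ : ℝ}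
    (hp : 2 ≤ p) (hK : 0 < K)
    (hb0 : ∀ i, 0 < b i) (hbK : ∀ i, b i ≤ K) (hy : ∀ x y i, |(ψ i x - ψ i y) / d x y| ≤ b i)
    (hV₁ : ∀ x y, ∑ i, (b i / K) ^ p * (((ψ i x - ψ i y) / d x y) / b i) ^ 2 ≤ V₁)
    (hτ : 0 < τ) (hu0 : 0 ≤ u)
    (hu : 2 * (Fintype.card V : ℝ) ^ 2 * Real.exp (V₁ - u)
        * ((2 * p) ^ (2 * p) * K ^ (2 * p) * (2 * Real.exp V₁)) ≤ τ ^ 2) :
    ∃ (n : ℕ) (w : Fin n → ℝ) (f : Fin n → V → ℝ),
      (∀ j, 0 ≤ w j) ∧ (∑ j, w j = 1) ∧
      (∀ j x y, |(f j x - f j y) / d x y| ≤ K * u) ∧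
      (∀ x y, ∑ i, |(ψ i x - ψ i y) / d x y| ^ p - τ
          ≤ ∑ j, w j * |(f j x - f j y) / d x y| ^ p) ∧
      (∀ x y (θ V₂ : ℝ), 0 < θ →
        ∑ i, (b i / K) ^ p * (((ψ i x - ψ i y) / d x y) * (K / b i)) ^ 2 ≤ V₂ →
        ∑ j, w j * |(f j x - f j y) / d x y| ^ p
          ≤ (1 + θ) ^ (p - 1) * (1 + θ) ^ (p - 1)
              * Real.exp (((1 + 1 / θ) ^ (p - 1) - 1) * V₂)
              * ∑ i, |(ψ i x - ψ i y) / d x y| ^ p
            + (1 + 1 / θ) ^ (p - 1) * (p ^ p * (2 * Real.exp V₂))) := by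
  have hcard : (Fintype.card (V × V) : ℝ) = (Fintype.card V : ℝ) ^ 2 := by
    rw [Fintype.card_prod]; push_cast; ring
  obtain ⟨n, w, c, M, hw0, hw1, hb, hM, -, hge, -, hup⟩ :=
    core (E := V × V) (fun e i => (ψ i e.1 - ψ i e.2) / d e.1 e.2) b (by linarith : 1 ≤ p) hK hb0 hbK
      (fun e i => hy e.1 e.2 i) (fun e => hV₁ e.1 e.2) hτ hu0 (by rw [hcard]; exact hu)
  refine ⟨n, w, fun j v => ∑ i, c j i * ψ i v, hw0, hw1, ?_, ?_, ?_⟩
  · intro j x y
    rw [slope_lin]
    exact hb j (x, y)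
  · intro x y
    simp only [slope_lin]
    have h1 := (hM (x, y)).1
    have h2 := hge hp (x, y)
    simp only at h1 h2
    linarith
  · intro x y θ V₂ hθ hV₂
    simp only [slope_lin]
    exact (hM (x, y)).2.trans (hup (x, y) θ V₂ hθ hV₂)

end Slopes

end Crest.Agent.LpDimRed.Sampling
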