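/-
Row 232, S0358: the numerics of the top assembly (helper6).

All the parameters of the construction as explicit functions of `n`, and the final bound
`N n ≤ exp (C (log n)^γ)`.
-/
import Mathlib

set_option autoImplicit false
set_option linter.unusedSectionVars false
set_option linter.unusedVariables false

namespace Crest.Agent.LpDimRed.Top

open Real

/-- `f n = O((log n)^γ)` from above, on `n ≥ 2`. -/
def OLog (γ : ℝ) (f : ℕ → ℝ) : Prop := ∃ C : ℝ, ∀ n : ℕ, 2 ≤ n → f n ≤ C * Real.log n ^ γ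

lemma log_nat_ge {n : ℕ} (hn : 2 ≤ n) : Real.log 2 ≤ Real.log n := by
  apply Real.log_le_log (by norm_num)
  exact_mod_cast hn

lemma log_two_pos' : 0 < Real.log 2 := Real.log_pos (by norm_num)

lemma log_nat_pos {n : ℕ} (hn : 2 ≤ n) : 0 < Real.log n :=
  lt_of_lt_of_le log_two_pos' (log_nat_ge hn)

lemma rpow_log_ge {γ : ℝ} (hγ : 0 ≤ γ) {n : ℕ} (hn : 2 ≤ n) :
    Real.log 2 ^ γ ≤ Real.log n ^ γ :=
  Real.rpow_le_rpow log_two_pos'.le (log_nat_ge hn) hγ

namespace OLog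

variable {γ : ℝ} {f g : ℕ → ℝ}

lemma mono (hfg : ∀ n : ℕ, 2 ≤ n → f n ≤ g n) (hg : OLog γ g) : OLog γ f := by
  obtain ⟨C, hC⟩ := hg
  exact ⟨C, fun n hn => (hfg n hn).trans (hC n hn)⟩

lemma const (hγ : 0 ≤ γ) (c : ℝ) : OLog γ (fun _ => c) := by
  have hx : 0 < Real.log 2 ^ γ := Real.rpow_pos_of_pos log_two_pos' _
  refine ⟨|c| / Real.log 2 ^ γ, fun n hn => ?_⟩
  have h1 := rpow_log_ge hγ hn
  calc c ≤ |c| := le_abs_self c
    _ = |c| / Real.log 2 ^ γ * Real.log 2 ^ γ := by field_simp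
    _ ≤ _ := mul_le_mul_of_nonneg_left h1 (by positivity)

lemma add (hf : OLog γ f) (hg : OLog γ g) : OLog γ (fun n => f n + g n) := by
  obtain ⟨C, hC⟩ := hf
  obtain ⟨D, hD⟩ := hg
  exact ⟨C + D, fun n hn => by
    have := hC n hn
    have := hD n hn
    rw [add_mul]
    linarith⟩

lemma const_mul {c : ℝ} (hc : 0 ≤ c) (hf : OLog γ f) : OLog γ (fun n => c * f n) := by
  obtain ⟨C, hC⟩ := hf
  refine ⟨c * C, fun n hn => ?_⟩
  rw [mul_assoc]
  exact mul_le_mul_of_nonneg_left (hC n hn) hc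

lemma self : OLog γ (fun n => Real.log n ^ γ) := ⟨1, fun n _ => by simp⟩

/-- `log x ≤ x^γ / γ`. -/
lemma log_log (hγ : 0 < γ) : OLog γ (fun n => Real.log (Real.log n)) := by
  refine ⟨1 / γ, fun n hn => ?_⟩
  have := Real.log_le_rpow_div (log_nat_pos hn).le hγ
  calc Real.log (Real.log n) ≤ Real.log n ^ γ / γ := this
    _ = 1 / γ * Real.log n ^ γ := by ring

/-- `log (1 + k + M) = O(k^γ + M)`, the way logarithms are absorbed. -/
lemma log_one_add (hγ : 0 < γ) (hγ1 : γ ≤ 1) {M : ℕ → ℝ} (hM0 : ∀ n : ℕ, 2 ≤ n → 0 ≤ M n)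
    (hM : OLog γ M) : OLog γ (fun n => Real.log (1 + Real.log n + M n)) := by
  have h1 : OLog γ (fun n => (1 / γ) * (2 + Real.log n ^ γ + M n)) := by
    apply const_mul (by positivity)
    exact ((const hγ.le 2).add self).add hM
  refine mono (fun n hn => ?_) h1
  have hk := log_nat_pos hn
  have hMn := hM0 n hn
  have hpos : 0 ≤ 1 + Real.log n + M n := by linarith
  have h2 := Real.log_le_rpow_div hpos hγ
  have hsub1 : (1 + Real.log n + M n) ^ γ ≤ (1 + Real.log n) ^ γ + M n ^ γ :=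
    Real.rpow_add_le_add_rpow (by linarith) hMn hγ.le hγ1
  have hsub2 : (1 + Real.log n) ^ γ ≤ 1 ^ γ + Real.log n ^ γ :=
    Real.rpow_add_le_add_rpow zero_le_one hk.le hγ.le hγ1
  have hM1 : M n ^ γ ≤ 1 + M n := by
    rcases le_total (M n) 1 with h | h
    · have : M n ^ γ ≤ 1 := Real.rpow_le_one hMn h hγ.le
      linarith
    · have : M n ^ γ ≤ M n ^ (1 : ℝ) := Real.rpow_le_rpow_of_exponent_le h hγ1
      rw [Real.rpow_one] at this
      linarith
  rw [Real.one_rpow] at hsub2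
  calc Real.log (1 + Real.log n + M n) ≤ (1 + Real.log n + M n) ^ γ / γ := h2
    _ = (1 / γ) * (1 + Real.log n + M n) ^ γ := by ring
    _ ≤ (1 / γ) * (2 + Real.log n ^ γ + M n) := by
        apply mul_le_mul_of_nonneg_left _ (by positivity)
        linarith

end OLog

/-- All the explicit parameters of the construction. -/
structure Par where
  p : ℝ
  γ : ℝ
  V₁ : ℝ
  K0 : ℝ
  c : ℝ
  L₀ : ℝ
  ε : ℝ
  Y : ℕ → ℝ
  A : ℕ → ℝ

namespace Par

variable (P : Par)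

/-- `C0 = K0 log n`. -/
noncomputable def C0 (n : ℕ) : ℝ := P.K0 * Real.log n

/-- The window length. -/
noncomputable def L (n : ℕ) : ℕ := ⌈P.c * P.C0 n ^ P.γ⌉₊ + ⌈P.L₀⌉₊ + 1

/-- `K' = 2^(2L) Y`. -/
noncomputable def Kp (n : ℕ) : ℝ := (2 : ℝ) ^ ((2 * P.L n : ℕ) : ℝ) * P.Y n

/-- `K = C0 K'`. -/
noncomputable def K (n : ℕ) : ℝ := P.C0 n * P.Kp n

/-- The tent mass at the chosen `L`. -/
noncomputable def An (n : ℕ) : ℝ := P.A (P.L n)

/-- The additive moment loss. -/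
noncomputable def τ₁ (n : ℕ) : ℝ := P.ε / 4 * P.An n

/-- The quantity to be beaten by the tail exponent. -/
noncomputable def R (n : ℕ) : ℝ :=
  2 * (n : ℝ) ^ 2 * ((2 * P.p) ^ (2 * P.p) * P.K n ^ (2 * P.p) * (2 * Real.exp P.V₁))

/-- The truncation height, in units of `K`. -/
noncomputable def u (n : ℕ) : ℝ := 1 + |P.V₁ + Real.log (P.R n / P.τ₁ n ^ 2)|

/-- The Lipschitz constant of the truncated functions. -/
noncomputable def Kf (n : ℕ) : ℝ := P.K n * P.u n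

/-- The number of samples. -/
noncomputable def N (n : ℕ) : ℕ :=
  ⌈4 * (P.Kf n ^ P.p) ^ 2 * Real.log (2 * (n : ℝ) ^ 2) / (P.ε * P.An n) ^ 2⌉₊ + 1

/-- The standing assumptions. -/
structure Ok : Prop where
  hp : 1 < P.p
  hγ : 0 < P.γ
  hγ1 : P.γ ≤ 1
  hV₁ : 0 ≤ P.V₁
  hK0 : 1 ≤ P.K0 * Real.log 2
  hc : 0 < P.c
  hL₀ : 0 ≤ P.L₀
  hε : 0 < P.ε
  hY1 : ∀ n : ℕ, 2 ≤ n → 1 ≤ P.Y n
  hYlog : OLog P.γ (fun n => Real.log (P.Y n))
  hAlo : ∀ L : ℕ, 1 ≤ L → (L : ℝ) * (2 : ℝ) ^ (-P.p) ≤ P.A L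
  hAhi : ∀ L : ℕ, 1 ≤ L → P.A L ≤ 2 * L

variable {P}

/-- The window length is `O((log n)^γ)`: it does not depend on `Y`, `A`, `ε`, `V₁`. -/
lemma olog_L_of (hγ : 0 < P.γ) (hK0 : 0 < P.K0) (hc : 0 < P.c) (hL₀ : 0 ≤ P.L₀) :
    OLog P.γ (fun n => (P.L n : ℝ)) := by
  have h1 : OLog P.γ (fun n => (P.c * P.K0 ^ P.γ) * Real.log n ^ P.γ + (P.L₀ + 3)) :=
    (OLog.const_mul (mul_nonneg hc.le (Real.rpow_nonneg hK0.le _)) OLog.self).add
      (OLog.const hγ.le _)
  refine OLog.mono (fun n hn => ?_) h1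
  have hk := log_nat_pos hn
  have hC : 0 < P.C0 n := mul_pos hK0 hk
  have hc0 : 0 ≤ P.c * P.C0 n ^ P.γ :=
    mul_nonneg hc.le (Real.rpow_nonneg hC.le _)
  have e1 := (Nat.ceil_lt_add_one hc0).le
  have e2 := (Nat.ceil_lt_add_one hL₀).le
  have e3 : P.C0 n ^ P.γ = P.K0 ^ P.γ * Real.log n ^ P.γ := by
    unfold C0
    exact Real.mul_rpow hK0.le hk.le
  unfold L
  push_cast
  rw [e3] at e1 ⊢
  have e4 : P.c * P.K0 ^ P.γ * Real.log n ^ P.γ = P.c * (P.K0 ^ P.γ * Real.log n ^ P.γ) := by ring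
  rw [e4]
  linarith

section
variable (h : P.Ok)
include h

lemma K0_pos : 0 < P.K0 := by
  have h1 := h.hK0
  by_contra hc
  push Not at hc
  have : P.K0 * Real.log 2 ≤ 0 := mul_nonpos_of_nonpos_of_nonneg hc log_two_pos'.le
  linarith

lemma C0_ge_one {n : ℕ} (hn : 2 ≤ n) : 1 ≤ P.C0 n := by
  have h1 := h.hK0
  have h2 := log_nat_ge hn
  have h3 := K0_pos h
  unfold C0
  nlinarith

lemma C0_pos {n : ℕ} (hn : 2 ≤ n) : 0 < P.C0 n := by linarith [C0_ge_one h hn]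

lemma L_ge_one (n : ℕ) : 1 ≤ P.L n := by unfold L; omega

lemma L_pos_real (n : ℕ) : (1 : ℝ) ≤ (P.L n : ℝ) := by exact_mod_cast L_ge_one h n

lemma L_ge_L₀ (n : ℕ) : P.L₀ ≤ (P.L n : ℝ) := by
  unfold L
  push_cast
  have := Nat.le_ceil P.L₀
  have h2 : (0 : ℝ) ≤ (⌈P.c * P.C0 n ^ P.γ⌉₊ : ℝ) := by positivity
  linarith

lemma L_ge_main (n : ℕ) : P.c * P.C0 n ^ P.γ ≤ (P.L n : ℝ) := by
  unfold L
  push_cast
  have := Nat.le_ceil (P.c * P.C0 n ^ P.γ)
  have h2 : (0 : ℝ) ≤ (⌈P.L₀⌉₊ : ℝ) := by positivity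
  linarith

lemma two_pow_ge_one (n : ℕ) : 1 ≤ (2 : ℝ) ^ ((2 * P.L n : ℕ) : ℝ) :=
  Real.one_le_rpow (by norm_num) (by positivity)

lemma Kp_ge_one {n : ℕ} (hn : 2 ≤ n) : 1 ≤ P.Kp n := by
  unfold Kp
  have h1 := two_pow_ge_one h n
  have h2 := h.hY1 n hn
  nlinarith

lemma K_ge_one {n : ℕ} (hn : 2 ≤ n) : 1 ≤ P.K n := by
  unfold K
  have h1 := C0_ge_one h hn
  have h2 := Kp_ge_one h hn
  nlinarith

lemma An_pos (n : ℕ) : 0 < P.An n := by
  have h1 := h.hAlo (P.L n) (L_ge_one h n)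
  have h2 := L_pos_real h n
  have h3 : 0 < (2 : ℝ) ^ (-P.p) := Real.rpow_pos_of_pos (by norm_num) _
  have : 0 < (P.L n : ℝ) * (2 : ℝ) ^ (-P.p) := by positivity
  unfold An
  linarith

lemma An_ge (n : ℕ) : (2 : ℝ) ^ (-P.p) ≤ P.An n := by
  have h1 := h.hAlo (P.L n) (L_ge_one h n)
  have h2 := L_pos_real h n
  have h3 : 0 < (2 : ℝ) ^ (-P.p) := Real.rpow_pos_of_pos (by norm_num) _
  unfold An
  nlinarith

lemma An_le (n : ℕ) : P.An n ≤ 2 * P.L n := h.hAhi (P.L n) (L_ge_one h n)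

lemma τ₁_pos (n : ℕ) : 0 < P.τ₁ n := by
  unfold τ₁
  have := An_pos h n
  have := h.hε
  positivity

lemma p_pos : 0 < P.p := by linarith [h.hp]

lemma R_pos {n : ℕ} (hn : 2 ≤ n) : 0 < P.R n := by
  unfold R
  have h0 := p_pos h
  have hn' : (0 : ℝ) < n := by
    have : (2 : ℝ) ≤ n := by exact_mod_cast hn
    linarith
  have hK : 0 < P.K n := by linarith [K_ge_one h hn]
  have h1 : 0 < (2 * P.p) ^ (2 * P.p) := Real.rpow_pos_of_pos (by positivity) _
  have h2 : 0 < P.K n ^ (2 * P.p) := Real.rpow_pos_of_pos hK _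
  have h3 := Real.exp_pos P.V₁
  positivity

lemma u_ge_one (n : ℕ) : 1 ≤ P.u n := by
  unfold u
  have := abs_nonneg (P.V₁ + Real.log (P.R n / P.τ₁ n ^ 2))
  linarith

/-- The tail condition of the sampling theorems. -/
lemma hu_ok {n : ℕ} (hn : 2 ≤ n) :
    2 * (n : ℝ) ^ 2 * Real.exp (P.V₁ - P.u n)
        * ((2 * P.p) ^ (2 * P.p) * P.K n ^ (2 * P.p) * (2 * Real.exp P.V₁)) ≤ P.τ₁ n ^ 2 := by
  have hτ := τ₁_pos h n
  have hR := R_pos h hn
  have e : 2 * (n : ℝ) ^ 2 * Real.exp (P.V₁ - P.u n)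
        * ((2 * P.p) ^ (2 * P.p) * P.K n ^ (2 * P.p) * (2 * Real.exp P.V₁))
      = Real.exp (P.V₁ - P.u n) * P.R n := by
    unfold R; ring
  rw [e]
  have hq : 0 < P.R n / P.τ₁ n ^ 2 := by positivity
  have hle : P.V₁ - P.u n ≤ - Real.log (P.R n / P.τ₁ n ^ 2) := by
    unfold u
    have := le_abs_self (P.V₁ + Real.log (P.R n / P.τ₁ n ^ 2))
    linarith
  have h1 : Real.exp (P.V₁ - P.u n) ≤ Real.exp (- Real.log (P.R n / P.τ₁ n ^ 2)) :=
    Real.exp_le_exp.mpr hle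
  rw [Real.exp_neg, Real.exp_log hq] at h1
  calc Real.exp (P.V₁ - P.u n) * P.R n ≤ (P.R n / P.τ₁ n ^ 2)⁻¹ * P.R n :=
        mul_le_mul_of_nonneg_right h1 hR.le
    _ = P.τ₁ n ^ 2 := by field_simp

lemma N_pos (n : ℕ) : 0 < P.N n := by unfold N; omega

/-- The sampling budget. -/
lemma N_ok {n : ℕ} (hn : 2 ≤ n) :
    4 * (P.Kf n ^ P.p) ^ 2 * Real.log (2 * (n : ℝ) ^ 2) ≤ (P.N n : ℝ) * (P.ε * P.An n) ^ 2 := by
  have hA := An_pos h n
  have hε := h.hε
  have hpos : 0 < (P.ε * P.An n) ^ 2 := by positivity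
  have h1 := Nat.le_ceil (4 * (P.Kf n ^ P.p) ^ 2 * Real.log (2 * (n : ℝ) ^ 2) / (P.ε * P.An n) ^ 2)
  have h2 : 4 * (P.Kf n ^ P.p) ^ 2 * Real.log (2 * (n : ℝ) ^ 2) / (P.ε * P.An n) ^ 2 ≤ (P.N n : ℝ) := by
    unfold N
    push_cast
    linarith
  rwa [div_le_iff₀ hpos] at h2


/-! ### The final bound: every parameter is `exp O((log n)^γ)`. -/

lemma olog_logC0 : OLog P.γ (fun n => Real.log (P.C0 n)) := by
  refine OLog.mono (fun n hn => ?_) ((OLog.const h.hγ.le (Real.log P.K0)).add (OLog.log_log h.hγ))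
  unfold C0
  rw [Real.log_mul (K0_pos h).ne' (log_nat_pos hn).ne']

lemma olog_L : OLog P.γ (fun n => (P.L n : ℝ)) :=
  olog_L_of h.hγ (K0_pos h) h.hc h.hL₀

lemma olog_logKp : OLog P.γ (fun n => Real.log (P.Kp n)) := by
  have h1 : OLog P.γ (fun n => (2 * Real.log 2) * (P.L n : ℝ) + Real.log (P.Y n)) :=
    (OLog.const_mul (by have := log_two_pos'; positivity) (olog_L h)).add h.hYlog
  refine OLog.mono (fun n hn => ?_) h1
  have hY := h.hY1 n hn
  unfold Kp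
  rw [Real.log_mul (by positivity) (by linarith), Real.log_rpow (by norm_num)]
  push_cast
  apply le_of_eq
  ring

lemma olog_logK : OLog P.γ (fun n => Real.log (P.K n)) := by
  refine OLog.mono (fun n hn => ?_) ((olog_logC0 h).add (olog_logKp h))
  have h1 := C0_pos h hn
  have h2 := Kp_ge_one h hn
  unfold K
  rw [Real.log_mul h1.ne' (by linarith)]

lemma logK_nonneg {n : ℕ} (hn : 2 ≤ n) : 0 ≤ Real.log (P.K n) :=
  Real.log_nonneg (K_ge_one h hn)

/-- The quantity controlling `u`. -/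
noncomputable def _root_.Crest.Agent.LpDimRed.Top.Par.M (P : Par) (n : ℕ) : ℝ :=
  Real.log (P.K n) + (P.L n : ℝ)

lemma M_nonneg {n : ℕ} (hn : 2 ≤ n) : 0 ≤ P.M n := by
  have := logK_nonneg h hn
  have := L_pos_real h n
  unfold M
  linarith

lemma olog_M : OLog P.γ P.M := (olog_logK h).add (olog_L h)

lemma log_An_abs (n : ℕ) :
    |Real.log (P.An n)| ≤ P.p * Real.log 2 + 2 * (P.L n : ℝ) := by
  have h0 := p_pos h
  have hA := An_pos h n
  have hlo := An_ge h n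
  have hhi := An_le h n
  have hL := L_pos_real h n
  have hlog2 := log_two_pos'
  have h1 : -(P.p * Real.log 2) ≤ Real.log (P.An n) := by
    have := Real.log_le_log (Real.rpow_pos_of_pos (by norm_num : (0 : ℝ) < 2) (-P.p)) hlo
    rw [Real.log_rpow (by norm_num)] at this
    linarith
  have h2 : Real.log (P.An n) ≤ 2 * (P.L n : ℝ) := by
    have h3 : Real.log (P.An n) ≤ P.An n - 1 := Real.log_le_sub_one_of_pos hA
    linarith
  have hpl : 0 ≤ P.p * Real.log 2 := by positivity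
  rw [abs_le]
  constructor <;> linarith

lemma log_R_eq {n : ℕ} (hn : 2 ≤ n) :
    Real.log (P.R n) = Real.log 2 + 2 * Real.log n
      + (2 * P.p * Real.log (2 * P.p) + (2 * P.p * Real.log (P.K n)
      + (Real.log 2 + P.V₁))) := by
  have h0 := p_pos h
  have hK : 0 < P.K n := by linarith [K_ge_one h hn]
  have hn' : (0 : ℝ) < n := by
    have : (2 : ℝ) ≤ n := by exact_mod_cast hn
    linarith
  have h1 : 0 < (2 * P.p) ^ (2 * P.p) := Real.rpow_pos_of_pos (by positivity) _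
  have h2 : 0 < P.K n ^ (2 * P.p) := Real.rpow_pos_of_pos hK _
  have h3 := Real.exp_pos P.V₁
  unfold R
  rw [Real.log_mul (by positivity) (by positivity), Real.log_mul (by norm_num) (by positivity),
    Real.log_pow, Real.log_mul (by positivity) (by positivity),
    Real.log_mul (by positivity) (by positivity), Real.log_mul (by norm_num) (by positivity),
    Real.log_exp, Real.log_rpow (by positivity), Real.log_rpow hK]
  push_cast
  ring

/-- The bound on the truncation height. -/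
lemma u_le : ∃ a : ℝ, 1 ≤ a ∧ ∀ n : ℕ, 2 ≤ n → P.u n ≤ a * (1 + Real.log n + P.M n) := by
  have h0 := p_pos h
  have hlog2 := log_two_pos'
  have hε := h.hε
  refine ⟨1 + 2 * P.V₁ + 2 * Real.log 2 + 2 * P.p * |Real.log (2 * P.p)| + 2 * P.p
      + 2 * |Real.log (P.ε / 4)| + 2 * (P.p * Real.log 2) + 4 + 2, ?_, fun n hn => ?_⟩
  · have h1 := h.hV₁
    have h2 : 0 ≤ 2 * P.p * |Real.log (2 * P.p)| := by positivity
    have h3 : 0 ≤ |Real.log (P.ε / 4)| := abs_nonneg _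
    have h4 : 0 ≤ P.p * Real.log 2 := by positivity
    linarith
  have hk := log_nat_pos hn
  have hM := M_nonneg h hn
  have hK := logK_nonneg h hn
  have hL := L_pos_real h n
  have hτ := τ₁_pos h n
  have hR := R_pos h hn
  have hA := An_pos h n
  have e1 : Real.log (P.R n / P.τ₁ n ^ 2)
      = Real.log (P.R n) - 2 * (Real.log (P.ε / 4) + Real.log (P.An n)) := by
    rw [Real.log_div hR.ne' (by positivity), Real.log_pow]
    unfold τ₁
    rw [Real.log_mul (by positivity) hA.ne']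
    push_cast
    ring
  have e2 := log_R_eq h hn
  have e3 := log_An_abs h n
  have e4 := abs_le.mp e3
  have e5 := abs_nonneg (Real.log (P.ε / 4))
  have e6 := abs_le.mp (le_refl |Real.log (P.ε / 4)|)
  have e7 := abs_nonneg (Real.log (2 * P.p))
  have e8 := abs_le.mp (le_refl |Real.log (2 * P.p)|)
  have hV := h.hV₁
  have e9 : |P.V₁ + Real.log (P.R n / P.τ₁ n ^ 2)|
      ≤ 2 * P.V₁ + 2 * Real.log 2 + 2 * Real.log n + 2 * P.p * |Real.log (2 * P.p)|
        + 2 * P.p * Real.log (P.K n) + 2 * |Real.log (P.ε / 4)|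
        + 2 * (P.p * Real.log 2 + 2 * (P.L n : ℝ)) := by
    rw [e1, e2]
    have hm : 2 * P.p * Real.log (2 * P.p) ≤ 2 * P.p * |Real.log (2 * P.p)| :=
      mul_le_mul_of_nonneg_left (le_abs_self _) (by positivity)
    have hm' : -(2 * P.p * |Real.log (2 * P.p)|) ≤ 2 * P.p * Real.log (2 * P.p) := by
      have : -|Real.log (2 * P.p)| ≤ Real.log (2 * P.p) := e8.1
      have h2p : 0 ≤ 2 * P.p := by positivity
      nlinarith
    have hK2 : 0 ≤ 2 * P.p * Real.log (P.K n) := by positivity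
    rw [abs_le]
    constructor
    · nlinarith [e4.1, e4.2, e6.1, e6.2]
    · nlinarith [e4.1, e4.2, e6.1, e6.2]
  unfold u
  -- all the coefficients are nonnegative, so the product dominates term by term
  set a₀ : ℝ := 2 * P.V₁ + 2 * Real.log 2 + 2 * P.p * |Real.log (2 * P.p)|
      + 2 * |Real.log (P.ε / 4)| + 2 * (P.p * Real.log 2) with ha₀
  have ha₀0 : 0 ≤ a₀ := by
    have h2 : 0 ≤ 2 * P.p * |Real.log (2 * P.p)| := by positivity
    have h4 : 0 ≤ P.p * Real.log 2 := by positivity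
    rw [ha₀]
    linarith
  have hK2 : 0 ≤ 2 * P.p := by positivity
  have hsum : 0 ≤ Real.log n + P.M n := by linarith
  have hMdef : P.M n = Real.log (P.K n) + (P.L n : ℝ) := rfl
  have key : 1 + (a₀ + 2 * Real.log n + 2 * P.p * Real.log (P.K n) + 4 * (P.L n : ℝ))
      ≤ (1 + a₀ + 2 * P.p + 4 + 2) * (1 + Real.log n + P.M n) := by
    rw [hMdef]
    have hL0 : 0 ≤ (P.L n : ℝ) := by linarith
    nlinarith [mul_nonneg ha₀0 hk.le, mul_nonneg ha₀0 hK, mul_nonneg ha₀0 hL0,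
      mul_nonneg hK2 hk.le, mul_nonneg hK2 hL0, mul_nonneg hk.le hK, mul_nonneg hk.le hL0,
      mul_nonneg hK2 hK]
  have e10 : 1 + a₀ + 2 * P.p + 4 + 2 = 1 + 2 * P.V₁ + 2 * Real.log 2
      + 2 * P.p * |Real.log (2 * P.p)| + 2 * P.p + 2 * |Real.log (P.ε / 4)|
      + 2 * (P.p * Real.log 2) + 4 + 2 := by
    rw [ha₀]; ring
  rw [← e10]
  refine le_trans ?_ key
  have : |P.V₁ + Real.log (P.R n / P.τ₁ n ^ 2)|
      ≤ a₀ + 2 * Real.log n + 2 * P.p * Real.log (P.K n) + 4 * (P.L n : ℝ) := by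
    refine e9.trans (le_of_eq ?_)
    rw [ha₀]; ring
  linarith

lemma olog_logu : OLog P.γ (fun n => Real.log (P.u n)) := by
  obtain ⟨a, ha1, hau⟩ := u_le h
  have ha0 : 0 < a := by linarith
  have h1 : OLog P.γ (fun n => Real.log a + Real.log (1 + Real.log n + P.M n)) :=
    (OLog.const h.hγ.le _).add
      (OLog.log_one_add h.hγ h.hγ1 (fun n hn => M_nonneg h hn) (olog_M h))
  refine OLog.mono (fun n hn => ?_) h1
  have hk := log_nat_pos hn
  have hM := M_nonneg h hn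
  have hu1 := u_ge_one h n
  have hpos : 0 < 1 + Real.log n + P.M n := by linarith
  calc Real.log (P.u n) ≤ Real.log (a * (1 + Real.log n + P.M n)) :=
        Real.log_le_log (by linarith) (hau n hn)
    _ = _ := Real.log_mul ha0.ne' hpos.ne'

lemma Kf_ge_one {n : ℕ} (hn : 2 ≤ n) : 1 ≤ P.Kf n := by
  have h1 := K_ge_one h hn
  have h2 := u_ge_one h n
  unfold Kf
  nlinarith

lemma olog_logKf : OLog P.γ (fun n => Real.log (P.Kf n)) := by
  refine OLog.mono (fun n hn => ?_) ((olog_logK h).add (olog_logu h))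
  have h1 := K_ge_one h hn
  have h2 := u_ge_one h n
  unfold Kf
  rw [Real.log_mul (by linarith) (by linarith)]

/-- The main numerical conclusion. -/
theorem N_bound : ∃ C : ℝ, ∀ n : ℕ, 2 ≤ n → (P.N n : ℝ) ≤ Real.exp (C * Real.log n ^ P.γ) := by
  have h0 := p_pos h
  have hε := h.hε
  have hlog2 := log_two_pos'
  set e₀ : ℝ := (P.ε * (2 : ℝ) ^ (-P.p)) ^ 2 with he₀
  have h2p : 0 < (2 : ℝ) ^ (-P.p) := Real.rpow_pos_of_pos (by norm_num) _
  have he₀pos : 0 < e₀ := by rw [he₀]; positivity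
  set b : ℝ := 8 / e₀ + 2 with hb
  have hbpos : 0 < b := by rw [hb]; positivity
  have hO : OLog P.γ (fun n => Real.log b + Real.log (1 + Real.log n + 0)
      + (2 * P.p) * Real.log (P.Kf n)) := by
    refine ((OLog.const h.hγ.le _).add
      (OLog.log_one_add h.hγ h.hγ1 (M := fun _ => 0) (fun _ _ => le_rfl) ?_)).add
      (OLog.const_mul (by positivity) (olog_logKf h))
    exact ⟨0, fun n _ => by simp⟩
  obtain ⟨C, hC⟩ := hO
  refine ⟨C, fun n hn => ?_⟩
  have hk := log_nat_pos hn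
  have hn' : (2 : ℝ) ≤ n := by exact_mod_cast hn
  have hKf := Kf_ge_one h hn
  have hKfp : 1 ≤ (P.Kf n ^ P.p) ^ 2 := by
    have : 1 ≤ P.Kf n ^ P.p := Real.one_le_rpow hKf h0.le
    nlinarith
  have eKf : (P.Kf n ^ P.p) ^ 2 = P.Kf n ^ (2 * P.p) := by
    rw [← Real.rpow_natCast, ← Real.rpow_mul (by linarith)]
    congr 1
    push_cast
    ring
  have hA := An_ge h n
  have hApos := An_pos h n
  have hden : e₀ ≤ (P.ε * P.An n) ^ 2 := by
    rw [he₀]
    apply pow_le_pow_left₀ (by positivity)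
    exact mul_le_mul_of_nonneg_left hA hε.le
  have hlog2n : Real.log (2 * (n : ℝ) ^ 2) = Real.log 2 + 2 * Real.log n := by
    rw [Real.log_mul (by norm_num) (by positivity), Real.log_pow]
    push_cast
    ring
  have hlognn : 0 ≤ Real.log (2 * (n : ℝ) ^ 2) := by
    rw [hlog2n]; positivity
  have hlog2le : Real.log 2 ≤ 1 := by
    have := Real.log_two_lt_d9
    linarith
  -- the ceiling
  have hceil : (P.N n : ℝ) ≤ b * (1 + Real.log n) * (P.Kf n ^ P.p) ^ 2 := by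
    have hnn : 0 ≤ 4 * (P.Kf n ^ P.p) ^ 2 * Real.log (2 * (n : ℝ) ^ 2) / (P.ε * P.An n) ^ 2 := by
      positivity
    have h1 := (Nat.ceil_lt_add_one hnn).le
    have h2 : (P.N n : ℝ) ≤ 4 * (P.Kf n ^ P.p) ^ 2 * Real.log (2 * (n : ℝ) ^ 2) / (P.ε * P.An n) ^ 2
        + 2 := by
      unfold N
      push_cast
      linarith
    have h3 : 4 * (P.Kf n ^ P.p) ^ 2 * Real.log (2 * (n : ℝ) ^ 2) / (P.ε * P.An n) ^ 2
        ≤ 4 * (P.Kf n ^ P.p) ^ 2 * Real.log (2 * (n : ℝ) ^ 2) / e₀ :=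
      div_le_div_of_nonneg_left (by positivity) he₀pos hden
    have h4 : 4 * (P.Kf n ^ P.p) ^ 2 * Real.log (2 * (n : ℝ) ^ 2) / e₀
        ≤ 8 / e₀ * (1 + Real.log n) * (P.Kf n ^ P.p) ^ 2 := by
      rw [hlog2n, div_mul_eq_mul_div, div_mul_eq_mul_div]
      apply div_le_div_of_nonneg_right _ he₀pos.le
      have hKK : 0 ≤ (P.Kf n ^ P.p) ^ 2 := by positivity
      nlinarith [mul_nonneg hKK hk.le]
    have h5 : (2 : ℝ) ≤ 2 * (1 + Real.log n) * (P.Kf n ^ P.p) ^ 2 := by nlinarith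
    rw [hb]
    nlinarith
  have hNpos : (0 : ℝ) < P.N n := by exact_mod_cast N_pos h n
  have hrhs : 0 < b * (1 + Real.log n) * (P.Kf n ^ P.p) ^ 2 := by positivity
  have hlog : Real.log (P.N n : ℝ) ≤ C * Real.log n ^ P.γ := by
    refine le_trans ?_ (hC n hn)
    calc Real.log (P.N n : ℝ) ≤ Real.log (b * (1 + Real.log n) * (P.Kf n ^ P.p) ^ 2) :=
          Real.log_le_log hNpos hceil
      _ = _ := by
          rw [Real.log_mul (by positivity) (by positivity),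
            Real.log_mul hbpos.ne' (by positivity), eKf,
            Real.log_rpow (by linarith)]
          simp
  calc (P.N n : ℝ) = Real.exp (Real.log (P.N n : ℝ)) := (Real.exp_log hNpos).symm
    _ ≤ _ := Real.exp_le_exp.mpr hlog

end

end Par

end Crest.Agent.LpDimRed.Top
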