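/-
Row 232, S0358: the top assembly (helper6).

`BandsLow`, `BandsHigh` are the pair facts produced by the band analysis; from them
`FiniteCore p γ` follows by the sampling wrapper, the sparsification and the numerics of `TopNum`.
-/
import Crest.Agent.Lib.LpDimRed.TopNum
import Crest.Agent.Lib.LpDimRed.SampleMix
import Crest.Agent.Lib.LpDimRed.EmbedFamily

set_option autoImplicit false
set_option linter.unusedSectionVars false
set_option linter.unusedVariables false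

namespace Crest.Agent.LpDimRed.Top

open Real Finset
open Crest.Agent.LpDimRed

/-- The facts common to both branches. -/
structure BandFacts {n T : ℕ} (y : Fin n → Fin T → ℝ) (p C0 A W τ : ℝ) (L a₀ : ℕ)
    {I : Type} [Fintype I] (u : I → ℤ) (ψ : I → Fin n → ℝ) : Prop where
  b0 : ∀ i, u i ≤ 2 * (L : ℤ) + a₀
  b1 : ∀ a b i, |(ψ i a - ψ i b) / lpn p (fun t => y a t - y b t)| ≤ C0 * (2 : ℝ) ^ (u i : ℝ)
  b2 : ∀ a b, ∑ i, (2 : ℝ) ^ ((u i : ℝ) * (p - 2))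
        * ((ψ i a - ψ i b) / lpn p (fun t => y a t - y b t)) ^ 2
      ≤ C0 ^ 2 * (W * (2 * (L : ℝ)) * (2 : ℝ) ^ (2 * (L : ℝ) * max 0 (p - 2)))
  b3 : ∀ a b, a ≠ b → ∑ i, |(ψ i a - ψ i b) / lpn p (fun t => y a t - y b t)| ^ p ≤ (1 + τ) * A

/-- The band analysis for `p < 2`. -/
def BandsLow (p γ K0 : ℝ) (A : ℕ → ℝ) : Prop :=
  ∀ τ : ℝ, 0 < τ → ∃ (c W CM : ℝ) (a₀ : ℕ), 0 < c ∧ 0 ≤ W ∧ 0 ≤ CM ∧
    ∀ n : ℕ, 2 ≤ n → ∀ (T : ℕ) (y : Fin n → Fin T → ℝ), Function.Injective y →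
    ∀ L : ℕ, 1 ≤ L → c * (K0 * Real.log n) ^ γ ≤ (L : ℝ) →
    ∃ (I : Type) (_ : Fintype I) (u : I → ℤ) (ψ : I → Fin n → ℝ),
      BandFacts y p (K0 * Real.log n) (A L) W τ L a₀ u ψ ∧
      ∀ a b, a ≠ b → ∃ M : Finset I,
        (1 - τ) * A L ≤ ∑ i ∈ M, |(ψ i a - ψ i b) / lpn p (fun t => y a t - y b t)| ^ p ∧
        ∑ i ∈ M, (2 : ℝ) ^ ((u i : ℝ) * p) ≤ CM * (2 : ℝ) ^ (2 * (L : ℝ) * p)

/-- The band analysis for `p > 2`. -/
def BandsHigh (p γ K0 : ℝ) (A : ℕ → ℝ) : Prop :=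
  ∀ τ : ℝ, 0 < τ → ∃ (c W : ℝ) (a₀ : ℕ), 0 < c ∧ 0 ≤ W ∧
    ∀ n : ℕ, 2 ≤ n → ∀ (T : ℕ) (y : Fin n → Fin T → ℝ), Function.Injective y →
    ∀ L : ℕ, 1 ≤ L → c * (K0 * Real.log n) ^ γ ≤ (L : ℝ) →
    ∃ (I : Type) (_ : Fintype I) (u : I → ℤ) (ψ : I → Fin n → ℝ),
      BandFacts y p (K0 * Real.log n) (A L) W τ L a₀ u ψ ∧
      ∀ a b, a ≠ b →
        (1 - τ) * A L ≤ ∑ i, |(ψ i a - ψ i b) / lpn p (fun t => y a t - y b t)| ^ p

/-! ### Choice of `ε` -/

lemma exists_eps {a : ℝ} (ha : 1 < a) :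
    ∃ ε : ℝ, 0 < ε ∧ ε ≤ 1 / 4 ∧ (1 + 2 * ε) / (1 - 2 * ε) ≤ a := by
  refine ⟨min (1 / 4) ((a - 1) / (2 * (a + 1))), ?_, min_le_left _ _, ?_⟩
  · apply lt_min (by norm_num)
    apply div_pos (by linarith) (by linarith)
  · set ε := min (1 / 4) ((a - 1) / (2 * (a + 1))) with hε
    have h1 : ε ≤ 1 / 4 := min_le_left _ _
    have h2 : ε ≤ (a - 1) / (2 * (a + 1)) := min_le_right _ _
    rw [le_div_iff₀ (by linarith)] at h2
    rw [div_le_iff₀ (by linarith)]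
    nlinarith

/-! ### Power computations -/

lemma two_rpow_mul_p (x p : ℝ) : (2 : ℝ) ^ (x * p) = ((2 : ℝ) ^ x) ^ p :=
  Real.rpow_mul (by norm_num) _ _

lemma term_one {C Kp t s p : ℝ} (hC : 0 < C) (hKp : 0 < Kp) (ht : 0 < t) :
    ((C * t) / (C * Kp)) ^ p * (s / (C * t)) ^ 2
      = Kp ^ (-p) * (C ^ 2)⁻¹ * (t ^ (p - 2) * s ^ 2) := by
  have e1 : (C * t) / (C * Kp) = t / Kp := by field_simp
  rw [e1, Real.div_rpow ht.le hKp.le, Real.rpow_neg hKp.le, Real.rpow_sub ht]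
  rw [Real.rpow_two]
  have : 0 < Kp ^ p := Real.rpow_pos_of_pos hKp _
  have : 0 < t ^ p := Real.rpow_pos_of_pos ht _
  field_simp

lemma term_two {C Kp t s p : ℝ} (hC : 0 < C) (hKp : 0 < Kp) (ht : 0 < t) :
    ((C * t) / (C * Kp)) ^ p * (s * ((C * Kp) / (C * t))) ^ 2
      = Kp ^ (2 - p) * (t ^ (p - 2) * s ^ 2) := by
  have e1 : (C * t) / (C * Kp) = t / Kp := by field_simp
  have e2 : (C * Kp) / (C * t) = Kp / t := by field_simp
  rw [e1, e2, Real.div_rpow ht.le hKp.le, Real.rpow_sub hKp, Real.rpow_sub ht, Real.rpow_two]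
  have : 0 < Kp ^ p := Real.rpow_pos_of_pos hKp _
  have : 0 < t ^ p := Real.rpow_pos_of_pos ht _
  rw [Real.rpow_two]
  field_simp

lemma nat_le_two_rpow (m : ℕ) : (m : ℝ) ≤ (2 : ℝ) ^ (m : ℝ) := by
  rw [Real.rpow_natCast]
  exact_mod_cast (Nat.lt_two_pow_self (n := m)).le

section common

variable {n T : ℕ} {y : Fin n → Fin T → ℝ} {p C0 A W τ : ℝ} {L a₀ : ℕ}
  {I : Type} [Fintype I] {u : I → ℤ} {ψ : I → Fin n → ℝ}

/-- The scale factors: `2^u ≤ 2^(2L) 2^a₀`. -/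
lemma two_u_le (hB : BandFacts y p C0 A W τ L a₀ u ψ) (i : I) :
    (2 : ℝ) ^ (u i : ℝ) ≤ (2 : ℝ) ^ ((2 * L : ℕ) : ℝ) * (2 : ℝ) ^ (a₀ : ℝ) := by
  rw [← Real.rpow_add (by norm_num)]
  apply Real.rpow_le_rpow_of_exponent_le (by norm_num)
  have := hB.b0 i
  push_cast
  exact_mod_cast this

end common

section assemble

variable (P : Par)

/-- The band parameters `b i = C0 * 2^(u i)`. -/
lemma bi_le_K (hP : P.Ok) {n : ℕ} (hn : 2 ≤ n) {T : ℕ} {y : Fin n → Fin T → ℝ} {τ : ℝ}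
    {I : Type} [Fintype I] {u : I → ℤ} {ψ : I → Fin n → ℝ} {a₀ : ℕ}
    (hB : BandFacts y P.p (P.C0 n) (P.An n) P.V₁ τ (P.L n) a₀ u ψ)
    (hYa : (2 : ℝ) ^ (a₀ : ℝ) ≤ P.Y n) (i : I) :
    P.C0 n * (2 : ℝ) ^ (u i : ℝ) ≤ P.K n := by
  unfold Par.K Par.Kp
  apply mul_le_mul_of_nonneg_left _ (Par.C0_pos hP hn).le
  have h1 := two_u_le hB i
  have h3 : 0 ≤ (2 : ℝ) ^ ((2 * P.L n : ℕ) : ℝ) := by positivity
  exact h1.trans (mul_le_mul_of_nonneg_left hYa h3)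

lemma K_eq (n : ℕ) : P.K n = P.C0 n * P.Kp n := rfl

/-- The variance hypothesis, with a prefactor `X ≤ Kp^p`. -/
lemma hV_one (hP : P.Ok) {n : ℕ} (hn : 2 ≤ n) {T : ℕ} {y : Fin n → Fin T → ℝ} {τ : ℝ}
    {I : Type} [Fintype I] {u : I → ℤ} {ψ : I → Fin n → ℝ} {a₀ : ℕ}
    (hB : BandFacts y P.p (P.C0 n) (P.An n) P.V₁ τ (P.L n) a₀ u ψ)
    (hX : (2 * (P.L n : ℝ)) * (2 : ℝ) ^ (2 * (P.L n : ℝ) * max 0 (P.p - 2)) ≤ P.Kp n ^ P.p)
    (a b : Fin n) :
    ∑ i, (P.C0 n * (2 : ℝ) ^ (u i : ℝ) / P.K n) ^ P.p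
        * (((ψ i a - ψ i b) / lpn P.p (fun t => y a t - y b t))
          / (P.C0 n * (2 : ℝ) ^ (u i : ℝ))) ^ 2 ≤ P.V₁ := by
  have hC := Par.C0_pos hP hn
  have hKp : 0 < P.Kp n := by linarith [Par.Kp_ge_one hP hn]
  have hV := hP.hV₁
  have e : ∀ i, (P.C0 n * (2 : ℝ) ^ (u i : ℝ) / P.K n) ^ P.p
        * (((ψ i a - ψ i b) / lpn P.p (fun t => y a t - y b t))
          / (P.C0 n * (2 : ℝ) ^ (u i : ℝ))) ^ 2
      = P.Kp n ^ (-P.p) * (P.C0 n ^ 2)⁻¹ * ((2 : ℝ) ^ ((u i : ℝ) * (P.p - 2))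
        * ((ψ i a - ψ i b) / lpn P.p (fun t => y a t - y b t)) ^ 2) := by
    intro i
    rw [K_eq, term_one hC hKp (by positivity), two_rpow_mul_p]
  rw [Finset.sum_congr rfl (fun i _ => e i), ← Finset.mul_sum]
  have h2 := hB.b2 a b
  have hKpp : 0 < P.Kp n ^ P.p := Real.rpow_pos_of_pos hKp _
  have hneg : P.Kp n ^ (-P.p) = (P.Kp n ^ P.p)⁻¹ := Real.rpow_neg hKp.le _
  have hinv : 0 < P.Kp n ^ (-P.p) * (P.C0 n ^ 2)⁻¹ := by
    rw [hneg]; positivity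
  calc P.Kp n ^ (-P.p) * (P.C0 n ^ 2)⁻¹ * _
      ≤ P.Kp n ^ (-P.p) * (P.C0 n ^ 2)⁻¹
        * (P.C0 n ^ 2 * (P.V₁ * (2 * (P.L n : ℝ)) * (2 : ℝ) ^ (2 * (P.L n : ℝ) * max 0 (P.p - 2)))) :=
        mul_le_mul_of_nonneg_left h2 hinv.le
    _ = (P.Kp n ^ P.p)⁻¹ * ((2 * (P.L n : ℝ)) * (2 : ℝ) ^ (2 * (P.L n : ℝ) * max 0 (P.p - 2))) * P.V₁ := by
        rw [hneg]; field_simp
    _ ≤ 1 * P.V₁ := by
        apply mul_le_mul_of_nonneg_right _ hV
        rw [inv_mul_le_iff₀ hKpp, mul_one]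
        exact hX
    _ = P.V₁ := one_mul _

/-- The common conclusion: once the family is built, `FiniteCore` follows. -/
lemma finish (hP : P.Ok) (hε' : P.ε ≤ 1 / 4) {Dd : ℝ} (hDd0 : 0 ≤ Dd)
    (hDd : (1 + 2 * P.ε) / (1 - 2 * P.ε) ≤ Dd ^ P.p)
    {n T : ℕ} (hn : 2 ≤ n) (y : Fin n → Fin T → ℝ) (hy : Function.Injective y)
    {m : ℕ} (w : Fin m → ℝ) (f : Fin m → Fin n → ℝ) (hw0 : ∀ j, 0 ≤ w j) (hw1 : ∑ j, w j = 1)
    (hf : ∀ j a b, |(f j a - f j b) / lpn P.p (fun t => y a t - y b t)| ≤ P.K n * P.u n)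
    (hlo : ∀ a b, a ≠ b → P.An n * (1 - P.ε)
      ≤ ∑ j, w j * |(f j a - f j b) / lpn P.p (fun t => y a t - y b t)| ^ P.p)
    (hhi : ∀ a b, a ≠ b →
      ∑ j, w j * |(f j a - f j b) / lpn P.p (fun t => y a t - y b t)| ^ P.p
        ≤ P.An n * (1 + P.ε)) :
    ∃ (z : Fin n → Fin (P.N n) → ℝ) (s : ℝ), 0 < s ∧ ∀ i j,
      s * lpn P.p (fun t => y i t - y j t) ≤ lpn P.p (fun t => z i t - z j t) ∧
      lpn P.p (fun t => z i t - z j t) ≤ Dd * s * lpn P.p (fun t => y i t - y j t) :=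
  embed_core_of_family y hy hn (Par.p_pos hP) (Par.An_pos hP n) hP.hε hε' hDd0 hDd w f hw0 hw1
    (K := P.Kf n) hf hlo hhi (Par.N_pos hP n) (Par.N_ok hP hn)

end assemble

/-! ### The branch `p < 2` -/

theorem finiteCore_low {p K0 : ℝ} {A : ℕ → ℝ} (hp1 : 1 < p) (hp2 : p < 2)
    (hK0 : 1 ≤ K0 * Real.log 2)
    (hAlo : ∀ L : ℕ, 1 ≤ L → (L : ℝ) * (2 : ℝ) ^ (-p) ≤ A L)
    (hAhi : ∀ L : ℕ, 1 ≤ L → A L ≤ 2 * L)
    (hB : BandsLow p (2 - p) K0 A) : FiniteCore p (2 - p) := by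
  intro D hD
  have hp0 : 0 < p := by linarith
  have ha : 1 < D ^ p := Real.one_lt_rpow hD hp0
  obtain ⟨ε, hε, hε', hDd⟩ := exists_eps ha
  have hτ : 0 < ε / 4 := by positivity
  obtain ⟨c, W, CM, a₀, hc, hW, hCM, hBands⟩ := hB (ε / 4) hτ
  -- the constant `Y`
  set Y0 : ℝ := max ((2 : ℝ) ^ (a₀ : ℝ)) ((CM / (ε / 4)) ^ (1 / p)) with hY0
  have hYa : (2 : ℝ) ^ (a₀ : ℝ) ≤ Y0 := le_max_left _ _
  have hY1 : 1 ≤ Y0 :=
    (Real.one_le_rpow (by norm_num) (by positivity)).trans hYa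
  have hYp : CM / (ε / 4) ≤ Y0 ^ p := by
    have h1 : (CM / (ε / 4)) ^ (1 / p) ≤ Y0 := le_max_right _ _
    have h2 : 0 ≤ CM / (ε / 4) := by positivity
    calc CM / (ε / 4) = ((CM / (ε / 4)) ^ (1 / p)) ^ p := by
          rw [← Real.rpow_mul h2, one_div, inv_mul_cancel₀ hp0.ne', Real.rpow_one]
      _ ≤ Y0 ^ p := Real.rpow_le_rpow (by positivity) h1 hp0.le
  let P : Par := ⟨p, 2 - p, W, K0, c, 0, ε, fun _ => Y0, A⟩
  have hP : P.Ok :=
    { hp := hp1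
      hγ := by show 0 < 2 - p; linarith
      hγ1 := by show 2 - p ≤ 1; linarith
      hV₁ := hW
      hK0 := hK0
      hc := hc
      hL₀ := le_rfl
      hε := hε
      hY1 := fun _ _ => hY1
      hYlog := by
        show OLog (2 - p) (fun _ => Real.log Y0)
        exact OLog.const (by linarith) _
      hAlo := hAlo
      hAhi := hAhi }
  obtain ⟨C, hC⟩ := Par.N_bound hP
  refine ⟨C, fun n hn T y hy => ?_⟩
  refine ⟨P.N n, hC n hn, ?_⟩
  have hL1 := Par.L_ge_one hP n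
  have hLmain := Par.L_ge_main hP n
  obtain ⟨I, instI, u, ψ, hfacts, hlow⟩ := hBands n hn T y hy (P.L n) hL1 hLmain
  classical
  have hC0 := Par.C0_pos hP hn
  have hKp1 := Par.Kp_ge_one hP hn
  have hKp : 0 < P.Kp n := by linarith
  have hK1 := Par.K_ge_one hP hn
  have hX : (2 * (P.L n : ℝ)) * (2 : ℝ) ^ (2 * (P.L n : ℝ) * max 0 (P.p - 2)) ≤ P.Kp n ^ P.p := by
    have e : max 0 (P.p - 2) = 0 := by
      apply max_eq_left
      show p - 2 ≤ 0
      linarith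
    rw [e, mul_zero, Real.rpow_zero, mul_one]
    have h1 : P.Kp n ≤ P.Kp n ^ p := by
      calc P.Kp n = P.Kp n ^ (1 : ℝ) := (Real.rpow_one _).symm
        _ ≤ _ := Real.rpow_le_rpow_of_exponent_le hKp1 hp1.le
    have h2 : (2 : ℝ) ^ ((2 * P.L n : ℕ) : ℝ) ≤ P.Kp n := by
      have hKpe : P.Kp n = (2 : ℝ) ^ ((2 * P.L n : ℕ) : ℝ) * Y0 := rfl
      rw [hKpe]
      have : (0 : ℝ) ≤ (2 : ℝ) ^ ((2 * P.L n : ℕ) : ℝ) := by positivity
      nlinarith
    have h3 := nat_le_two_rpow (2 * P.L n)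
    push_cast at h3 h2
    push_cast
    linarith
  have hτ₁ := Par.τ₁_pos hP n
  -- the family
  obtain ⟨m, w, f, hw0, hw1, hf, hup, hlo⟩ :=
    Sampling.family_le_two (V := Fin n) (I := I)
      (fun a b => lpn p (fun t => y a t - y b t)) ψ
      (fun i => P.C0 n * (2 : ℝ) ^ (u i : ℝ)) (p := p) (K := P.K n) (u := P.u n) (V₁ := W)
      (τ := P.τ₁ n) hp1.le hp2.le (by linarith) (fun i => by positivity)
      (fun i => bi_le_K P hP hn hfacts hYa i)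
      (fun a b i => hfacts.b1 a b i)
      (fun a b => hV_one P hP hn hfacts hX a b)
      hτ₁ (by linarith [Par.u_ge_one hP n])
      (by
        rw [Fintype.card_fin]
        exact Par.hu_ok hP hn)
  have hDd0 : (0 : ℝ) ≤ D := by linarith
  have hAn := Par.An_pos hP n
  refine finish P hP hε' hDd0 hDd hn y hy w f hw0 hw1 hf ?_ ?_
  · -- lower bound
    intro a b hab
    obtain ⟨M, hM1, hM2⟩ := hlow a b hab
    have h := hlo a b M
    have hq : ∑ i ∈ M, (P.C0 n * (2 : ℝ) ^ (u i : ℝ) / P.K n) ^ p ≤ ε / 4 := by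
      have hKpp : 0 < P.Kp n ^ p := Real.rpow_pos_of_pos hKp _
      have e : ∀ i ∈ M, (P.C0 n * (2 : ℝ) ^ (u i : ℝ) / P.K n) ^ p
          = (P.Kp n ^ p)⁻¹ * (2 : ℝ) ^ ((u i : ℝ) * p) := by
        intro i _
        have e1 : P.C0 n * (2 : ℝ) ^ (u i : ℝ) / P.K n = (2 : ℝ) ^ (u i : ℝ) / P.Kp n := by
          rw [K_eq]; field_simp
        rw [e1, Real.div_rpow (by positivity) hKp.le, two_rpow_mul_p]
        field_simp
      rw [Finset.sum_congr rfl e, ← Finset.mul_sum]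
      have eKp : P.Kp n ^ p = (2 : ℝ) ^ (2 * ((P.L n : ℕ) : ℝ) * p) * Y0 ^ p := by
        show ((2 : ℝ) ^ ((2 * P.L n : ℕ) : ℝ) * Y0) ^ p = _
        rw [Real.mul_rpow (by positivity) (by linarith), ← Real.rpow_mul (by norm_num)]
        push_cast
        ring_nf
      have h2pos : 0 < (2 : ℝ) ^ (2 * ((P.L n : ℕ) : ℝ) * p) := by positivity
      have hY0p : 0 < Y0 ^ p := Real.rpow_pos_of_pos (by linarith) _
      calc (P.Kp n ^ p)⁻¹ * ∑ i ∈ M, (2 : ℝ) ^ ((u i : ℝ) * p)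
          ≤ (P.Kp n ^ p)⁻¹ * (CM * (2 : ℝ) ^ (2 * ((P.L n : ℕ) : ℝ) * p)) :=
            mul_le_mul_of_nonneg_left hM2 (by positivity)
        _ = CM / Y0 ^ p := by
            rw [eKp]; field_simp
        _ ≤ ε / 4 := by
            rw [div_le_iff₀ hY0p]
            rw [div_le_iff₀ hτ] at hYp
            linarith
    have hX0 : 0 ≤ ∑ i ∈ M, |(ψ i a - ψ i b) / lpn p (fun t => y a t - y b t)| ^ p :=
      Finset.sum_nonneg fun _ _ => Real.rpow_nonneg (abs_nonneg _) _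
    have h1 : (1 - ε / 4) * ((1 - ε / 4) * P.An n)
        ≤ (1 - ∑ i ∈ M, (P.C0 n * (2 : ℝ) ^ (u i : ℝ) / P.K n) ^ p)
          * ∑ i ∈ M, |(ψ i a - ψ i b) / lpn p (fun t => y a t - y b t)| ^ p := by
      have h5 : (0 : ℝ) ≤ 1 - ε / 4 := by linarith
      calc (1 - ε / 4) * ((1 - ε / 4) * P.An n)
          ≤ (1 - ε / 4) * ∑ i ∈ M, |(ψ i a - ψ i b) / lpn p (fun t => y a t - y b t)| ^ p :=
            mul_le_mul_of_nonneg_left hM1 h5
        _ ≤ _ := mul_le_mul_of_nonneg_right (by linarith) hX0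
    have hτ₁e : P.τ₁ n = ε / 4 * P.An n := rfl
    have h2 : P.An n * (1 - ε) ≤ (1 - ε / 4) * ((1 - ε / 4) * P.An n) - P.τ₁ n := by
      rw [hτ₁e]
      nlinarith [mul_pos hε hAn, mul_pos (mul_pos hε hε) hAn]
    show P.An n * (1 - ε) ≤ _
    linarith
  · -- upper bound
    intro a b hab
    have h1 := hup a b
    have h2 := hfacts.b3 a b hab
    have h3 : (1 + ε / 4) * P.An n ≤ P.An n * (1 + ε) := by nlinarith
    exact h1.trans (h2.trans h3)

/-! ### The branch `p > 2` -/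

set_option maxHeartbeats 1000000 in
theorem finiteCore_high {p K0 : ℝ} {A : ℕ → ℝ} (hp2 : 2 < p)
    (hK0 : 1 ≤ K0 * Real.log 2)
    (hAlo : ∀ L : ℕ, 1 ≤ L → (L : ℝ) * (2 : ℝ) ^ (-p) ≤ A L)
    (hAhi : ∀ L : ℕ, 1 ≤ L → A L ≤ 2 * L)
    (hB : BandsHigh p (1 - 2 / p) K0 A) : FiniteCore p (1 - 2 / p) := by
  intro D hD
  have hp0 : 0 < p := by linarith
  have hp1 : 1 < p := by linarith
  have hγ : 0 < 1 - 2 / p := by
    have : 2 / p < 1 := by rw [div_lt_one hp0]; exact hp2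
    linarith
  have hγ1 : 1 - 2 / p ≤ 1 := by
    have : 0 ≤ 2 / p := by positivity
    linarith
  have ha : 1 < D ^ p := Real.one_lt_rpow hD hp0
  obtain ⟨ε, hε, hε', hDd⟩ := exists_eps ha
  have hτ : 0 < ε / 8 := by positivity
  obtain ⟨c, W, a₀, hc, hW, hBands⟩ := hB (ε / 8) hτ
  -- `θ` and `η`
  have h1ε : 1 < 1 + ε / 8 := by linarith
  set θ : ℝ := (1 + ε / 8) ^ (1 / (2 * (p - 1))) - 1 with hθdef
  have hp10 : 0 < p - 1 := by linarith
  have hθ : 0 < θ := by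
    have : 1 < (1 + ε / 8) ^ (1 / (2 * (p - 1))) := Real.one_lt_rpow h1ε (by positivity)
    rw [hθdef]; linarith
  have hθe : (1 + θ) ^ (p - 1) * (1 + θ) ^ (p - 1) = 1 + ε / 8 := by
    have e1 : 1 + θ = (1 + ε / 8) ^ (1 / (2 * (p - 1))) := by rw [hθdef]; ring
    rw [← Real.rpow_add (by linarith), e1, ← Real.rpow_mul (by linarith)]
    have : 1 / (2 * (p - 1)) * (p - 1 + (p - 1)) = 1 := by field_simp; ring
    rw [this, Real.rpow_one]
  set cθ : ℝ := (1 + 1 / θ) ^ (p - 1) - 1 with hcθ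
  have hcθpos : 0 < cθ := by
    have : 1 < (1 + 1 / θ) ^ (p - 1) := by
      apply Real.one_lt_rpow _ hp10
      have : 0 < 1 / θ := by positivity
      linarith
    rw [hcθ]; linarith
  set η : ℝ := Real.log (1 + ε / 8) / cθ with hηdef
  have hη : 0 < η := div_pos (Real.log_pos h1ε) hcθpos
  have hηe : Real.exp (cθ * η) = 1 + ε / 8 := by
    rw [hηdef, mul_div_cancel₀ _ hcθpos.ne', Real.exp_log (by linarith)]
  -- the additive constant
  set C₁ : ℝ := (1 + 1 / θ) ^ (p - 1) * (p ^ p * (2 * Real.exp η)) with hC₁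
  have hC₁0 : 0 ≤ C₁ := by rw [hC₁]; positivity
  set L₀ : ℝ := 2 * C₁ * (2 : ℝ) ^ p / ε with hL₀def
  have hL₀0 : 0 ≤ L₀ := by rw [hL₀def]; positivity
  -- the function `Y`
  have hpm2 : 0 < p - 2 := by linarith
  have hK00 : 0 < K0 := by
    by_contra hc'
    push Not at hc'
    have : K0 * Real.log 2 ≤ 0 := mul_nonpos_of_nonpos_of_nonneg hc' log_two_pos'.le
    linarith
  let P₀ : Par := ⟨p, 1 - 2 / p, W, K0, c, L₀, ε, fun _ => 1, A⟩
  let Yf : ℕ → ℝ := fun n =>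
    max ((2 : ℝ) ^ (a₀ : ℝ)) (((K0 * Real.log n) ^ 2 * (2 * (P₀.L n : ℝ)) * ((W + 1) / η)) ^ (1 / (p - 2)))
  have hYfa : ∀ n, (2 : ℝ) ^ (a₀ : ℝ) ≤ Yf n := fun n => le_max_left _ _
  have hYf1 : ∀ n, 1 ≤ Yf n := fun n =>
    (Real.one_le_rpow (by norm_num) (by positivity)).trans (hYfa n)
  let P : Par := ⟨p, 1 - 2 / p, W, K0, c, L₀, ε, Yf, A⟩
  have hLe : ∀ n, P.L n = P₀.L n := fun _ => rfl
  have hLog₀ : OLog (1 - 2 / p) (fun n => (P₀.L n : ℝ)) :=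
    Par.olog_L_of (P := P₀) hγ hK00 hc hL₀0
  have hL₀pos : ∀ n, 1 ≤ (P₀.L n : ℝ) := fun n => by
    have : 1 ≤ P₀.L n := by unfold Par.L; omega
    exact_mod_cast this
  have hYlog : OLog (1 - 2 / p) (fun n => Real.log (Yf n)) := by
    have hO : OLog (1 - 2 / p) (fun n => (a₀ : ℝ) * Real.log 2 + 
        (1 / (p - 2)) * (2 * Real.log (K0 * Real.log n) + 2 * (P₀.L n : ℝ)
          + |Real.log ((W + 1) / η)|)) := by
      refine (OLog.const hγ.le _).add ?_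
      apply OLog.const_mul (by positivity)
      have hlc : OLog (1 - 2 / p) (fun n => Real.log (K0 * Real.log n)) := by
        refine OLog.mono (fun n hn => ?_) ((OLog.const hγ.le (Real.log K0)).add (OLog.log_log hγ))
        rw [Real.log_mul hK00.ne' (log_nat_pos hn).ne']
      exact ((OLog.const_mul (by norm_num) hlc).add (OLog.const_mul (by norm_num) hLog₀)).add
        (OLog.const hγ.le _)
    refine OLog.mono (fun n hn => ?_) hO
    show Real.log (max ((2 : ℝ) ^ (a₀ : ℝ)) (((K0 * Real.log n) ^ 2 * (2 * (P₀.L n : ℝ)) * ((W + 1) / η))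
      ^ (1 / (p - 2)))) ≤ _
    have hk := log_nat_pos hn
    have hC1 : 1 ≤ K0 * Real.log n := by
      have := log_nat_ge hn
      nlinarith
    have hlogC : 0 ≤ Real.log (K0 * Real.log n) := Real.log_nonneg hC1
    have hLn := hL₀pos n
    have hWη : 0 < (W + 1) / η := by
      have : 0 < W + 1 := by linarith
      positivity
    have hmain : 0 ≤ (1 / (p - 2)) * (2 * Real.log (K0 * Real.log n) + 2 * (P₀.L n : ℝ)
        + |Real.log ((W + 1) / η)|) := by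
      have := abs_nonneg (Real.log ((W + 1) / η))
      positivity
    have hpos : 0 < (K0 * Real.log n) ^ 2 * (2 * (P₀.L n : ℝ)) * ((W + 1) / η) := by
      positivity
    have ha0 : 0 ≤ (a₀ : ℝ) * Real.log 2 := by
      have := log_two_pos'
      positivity
    rcases le_total ((2 : ℝ) ^ (a₀ : ℝ)) (((K0 * Real.log n) ^ 2 * (2 * (P₀.L n : ℝ)) * ((W + 1) / η))
        ^ (1 / (p - 2))) with h | h
    · rw [max_eq_right h, Real.log_rpow hpos]
      rw [Real.log_mul (by positivity) hWη.ne', Real.log_mul (by positivity) (by positivity),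
        Real.log_pow]
      have h3 : (1 / (p - 2)) * ((2 : ℕ) * Real.log (K0 * Real.log n) + Real.log (2 * (P₀.L n : ℝ))
            + Real.log ((W + 1) / η))
          ≤ (1 / (p - 2)) * (2 * Real.log (K0 * Real.log n) + 2 * (P₀.L n : ℝ)
            + |Real.log ((W + 1) / η)|) := by
        apply mul_le_mul_of_nonneg_left _ (by positivity)
        have h1 := le_abs_self (Real.log ((W + 1) / η))
        have h2 : Real.log (2 * (P₀.L n : ℝ)) ≤ 2 * (P₀.L n : ℝ) - 1 :=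
          Real.log_le_sub_one_of_pos (by positivity)
        push_cast
        linarith
      linarith
    · rw [max_eq_left h, Real.log_rpow (by norm_num)]
      linarith
  have hP : P.Ok :=
    { hp := hp1
      hγ := hγ
      hγ1 := hγ1
      hV₁ := hW
      hK0 := hK0
      hc := hc
      hL₀ := hL₀0
      hε := hε
      hY1 := fun n _ => hYf1 n
      hYlog := hYlog
      hAlo := hAlo
      hAhi := hAhi }
  obtain ⟨C, hC⟩ := Par.N_bound hP
  refine ⟨C, fun n hn T y hy => ?_⟩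
  refine ⟨P.N n, hC n hn, ?_⟩
  have hL1 := Par.L_ge_one hP n
  have hLmain := Par.L_ge_main hP n
  obtain ⟨I, instI, u, ψ, hfacts, hhigh⟩ := hBands n hn T y hy (P.L n) hL1 hLmain
  classical
  have hC0 := Par.C0_pos hP hn
  have hKp1 := Par.Kp_ge_one hP hn
  have hKp : 0 < P.Kp n := by linarith
  have hK1 := Par.K_ge_one hP hn
  have hKpe : P.Kp n = (2 : ℝ) ^ ((2 * P.L n : ℕ) : ℝ) * Yf n := rfl
  have hY1n := hYf1 n
  have h2L1 : (1 : ℝ) ≤ (2 : ℝ) ^ (2 * ((P.L n : ℕ) : ℝ)) :=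
    Real.one_le_rpow (by norm_num) (by positivity)
  have hX : (2 * (P.L n : ℝ)) * (2 : ℝ) ^ (2 * (P.L n : ℝ) * max 0 (P.p - 2)) ≤ P.Kp n ^ P.p := by
    have e : max 0 (P.p - 2) = p - 2 := by
      apply max_eq_right
      show 0 ≤ p - 2
      linarith
    rw [e]
    show _ ≤ P.Kp n ^ p
    rw [hKpe, Real.mul_rpow (by positivity) (by linarith)]
    have h1 : (2 * (P.L n : ℝ)) * (2 : ℝ) ^ (2 * ((P.L n : ℕ) : ℝ) * (p - 2))
        ≤ ((2 : ℝ) ^ ((2 * P.L n : ℕ) : ℝ)) ^ p := by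
      have h3 := nat_le_two_rpow (2 * P.L n)
      have e2 : ((2 : ℝ) ^ ((2 * P.L n : ℕ) : ℝ)) ^ p
          = (2 : ℝ) ^ (2 * ((P.L n : ℕ) : ℝ) * (p - 2)) * (2 : ℝ) ^ (2 * ((P.L n : ℕ) : ℝ) * 2) := by
        rw [← Real.rpow_mul (by norm_num), ← Real.rpow_add (by norm_num)]
        congr 1
        push_cast
        ring
      rw [e2, mul_comm]
      apply mul_le_mul_of_nonneg_left _ (by positivity)
      push_cast at h3
      refine h3.trans ?_
      apply Real.rpow_le_rpow_of_exponent_le (by norm_num)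
      have : (0 : ℝ) ≤ (P.L n : ℝ) := by positivity
      push_cast
      linarith
    have h2 : 1 ≤ Yf n ^ p := Real.one_le_rpow hY1n hp0.le
    have h3 : 0 ≤ ((2 : ℝ) ^ ((2 * P.L n : ℕ) : ℝ)) ^ p := by positivity
    nlinarith
  have hτ₁ := Par.τ₁_pos hP n
  -- the family
  obtain ⟨m, w, f, hw0, hw1, hf, hlo, hup⟩ :=
    Sampling.family_ge_two (V := Fin n) (I := I)
      (fun a b => lpn p (fun t => y a t - y b t)) ψ
      (fun i => P.C0 n * (2 : ℝ) ^ (u i : ℝ)) (p := p) (K := P.K n) (u := P.u n) (V₁ := W)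
      (τ := P.τ₁ n) hp2.le (by linarith) (fun i => by positivity)
      (fun i => bi_le_K P hP hn hfacts (hYfa n) i)
      (fun a b i => hfacts.b1 a b i)
      (fun a b => hV_one P hP hn hfacts hX a b)
      hτ₁ (by linarith [Par.u_ge_one hP n])
      (by
        rw [Fintype.card_fin]
        exact Par.hu_ok hP hn)
  have hDd0 : (0 : ℝ) ≤ D := by linarith
  have hAn := Par.An_pos hP n
  have hτ₁e : P.τ₁ n = ε / 4 * P.An n := rfl
  refine finish P hP hε' hDd0 hDd hn y hy w f hw0 hw1 hf ?_ ?_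
  · -- lower bound
    intro a b hab
    have h1 := hlo a b
    have h2 := hhigh a b hab
    have h3 : P.An n * (1 - ε) ≤ (1 - ε / 8) * P.An n - P.τ₁ n := by
      rw [hτ₁e]
      nlinarith [mul_pos hε hAn]
    show P.An n * (1 - ε) ≤ _
    have h4 : (1 - ε / 8) * P.An n ≤ ∑ i, |(ψ i a - ψ i b) / lpn p (fun t => y a t - y b t)| ^ p := h2
    linarith
  · -- upper bound
    intro a b hab
    -- the second variance
    have hV₂ : ∑ i, (P.C0 n * (2 : ℝ) ^ (u i : ℝ) / P.K n) ^ p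
        * (((ψ i a - ψ i b) / lpn p (fun t => y a t - y b t))
          * (P.K n / (P.C0 n * (2 : ℝ) ^ (u i : ℝ)))) ^ 2 ≤ η := by
      have e : ∀ i, (P.C0 n * (2 : ℝ) ^ (u i : ℝ) / P.K n) ^ p
          * (((ψ i a - ψ i b) / lpn p (fun t => y a t - y b t))
            * (P.K n / (P.C0 n * (2 : ℝ) ^ (u i : ℝ)))) ^ 2
          = P.Kp n ^ (2 - p) * ((2 : ℝ) ^ ((u i : ℝ) * (p - 2))
            * ((ψ i a - ψ i b) / lpn p (fun t => y a t - y b t)) ^ 2) := by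
        intro i
        rw [K_eq, term_two hC0 hKp (by positivity), two_rpow_mul_p]
      rw [Finset.sum_congr rfl (fun i _ => e i), ← Finset.mul_sum]
      have h2 := hfacts.b2 a b
      have hmx : max 0 (p - 2) = p - 2 := max_eq_right (by linarith)
      rw [hmx] at h2
      have hKp2 : 0 < P.Kp n ^ (2 - p) := Real.rpow_pos_of_pos hKp _
      have hneg : P.Kp n ^ (2 - p) = ((2 : ℝ) ^ ((2 * P.L n : ℕ) : ℝ)) ^ (2 - p) * Yf n ^ (2 - p) := by
        rw [hKpe, Real.mul_rpow (by positivity) (by linarith)]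
      have hcancel : ((2 : ℝ) ^ ((2 * P.L n : ℕ) : ℝ)) ^ (2 - p)
          * (2 : ℝ) ^ (2 * ((P.L n : ℕ) : ℝ) * (p - 2)) = 1 := by
        rw [← Real.rpow_mul (by norm_num), ← Real.rpow_add (by norm_num)]
        have : (((2 * P.L n : ℕ) : ℝ) * (2 - p) + 2 * ((P.L n : ℕ) : ℝ) * (p - 2)) = 0 := by
          push_cast
          ring
        rw [this, Real.rpow_zero]
      calc P.Kp n ^ (2 - p) * _
          ≤ P.Kp n ^ (2 - p)
            * (P.C0 n ^ 2 * (W * (2 * ((P.L n : ℕ) : ℝ))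
              * (2 : ℝ) ^ (2 * ((P.L n : ℕ) : ℝ) * (p - 2)))) :=
            mul_le_mul_of_nonneg_left h2 hKp2.le
        _ = Yf n ^ (2 - p) * (P.C0 n ^ 2 * (W * (2 * ((P.L n : ℕ) : ℝ))))
            * (((2 : ℝ) ^ ((2 * P.L n : ℕ) : ℝ)) ^ (2 - p)
              * (2 : ℝ) ^ (2 * ((P.L n : ℕ) : ℝ) * (p - 2))) := by
            rw [hneg]; ring
        _ = Yf n ^ (2 - p) * (P.C0 n ^ 2 * (W * (2 * ((P.L n : ℕ) : ℝ)))) := by
            rw [hcancel, mul_one]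
        _ ≤ η := by
            -- `Y^(p-2) ≥ C0² (2L) (W+1)/η`
            have hx0 : 0 ≤ (K0 * Real.log n) ^ 2 * (2 * (P₀.L n : ℝ)) * ((W + 1) / η) := by
              have := hL₀pos n
              have : 0 < W + 1 := by linarith
              positivity
            have hYge : (K0 * Real.log n) ^ 2 * (2 * (P₀.L n : ℝ)) * ((W + 1) / η)
                ≤ Yf n ^ (p - 2) := by
              have h5 : ((K0 * Real.log n) ^ 2 * (2 * (P₀.L n : ℝ)) * ((W + 1) / η))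
                  ^ (1 / (p - 2)) ≤ Yf n :=
                le_max_right _ _
              calc (K0 * Real.log n) ^ 2 * (2 * (P₀.L n : ℝ)) * ((W + 1) / η)
                  = (((K0 * Real.log n) ^ 2 * (2 * (P₀.L n : ℝ)) * ((W + 1) / η))
                      ^ (1 / (p - 2))) ^ (p - 2) := by
                    rw [← Real.rpow_mul hx0, one_div, inv_mul_cancel₀ hpm2.ne', Real.rpow_one]
                _ ≤ Yf n ^ (p - 2) := Real.rpow_le_rpow (by positivity) h5 hpm2.le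
            have hYp0 : 0 < Yf n ^ (p - 2) := Real.rpow_pos_of_pos (by linarith) _
            have hY2 : Yf n ^ (2 - p) = (Yf n ^ (p - 2))⁻¹ := by
              rw [← Real.rpow_neg (by linarith)]; congr 1; ring
            rw [hY2, inv_mul_le_iff₀ hYp0]
            have hC0e : P.C0 n = K0 * Real.log n := rfl
            rw [hC0e]
            have hLe' : ((P.L n : ℕ) : ℝ) = (P₀.L n : ℝ) := rfl
            rw [hLe']
            have hLn := hL₀pos n
            have hsq : 0 ≤ (K0 * Real.log n) ^ 2 * (2 * (P₀.L n : ℝ)) := by positivity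
            have e3 : (K0 * Real.log n) ^ 2 * (2 * (P₀.L n : ℝ)) * ((W + 1) / η) * η
                = (K0 * Real.log n) ^ 2 * (2 * (P₀.L n : ℝ)) * (W + 1) := by
              field_simp
            have h6 : (K0 * Real.log n) ^ 2 * (2 * (P₀.L n : ℝ)) * (W + 1)
                ≤ η * Yf n ^ (p - 2) := by
              rw [← e3]
              nlinarith
            nlinarith
    have h1 := hup a b θ η hθ hV₂
    have h2 := hfacts.b3 a b hab
    have hs0 : 0 ≤ ∑ i, |(ψ i a - ψ i b) / lpn p (fun t => y a t - y b t)| ^ p :=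
      Finset.sum_nonneg fun _ _ => Real.rpow_nonneg (abs_nonneg _) _
    rw [hθe] at h1
    have e1 : Real.exp (((1 + 1 / θ) ^ (p - 1) - 1) * η) = 1 + ε / 8 := hηe
    rw [e1] at h1
    -- `C₁ ≤ (ε/2) An`
    have hC₁le : C₁ ≤ ε / 2 * P.An n := by
      have hLge : L₀ ≤ (P.L n : ℝ) := Par.L_ge_L₀ hP n
      have hAlo' : (P.L n : ℝ) * (2 : ℝ) ^ (-p) ≤ P.An n := hAlo _ hL1
      have h2p : 0 < (2 : ℝ) ^ p := Real.rpow_pos_of_pos (by norm_num) _
      have hinv : (2 : ℝ) ^ (-p) = ((2 : ℝ) ^ p)⁻¹ := Real.rpow_neg (by norm_num) _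
      rw [hinv] at hAlo'
      rw [hL₀def, div_le_iff₀ hε] at hLge
      have h5 : 2 * C₁ ≤ ε * ((P.L n : ℝ) * ((2 : ℝ) ^ p)⁻¹) := by
        have h6 : 2 * C₁ * (2 : ℝ) ^ p * ((2 : ℝ) ^ p)⁻¹ ≤
            (P.L n : ℝ) * ε * ((2 : ℝ) ^ p)⁻¹ :=
          mul_le_mul_of_nonneg_right hLge (by positivity)
        have h7 : 2 * C₁ * (2 : ℝ) ^ p * ((2 : ℝ) ^ p)⁻¹ = 2 * C₁ := by field_simp
        rw [h7] at h6
        linarith
      have h8 : ε * ((P.L n : ℝ) * ((2 : ℝ) ^ p)⁻¹) ≤ ε * P.An n :=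
        mul_le_mul_of_nonneg_left hAlo' hε.le
      linarith
    show _ ≤ P.An n * (1 + ε)
    have h3 : (1 + ε / 8) * (1 + ε / 8) * ∑ i, |(ψ i a - ψ i b) / lpn p (fun t => y a t - y b t)| ^ p
        ≤ (1 + ε / 8) * (1 + ε / 8) * ((1 + ε / 8) * P.An n) :=
      mul_le_mul_of_nonneg_left h2 (by positivity)
    have hcube : (1 + ε / 8) * (1 + ε / 8) * ((1 + ε / 8) * P.An n) ≤ (1 + ε / 2) * P.An n := by
      apply le_of_sub_nonneg
      have e : (1 + ε / 2) * P.An n - (1 + ε / 8) * (1 + ε / 8) * ((1 + ε / 8) * P.An n)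
          = (P.An n * ε) * (1 / 8 - 3 * (ε / 64) - ε ^ 2 / 512) := by ring
      rw [e]
      apply mul_nonneg (by positivity)
      nlinarith
    have h4 : ∑ j, w j * |(f j a - f j b) / lpn p (fun t => y a t - y b t)| ^ p
        ≤ (1 + ε / 2) * P.An n + C₁ := by
      refine h1.trans ?_
      linarith
    linarith

end Crest.Agent.LpDimRed.Top
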