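/-
S0358 (row 232): from `bands_gt2`, `bands_lt2` to the hypotheses `BandsHigh`, `BandsLow` of `Top`.
-/
import Crest.Agent.Lib.LpDimRed.BandsFam
import Crest.Agent.Lib.LpDimRed.Top

set_option autoImplicit false

namespace Crest.Agent.LpDimRed.Bands

open Finset

section

variable {n T : ℕ} (y : Fin n → Fin T → ℝ) {p : ℝ}

/-- The `ℓ_p` distance of the points. -/
noncomputable def dy (p : ℝ) (a b : Fin n) : ℝ := lpn p (fun t => y a t - y b t)

lemma dy_symm (a b : Fin n) : dy y p a b = dy y p b a := by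
  unfold dy lpn
  congr 1
  apply Finset.sum_congr rfl
  intro t _
  rw [abs_sub_comm]

lemma sum_abs_rpow_pos (hp : 0 < p) (hy : Function.Injective y) {a b : Fin n} (hab : a ≠ b) :
    0 < ∑ t, |y a t - y b t| ^ p := by
  have hne : y a ≠ y b := fun h => hab (hy h)
  obtain ⟨t, ht⟩ := Function.ne_iff.mp hne
  apply Finset.sum_pos' (fun _ _ => by positivity)
  exact ⟨t, Finset.mem_univ _, by
    have : 0 < |y a t - y b t| := abs_pos.mpr (sub_ne_zero.mpr ht)
    positivity⟩

lemma dy_pos (hp : 0 < p) (hy : Function.Injective y) {a b : Fin n} (hab : a ≠ b) :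
    0 < dy y p a b := by
  unfold dy lpn
  have := sum_abs_rpow_pos y hp hy hab
  positivity

lemma dy_self (hp : 0 < p) (a : Fin n) : dy y p a a = 0 := by
  unfold dy lpn
  have h : (p⁻¹ : ℝ) ≠ 0 := inv_ne_zero hp.ne'
  simp [Real.zero_rpow hp.ne', Real.zero_rpow h]

lemma sum_sl_eq_one (hp : 0 < p) (hy : Function.Injective y) {a b : Fin n} (hab : a ≠ b) :
    ∑ t, |sl (dy y p) (fun c => y c t) (a, b)| ^ p = 1 := by
  have hpos := sum_abs_rpow_pos y hp hy hab
  have hd := dy_pos y hp hy hab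
  have hdp : dy y p a b ^ p = ∑ t, |y a t - y b t| ^ p := by
    unfold dy lpn
    rw [← Real.rpow_mul hpos.le, one_div, inv_mul_cancel₀ hp.ne', Real.rpow_one]
  have e : ∀ t, |sl (dy y p) (fun c => y c t) (a, b)| ^ p
      = |y a t - y b t| ^ p / dy y p a b ^ p := by
    intro t
    simp only [sl]
    rw [abs_div, abs_of_pos hd, Real.div_rpow (abs_nonneg _) hd.le]
  simp only [e]
  rw [← Finset.sum_div, hdp, div_self hpos.ne']

end

lemma pplus_eq (p : ℝ) : pplus p = max 0 (p - 2) := rfl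

lemma cK_fin (n : ℕ) : cK (Fin n) = 64 * Real.log n := by
  unfold cK
  simp

/-- `BandsHigh` for the window mass. -/
theorem bandsHigh_winMass {p : ℝ} (hp : 2 < p) :
    Top.BandsHigh p (1 - 2 / p) 64 (winMass p) := by
  have hp0 : 0 < p := by linarith
  intro τ hτ
  obtain ⟨c₀, hc₀, hB⟩ := bands_gt2.{0, 0} hp hτ
  refine ⟨c₀, 2 ^ pplus p, hc₀, by positivity, ?_⟩
  intro n hn T y hy L hL hLc
  have hcard : 2 ≤ Fintype.card (Fin n) := by simpa using hn
  obtain ⟨U, ψ, hb0, hb1, hb2, hb3, hb4⟩ := hB (Fin n) (Fin T) hcard (dy y p) (dy_symm y)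
    (fun a b hab => dy_pos y hp0 hy hab) (dy_self y hp0) (fun t c => y c t)
    (fun a b hab => sum_sl_eq_one y hp0 hy hab) L hL (by rw [cK_fin]; exact hLc)
  refine ⟨Fin T × {u // u ∈ U}, inferInstance, fun i => i.2.1, ψ, ⟨hb0, ?_, ?_, ?_⟩, ?_⟩
  · intro a b i
    have := hb1 i (a, b)
    rw [cK_fin] at this
    exact this
  · intro a b
    have := hb2 (a, b)
    rw [cK_fin] at this
    refine this.trans (le_of_eq ?_)
    unfold Wb
    rw [pplus_eq]
    ring
  · intro a b hab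
    exact hb3 a b hab
  · intro a b hab
    exact hb4 a b hab

/-- `BandsLow` for the window mass. -/
theorem bandsLow_winMass {p : ℝ} (hp1 : 1 < p) (hp2 : p < 2) :
    Top.BandsLow p (2 - p) 64 (winMass p) := by
  have hp0 : 0 < p := by linarith
  intro τ hτ
  obtain ⟨c₀, CM, hc₀, hCM, hB⟩ := bands_lt2.{0, 0} hp1 hp2 hτ
  refine ⟨c₀, 2 ^ pplus p, CM, hc₀, by positivity, hCM.le, ?_⟩
  intro n hn T y hy L hL hLc
  have hcard : 2 ≤ Fintype.card (Fin n) := by simpa using hn
  obtain ⟨U, ψ, hb0, hb1, hb2, hb3, hb4⟩ := hB (Fin n) (Fin T) hcard (dy y p) (dy_symm y)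
    (fun a b hab => dy_pos y hp0 hy hab) (dy_self y hp0) (fun t c => y c t)
    (fun a b hab => sum_sl_eq_one y hp0 hy hab) L hL (by rw [cK_fin]; exact hLc)
  refine ⟨Fin T × {u // u ∈ U}, inferInstance, fun i => i.2.1, ψ, ⟨hb0, ?_, ?_, ?_⟩, ?_⟩
  · intro a b i
    have := hb1 i (a, b)
    rw [cK_fin] at this
    exact this
  · intro a b
    have := hb2 (a, b)
    rw [cK_fin] at this
    refine this.trans (le_of_eq ?_)
    unfold Wb
    rw [pplus_eq]
    ring
  · intro a b hab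
    exact hb3 a b hab
  · intro a b hab
    exact hb4 a b hab

end Crest.Agent.LpDimRed.Bands
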