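/-
M7a. Random signed sums on the finite product space `J → SignType`.
Paper: finding #1151 "M7". Everything follows by induction on a finset of coordinates from the
one-coordinate resampling identity `Ex q F = Ex q (fun ω => (1-q j) F(ω[j:=0]) + ...)`.
-/
import Crest.Agent.Lib.LpDimRed.Basic

set_option autoImplicit false

namespace Crest.Agent.LpDimRed

noncomputable section

open Finset

variable {J : Type*} [Fintype J] [DecidableEq J]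

/-- One-coordinate law: `0` with probability `1-q`, `±1` with probability `q/2` each. -/
def wt (q : ℝ) : SignType → ℝ
  | SignType.zero => 1 - q
  | SignType.pos => q / 2
  | SignType.neg => q / 2

/-- Product weight. -/
def pw (q : J → ℝ) (ω : J → SignType) : ℝ := ∏ j, wt (q j) (ω j)

/-- Expectation. -/
def Ex (q : J → ℝ) (F : (J → SignType) → ℝ) : ℝ := ∑ ω, pw q ω * F ω

/-- The signed sum. -/
def sgnSum (v : J → ℝ) (ω : J → SignType) : ℝ := ∑ j, ((ω j : SignType) : ℝ) * v j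

theorem pw_nonneg (q : J → ℝ) (hq : ∀ j, 0 ≤ q j ∧ q j ≤ 1) (ω : J → SignType) : 0 ≤ pw q ω := by
  sorry

theorem sum_pw (q : J → ℝ) : ∑ ω, pw q ω = 1 := by
  sorry

/-- `1 ≤ p ≤ 2`: Clarkson `|a+b|^p + |a-b|^p ≤ 2(|a|^p+|b|^p)` gives the upper bound. -/
theorem moment_le_lt2 (q : J → ℝ) (hq : ∀ j, 0 ≤ q j ∧ q j ≤ 1) (v : J → ℝ) (p : ℝ)
    (hp1 : 1 ≤ p) (hp2 : p ≤ 2) :
    Ex q (fun ω => |sgnSum v ω| ^ p) ≤ ∑ j, q j * |v j| ^ p := by
  sorry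

/-- `p ≥ 2`: reversed Clarkson gives the lower bound. -/
theorem moment_ge_gt2 (q : J → ℝ) (hq : ∀ j, 0 ≤ q j ∧ q j ≤ 1) (v : J → ℝ) (p : ℝ)
    (hp : 2 ≤ p) :
    ∑ j, q j * |v j| ^ p ≤ Ex q (fun ω => |sgnSum v ω| ^ p) := by
  sorry

/-- `p ≥ 1`, any subset `B`: recursion `m_new ≥ (1-q_j) m + q_j|v_j|^p` on `B`,
`m_new ≥ m` off `B` (pointwise convexity). -/
theorem moment_ge_subset (q : J → ℝ) (hq : ∀ j, 0 ≤ q j ∧ q j ≤ 1) (v : J → ℝ) (p : ℝ)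
    (hp : 1 ≤ p) (B : Finset J) :
    (1 - ∑ j ∈ B, q j) * ∑ j ∈ B, q j * |v j| ^ p ≤ Ex q (fun ω => |sgnSum v ω| ^ p) := by
  sorry

/-- Moment generating bound. -/
theorem cosh_mgf (q : J → ℝ) (hq : ∀ j, 0 ≤ q j ∧ q j ≤ 1) (v : J → ℝ) (K : ℝ) (hK : 0 < K)
    (hv : ∀ j, |v j| ≤ K) :
    Ex q (fun ω => Real.cosh (sgnSum v ω / K)) ≤ Real.exp (∑ j, q j * v j ^ 2 / K ^ 2) := by
  sorry

/-- The polynomial-below-cosh constant. -/
theorem exists_rpow_le_cosh (p : ℝ) (hp : 0 < p) :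
    ∃ C : ℝ, 1 ≤ C ∧ ∀ x : ℝ, |x| ^ p ≤ C * Real.cosh x := by
  sorry

/-- `p > 2`, upper bound with sharp constant on the big part `B` (`|v_j| ≤ 1` off `B`):
first the small coordinates by `cosh_mgf`, then the big ones one at a time with
`abs_add_rpow_le`. Here `Cp` comes from `|x|^p ≤ Cp cosh x`. -/
theorem moment_le_gt2 (q : J → ℝ) (hq : ∀ j, 0 ≤ q j ∧ q j ≤ 1) (v : J → ℝ) (p Cp η : ℝ)
    (hp : 2 ≤ p) (hCp : ∀ x : ℝ, |x| ^ p ≤ Cp * Real.cosh x) (hη : 0 < η) (B : Finset J)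
    (hB : ∀ j, j ∉ B → |v j| ≤ 1) :
    Ex q (fun ω => |sgnSum v ω| ^ p)
      ≤ Real.exp ((1 + 1 / η) ^ (p - 1) * ∑ j ∈ B, q j)
        * (Cp * Real.exp (∑ j ∈ Bᶜ, q j * v j ^ 2)
            + (1 + η) ^ (p - 1) * ∑ j ∈ B, q j * |v j| ^ p) := by
  sorry

end

end Crest.Agent.LpDimRed
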