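/-
M7b. From a finite probability law on functions to `m` samples: truncation and Hoeffding.
-/
import Crest.Agent.Lib.LpDimRed.Moments

set_option autoImplicit false

namespace Crest.Agent.LpDimRed

noncomputable section

open Finset

/-- Hoeffding plus union bound on a finite probability space.
Use `Real.abs_exp_sub_one_sub_id_le`: `E exp(λ X) ≤ exp(λ² B²)` for mean-zero `|X| ≤ B`, `λ B ≤ 1`;
product formula on `Fin m → Ω`; exponential Markov. -/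
theorem sample_union {Ω E : Type*} [Fintype Ω] [Fintype E] [DecidableEq Ω]
    (w : Ω → ℝ) (hw0 : ∀ ω, 0 ≤ w ω) (hw1 : ∑ ω, w ω = 1)
    (F : E → Ω → ℝ) (B : ℝ) (hB : 0 < B) (hF : ∀ e ω, 0 ≤ F e ω ∧ F e ω ≤ B)
    (δ : ℝ) (hδ : 0 < δ) (hδB : δ ≤ B) (m : ℕ) (hm : 1 ≤ m)
    (hmbig : 2 * (Fintype.card E : ℝ) * Real.exp (-(m : ℝ) * δ ^ 2 / (4 * B ^ 2)) < 1) :
    ∃ η : Fin m → Ω, ∀ e, |(1 / (m : ℝ)) * ∑ l, F e (η l) - ∑ ω, w ω * F e ω| ≤ δ := by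
  sorry

/-- Truncation on a global good event: replace `S` by `0` where some `|S e'| > K u`. The moment loss
is at most `|E| exp(-u/2) K^p c M0`. Only needs: `|x|^(2p) ≤ c cosh x` hypothesis form. -/
theorem truncate_law {Ω E : Type*} [Fintype Ω] [Fintype E]
    (w : Ω → ℝ) (hw0 : ∀ ω, 0 ≤ w ω)
    (S : Ω → E → ℝ) (p K u M0 c : ℝ) (hp : 1 ≤ p) (hK : 0 < K) (hu : 0 < u)
    (hc : ∀ x : ℝ, |x| ^ (2 * p) ≤ c * Real.cosh x)
    (hM : ∀ e, ∑ ω, w ω * Real.cosh (S ω e / K) ≤ M0) (hM0 : 0 ≤ M0) (hc0 : 0 ≤ c)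
    (e : E) (good : Ω → Prop) [DecidablePred good]
    (hgood : ∀ ω, good ω ↔ ∀ e', |S ω e'| ≤ K * u) :
    ∑ ω, w ω * (if good ω then 0 else |S ω e| ^ p)
      ≤ (Fintype.card E : ℝ) * Real.exp (-u / 2) * K ^ p * (c + 1) * M0 := by
  sorry

end

end Crest.Agent.LpDimRed
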