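/-
From a finite law on functions with two-sided moment bounds to an embedding in `ℓ_p^m`.
-/
import Crest.Agent.Lib.LpDimRed.Sampling

set_option autoImplicit false

namespace Crest.Agent.LpDimRed

noncomputable section

open Finset

section Law

variable {X : Type*} [Fintype X] [DecidableEq X]

/-- Truncate + sample + rescale. -/
theorem embed_of_law {Ω : Type*} [Fintype Ω] [DecidableEq Ω]
    (w : Ω → ℝ) (hw0 : ∀ ω, 0 ≤ w ω) (hw1 : ∑ ω, w ω = 1) (f : Ω → X → ℝ)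
    (d : X → X → ℝ) (hd : ∀ a b, a ≠ b → 0 < d a b) (hd0 : ∀ a, d a a = 0)
    (p K u M0 c A δ : ℝ) (hp : 1 ≤ p) (hK : 0 < K) (hu : 0 < u) (hM0 : 0 ≤ M0) (hc0 : 0 ≤ c)
    (hc : ∀ x : ℝ, |x| ^ (2 * p) ≤ c * Real.cosh x) (hA : 0 < A) (hδ : 0 < δ) (hδ3 : 3 * δ < 1)
    (hM : ∀ e : X × X, ∑ ω, w ω * Real.cosh (sl d (f ω) e / K) ≤ M0)
    (hmom : ∀ e : X × X, e.1 ≠ e.2 →
      (1 - δ) * A ≤ ∑ ω, w ω * |sl d (f ω) e| ^ p ∧ ∑ ω, w ω * |sl d (f ω) e| ^ p ≤ (1 + δ) * A)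
    (hloss : (Fintype.card (X × X) : ℝ) * Real.exp (-u / 2) * K ^ p * (c + 1) * M0 ≤ δ * A)
    (m : ℕ) (hm : 1 ≤ m) (hδB : δ * A ≤ (K * u) ^ p)
    (hmbig : 2 * (Fintype.card (X × X) : ℝ)
      * Real.exp (-(m : ℝ) * (δ * A) ^ 2 / (4 * ((K * u) ^ p) ^ 2)) < 1) :
    ∃ y : X → Fin m → ℝ, ∀ a b,
      d a b ^ p ≤ ∑ l, |y a l - y b l| ^ p ∧
      ∑ l, |y a l - y b l| ^ p ≤ ((1 + 2 * δ) / (1 - 3 * δ)) * d a b ^ p := by
  classical
  have hp0 : 0 < p := by linarith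
  -- the good event
  let good : Ω → Prop := fun ω => ∀ e : X × X, |sl d (f ω) e| ≤ K * u
  let f' : Ω → X → ℝ := fun ω => if good ω then f ω else 0
  have hS' : ∀ ω e, sl d (f' ω) e = if good ω then sl d (f ω) e else 0 := by
    intro ω e
    by_cases h : good ω
    · simp [f', h]
    · simp [f', h, sl]
  have hKu : 0 < K * u := mul_pos hK hu
  have hbd : ∀ ω e, |sl d (f' ω) e| ≤ K * u := by
    intro ω e
    rw [hS']
    by_cases h : good ω
    · simp only [h, if_true]; exact h e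
    · simp only [h, if_false, abs_zero]; exact hKu.le
  -- moment after truncation
  have hmom' : ∀ e : X × X, e.1 ≠ e.2 →
      (1 - 2 * δ) * A ≤ ∑ ω, w ω * |sl d (f' ω) e| ^ p ∧
      ∑ ω, w ω * |sl d (f' ω) e| ^ p ≤ (1 + δ) * A := by
    intro e he
    have hsplit : ∀ ω, w ω * |sl d (f' ω) e| ^ p
        = w ω * |sl d (f ω) e| ^ p - w ω * (if good ω then 0 else |sl d (f ω) e| ^ p) := by
      intro ω
      rw [hS']
      by_cases h : good ω
      · simp [h]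
      · simp [h, Real.zero_rpow hp0.ne']
    have hsum : ∑ ω, w ω * |sl d (f' ω) e| ^ p
        = ∑ ω, w ω * |sl d (f ω) e| ^ p
          - ∑ ω, w ω * (if good ω then 0 else |sl d (f ω) e| ^ p) := by
      rw [← Finset.sum_sub_distrib]; exact Finset.sum_congr rfl fun ω _ => hsplit ω
    have hl := truncate_law w hw0 (fun ω e => sl d (f ω) e) p K u M0 c hp hK hu hc hM hM0 hc0 e good
      (fun ω => Iff.rfl)
    have hnn : 0 ≤ ∑ ω, w ω * (if good ω then 0 else |sl d (f ω) e| ^ p) := by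
      apply Finset.sum_nonneg
      intro ω _
      apply mul_nonneg (hw0 ω)
      split_ifs
      · exact le_rfl
      · exact Real.rpow_nonneg (abs_nonneg _) _
    obtain ⟨h1, h2⟩ := hmom e he
    rw [hsum]
    constructor
    · have : ∑ ω, w ω * (if good ω then 0 else |sl d (f ω) e| ^ p) ≤ δ * A := hl.trans hloss
      nlinarith
    · linarith
  -- sampling
  have hB : 0 < (K * u) ^ p := Real.rpow_pos_of_pos hKu _
  have hδA : 0 < δ * A := mul_pos hδ hA
  have hF : ∀ (e : X × X) ω, 0 ≤ |sl d (f' ω) e| ^ p ∧ |sl d (f' ω) e| ^ p ≤ (K * u) ^ p := by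
    intro e ω
    refine ⟨Real.rpow_nonneg (abs_nonneg _) _, ?_⟩
    exact Real.rpow_le_rpow (abs_nonneg _) (hbd ω e) hp0.le
  obtain ⟨η, hη⟩ := sample_union w hw0 hw1 (fun (e : X × X) ω => |sl d (f' ω) e| ^ p) ((K * u) ^ p) hB
    hF (δ * A) hδA hδB m hm hmbig
  -- rescale
  have hm0 : (0 : ℝ) < m := by exact_mod_cast hm
  have hfac : 0 < (1 - 3 * δ) * m * A := by
    have : 0 < 1 - 3 * δ := by linarith
    positivity
  let sc : ℝ := ((1 - 3 * δ) * m * A) ^ (-(1 / p))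
  have hsc : 0 < sc := Real.rpow_pos_of_pos hfac _
  have hscp : sc ^ p = ((1 - 3 * δ) * m * A)⁻¹ := by
    simp only [sc]
    rw [← Real.rpow_mul hfac.le]
    have : -(1 / p) * p = -1 := by field_simp
    rw [this, Real.rpow_neg_one]
  refine ⟨fun a l => sc * f' (η l) a, ?_⟩
  intro a b
  by_cases hab : a = b
  · subst hab
    simp [hd0, Real.zero_rpow hp0.ne']
  have hdab : 0 < d a b := hd a b hab
  have hterm : ∀ l, |sc * f' (η l) a - sc * f' (η l) b| ^ p
      = sc ^ p * (d a b ^ p * |sl d (f' (η l)) (a, b)| ^ p) := by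
    intro l
    have h1 : sc * f' (η l) a - sc * f' (η l) b = sc * (d a b * sl d (f' (η l)) (a, b)) := by
      simp only [sl]
      field_simp
    rw [h1, abs_mul, abs_mul, abs_of_pos hsc, abs_of_pos hdab,
      Real.mul_rpow hsc.le (mul_nonneg hdab.le (abs_nonneg _)),
      Real.mul_rpow hdab.le (abs_nonneg _)]
  have hsum : ∑ l, |sc * f' (η l) a - sc * f' (η l) b| ^ p
      = ((1 - 3 * δ) * m * A)⁻¹ * d a b ^ p * ∑ l, |sl d (f' (η l)) (a, b)| ^ p := by
    rw [Finset.mul_sum]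
    refine Finset.sum_congr rfl fun l _ => ?_
    rw [hterm, hscp]; ring
  have hdp : 0 < d a b ^ p := Real.rpow_pos_of_pos hdab _
  obtain ⟨h1, h2⟩ := hmom' (a, b) hab
  have hη' := abs_le.mp (hη (a, b))
  set T := ∑ l, |sl d (f' (η l)) (a, b)| ^ p with hT
  have hT' : T = m * ((1 / (m : ℝ)) * T) := by field_simp
  have hlow : (1 - 3 * δ) * A * m ≤ T := by
    have h3 : (1 - 3 * δ) * A ≤ (1 / (m : ℝ)) * T := by nlinarith [hη'.1]
    rw [hT']
    nlinarith
  have hupp : T ≤ (1 + 2 * δ) * A * m := by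
    have h3 : (1 / (m : ℝ)) * T ≤ (1 + 2 * δ) * A := by nlinarith [hη'.2]
    rw [hT']
    nlinarith
  simp only [hsum]
  have hδ3' : 0 < 1 - 3 * δ := by linarith
  have hinv : ((1 - 3 * δ) * m * A)⁻¹ * d a b ^ p * T = d a b ^ p * (T / ((1 - 3 * δ) * m * A)) := by
    field_simp
  rw [hinv]
  constructor
  · have : 1 ≤ T / ((1 - 3 * δ) * m * A) := by
      rw [le_div_iff₀ hfac]; nlinarith
    nlinarith
  · have : T / ((1 - 3 * δ) * m * A) ≤ (1 + 2 * δ) / (1 - 3 * δ) := by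
      rw [div_le_div_iff₀ hfac hδ3']
      have h5 : T * (1 - 3 * δ) ≤ (1 + 2 * δ) * A * m * (1 - 3 * δ) :=
        mul_le_mul_of_nonneg_right hupp hδ3'.le
      nlinarith
    have h6 := mul_le_mul_of_nonneg_left this hdp.le
    linarith [mul_comm (d a b ^ p) ((1 + 2 * δ) / (1 - 3 * δ))]

end Law

section Package

variable {X J : Type*} [Fintype X] [DecidableEq X] [Fintype J] [DecidableEq J]

/-- The random function attached to a signed configuration. -/
def rfun (a : J → ℝ) (ψ : J → X → ℝ) (ω : J → SignType) (x : X) : ℝ :=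
  ∑ j, ((ω j : SignType) : ℝ) * (a j * ψ j x)

theorem sl_rfun (d : X → X → ℝ) (a : J → ℝ) (ψ : J → X → ℝ) (ω : J → SignType) (e : X × X) :
    sl d (rfun a ψ ω) e = sgnSum (fun j => a j * sl d (ψ j) e) ω := by
  simp only [sl, rfun, sgnSum, ← Finset.sum_sub_distrib, Finset.sum_div]
  refine Finset.sum_congr rfl fun j _ => ?_
  ring

/-- activation probability -/
def qOf (p K' : ℝ) (b : J → ℝ) (j : J) : ℝ := (b j / K') ^ p

/-- amplitude -/
def aOf (K' : ℝ) (b : J → ℝ) (j : J) : ℝ := K' / b j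

theorem qOf_mem (p K' : ℝ) (b : J → ℝ) (hp : 0 < p) (hK : 0 < K') (hb : ∀ j, 0 < b j)
    (hbK : ∀ j, b j ≤ K') (j : J) : 0 ≤ qOf p K' b j ∧ qOf p K' b j ≤ 1 := by
  have h0 : 0 ≤ b j / K' := (div_pos (hb j) hK).le
  refine ⟨Real.rpow_nonneg h0 _, Real.rpow_le_one h0 ?_ hp.le⟩
  rw [div_le_one hK]; exact hbK j

theorem q_mul_abs_rpow (p K' : ℝ) (b : J → ℝ) (hK : 0 < K') (hb : ∀ j, 0 < b j) (j : J) (y : ℝ) :
    qOf p K' b j * |aOf K' b j * y| ^ p = |y| ^ p := by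
  have hbj := hb j
  simp only [qOf, aOf]
  rw [abs_mul, abs_of_pos (div_pos hK hbj),
    Real.mul_rpow (div_pos hK hbj).le (abs_nonneg _), ← mul_assoc,
    ← Real.mul_rpow (div_pos hbj hK).le (div_pos hK hbj).le]
  have : b j / K' * (K' / b j) = 1 := by field_simp
  rw [this, Real.one_rpow, one_mul]

theorem q_mul_sq (p K' : ℝ) (b : J → ℝ) (hK : 0 < K') (hb : ∀ j, 0 < b j) (j : J) (y : ℝ) :
    qOf p K' b j * (aOf K' b j * y) ^ 2
      = K' ^ (2 - p) * (b j ^ (p - 2) * y ^ 2) := by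
  have hbj := hb j
  simp only [qOf, aOf]
  rw [Real.div_rpow hbj.le hK.le, Real.rpow_sub hK, Real.rpow_sub hbj]
  have h2 : (2 : ℝ) = ((2 : ℕ) : ℝ) := by norm_num
  rw [h2, Real.rpow_natCast, Real.rpow_natCast]
  have h1 : K' ^ p ≠ 0 := (Real.rpow_pos_of_pos hK _).ne'
  have h3 : b j ^ 2 ≠ 0 := by positivity
  field_simp

/-- Package: hypotheses on the deterministic family give the embedding, given the moment bounds
of the random sum. -/
theorem embed_of_package (d : X → X → ℝ) (hd : ∀ a b, a ≠ b → 0 < d a b) (hd0 : ∀ a, d a a = 0)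
    (p : ℝ) (hp : 1 ≤ p) (ψ : J → X → ℝ) (b : J → ℝ) (K' V0 A δ u c : ℝ)
    (hb : ∀ j, 0 < b j) (hK : 0 < K') (hbK : ∀ j, b j ≤ K')
    (hy : ∀ j e, |sl d (ψ j) e| ≤ b j)
    (hV : ∀ e, ∑ j, b j ^ (p - 2) * sl d (ψ j) e ^ 2 ≤ V0)
    (hu : 0 < u) (hc0 : 0 ≤ c) (hc : ∀ x : ℝ, |x| ^ (2 * p) ≤ c * Real.cosh x)
    (hA : 0 < A) (hδ : 0 < δ) (hδ3 : 3 * δ < 1)
    (hmom : ∀ e : X × X, e.1 ≠ e.2 →
      (1 - δ) * A ≤ Ex (qOf p K' b) (fun ω => |sgnSum (fun j => aOf K' b j * sl d (ψ j) e) ω| ^ p) ∧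
      Ex (qOf p K' b) (fun ω => |sgnSum (fun j => aOf K' b j * sl d (ψ j) e) ω| ^ p) ≤ (1 + δ) * A)
    (hloss : (Fintype.card (X × X) : ℝ) * Real.exp (-u / 2) * K' ^ p * (c + 1)
      * Real.exp (V0 / K' ^ p) ≤ δ * A)
    (m : ℕ) (hm : 1 ≤ m) (hδB : δ * A ≤ (K' * u) ^ p)
    (hmbig : 2 * (Fintype.card (X × X) : ℝ)
      * Real.exp (-(m : ℝ) * (δ * A) ^ 2 / (4 * ((K' * u) ^ p) ^ 2)) < 1) :
    ∃ y : X → Fin m → ℝ, ∀ a b,
      d a b ^ p ≤ ∑ l, |y a l - y b l| ^ p ∧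
      ∑ l, |y a l - y b l| ^ p ≤ ((1 + 2 * δ) / (1 - 3 * δ)) * d a b ^ p := by
  have hp0 : 0 < p := by linarith
  have hq := qOf_mem p K' b hp0 hK hb hbK
  refine embed_of_law (pw (qOf p K' b)) (pw_nonneg _ hq) (sum_pw _) (rfun (aOf K' b) ψ) d hd hd0
    p K' u (Real.exp (V0 / K' ^ p)) c A δ hp hK hu (Real.exp_pos _).le hc0 hc hA hδ hδ3 ?_ ?_ hloss
    m hm hδB hmbig
  · intro e
    have hbound : ∀ j, |aOf K' b j * sl d (ψ j) e| ≤ K' := by
      intro j
      have hbj := hb j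
      rw [abs_mul, aOf, abs_of_pos (div_pos hK hbj)]
      calc K' / b j * |sl d (ψ j) e| ≤ K' / b j * b j :=
            mul_le_mul_of_nonneg_left (hy j e) (div_pos hK hbj).le
        _ = K' := by field_simp
    have := cosh_mgf (qOf p K' b) hq (fun j => aOf K' b j * sl d (ψ j) e) K' hK hbound
    simp only [Ex] at this
    simp only [sl_rfun]
    refine this.trans (Real.exp_le_exp.mpr ?_)
    have hterm : ∀ j, qOf p K' b j * (aOf K' b j * sl d (ψ j) e) ^ 2 / K' ^ 2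
        = (b j ^ (p - 2) * sl d (ψ j) e ^ 2) / K' ^ p := by
      intro j
      rw [q_mul_sq p K' b hK hb, Real.rpow_sub hK]
      have h2 : (2 : ℝ) = ((2 : ℕ) : ℝ) := by norm_num
      rw [h2, Real.rpow_natCast]
      have h1 : K' ^ p ≠ 0 := (Real.rpow_pos_of_pos hK _).ne'
      field_simp
    simp only [hterm, ← Finset.sum_div]
    exact div_le_div_of_nonneg_right (hV e) (Real.rpow_pos_of_pos hK _).le
  · intro e he
    simp only [sl_rfun]
    exact hmom e he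

/-- Moment bounds, `p < 2`. -/
theorem mom_lt2 (d : X → X → ℝ) (p : ℝ) (hp1 : 1 ≤ p) (hp2 : p ≤ 2) (ψ : J → X → ℝ) (b : J → ℝ)
    (K' V0 R : ℝ) (hb : ∀ j, 0 < b j) (hK : 0 < K') (hbK : ∀ j, b j ≤ K') (hR : 0 ≤ R)
    (e : X × X) (hV : ∑ j, b j ^ (p - 2) * sl d (ψ j) e ^ 2 ≤ V0) :
    Ex (qOf p K' b) (fun ω => |sgnSum (fun j => aOf K' b j * sl d (ψ j) e) ω| ^ p)
        ≤ ∑ j, |sl d (ψ j) e| ^ p ∧
    (1 - R ^ 2 * V0 / K' ^ p) *
        ∑ j ∈ Finset.univ.filter (fun j => b j ≤ R * |sl d (ψ j) e|), |sl d (ψ j) e| ^ p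
      ≤ Ex (qOf p K' b) (fun ω => |sgnSum (fun j => aOf K' b j * sl d (ψ j) e) ω| ^ p) := by
  have hp0 : 0 < p := by linarith
  have hq := qOf_mem p K' b hp0 hK hb hbK
  constructor
  · have := moment_le_lt2 (qOf p K' b) hq (fun j => aOf K' b j * sl d (ψ j) e) p hp1 hp2
    simpa only [q_mul_abs_rpow p K' b hK hb] using this
  · have := moment_ge_subset (qOf p K' b) hq (fun j => aOf K' b j * sl d (ψ j) e) p hp1
      (Finset.univ.filter (fun j => b j ≤ R * |sl d (ψ j) e|))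
    simp only [q_mul_abs_rpow p K' b hK hb] at this
    refine le_trans ?_ this
    apply mul_le_mul_of_nonneg_right _
      (Finset.sum_nonneg fun j _ => Real.rpow_nonneg (abs_nonneg _) _)
    have hQ : ∑ j ∈ Finset.univ.filter (fun j => b j ≤ R * |sl d (ψ j) e|), qOf p K' b j
        ≤ R ^ 2 * V0 / K' ^ p := by
      have hKp : 0 < K' ^ p := Real.rpow_pos_of_pos hK _
      have hterm : ∀ j ∈ Finset.univ.filter (fun j => b j ≤ R * |sl d (ψ j) e|),
          qOf p K' b j ≤ R ^ 2 * (b j ^ (p - 2) * sl d (ψ j) e ^ 2) / K' ^ p := by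
        intro j hj
        have hj' := (Finset.mem_filter.mp hj).2
        have hbj := hb j
        simp only [qOf]
        rw [Real.div_rpow hbj.le hK.le]
        apply div_le_div_of_nonneg_right _ hKp.le
        have h2 : b j ^ 2 ≤ R ^ 2 * sl d (ψ j) e ^ 2 := by
          have := pow_le_pow_left₀ hbj.le hj' 2
          rwa [mul_pow, sq_abs] at this
        have h3 : b j ^ p = b j ^ (p - 2) * b j ^ 2 := by
          rw [Real.rpow_sub hbj]
          have h2' : (2 : ℝ) = ((2 : ℕ) : ℝ) := by norm_num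
          rw [h2', Real.rpow_natCast]
          have : b j ^ 2 ≠ 0 := by positivity
          field_simp
        rw [h3]
        have h4 : 0 ≤ b j ^ (p - 2) := (Real.rpow_pos_of_pos hbj _).le
        nlinarith [mul_le_mul_of_nonneg_left h2 h4]
      refine (Finset.sum_le_sum hterm).trans ?_
      rw [← Finset.sum_div, ← Finset.mul_sum]
      apply div_le_div_of_nonneg_right _ hKp.le
      apply mul_le_mul_of_nonneg_left _ (sq_nonneg R)
      refine le_trans ?_ hV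
      apply Finset.sum_le_sum_of_subset_of_nonneg (Finset.filter_subset _ _)
      intro j _ _
      exact mul_nonneg (Real.rpow_pos_of_pos (hb j) _).le (sq_nonneg _)
    linarith

/-- Moment bounds, `p > 2`. -/
theorem mom_gt2 (d : X → X → ℝ) (p Cp η : ℝ) (hp : 2 ≤ p) (ψ : J → X → ℝ) (b : J → ℝ)
    (K' V0 : ℝ) (hb : ∀ j, 0 < b j) (hK : 0 < K') (hbK : ∀ j, b j ≤ K') (hη : 0 < η)
    (hCp : ∀ x : ℝ, |x| ^ p ≤ Cp * Real.cosh x) (hCp0 : 0 ≤ Cp)
    (e : X × X) (hV : ∑ j, b j ^ (p - 2) * sl d (ψ j) e ^ 2 ≤ V0) :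
    ∑ j, |sl d (ψ j) e| ^ p
      ≤ Ex (qOf p K' b) (fun ω => |sgnSum (fun j => aOf K' b j * sl d (ψ j) e) ω| ^ p) ∧
    Ex (qOf p K' b) (fun ω => |sgnSum (fun j => aOf K' b j * sl d (ψ j) e) ω| ^ p)
      ≤ Real.exp ((1 + 1 / η) ^ (p - 1) * (K' ^ (2 - p) * V0))
        * (Cp * Real.exp (K' ^ (2 - p) * V0) + (1 + η) ^ (p - 1) * ∑ j, |sl d (ψ j) e| ^ p) := by
  have hp0 : 0 < p := by linarith
  have hq := qOf_mem p K' b hp0 hK hb hbK
  set v : J → ℝ := fun j => aOf K' b j * sl d (ψ j) e with hv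
  constructor
  · have := moment_ge_gt2 (qOf p K' b) hq v p hp
    simpa only [hv, q_mul_abs_rpow p K' b hK hb] using this
  · classical
    set B := Finset.univ.filter (fun j => 1 < |v j|) with hB
    have hBc : ∀ j, j ∉ B → |v j| ≤ 1 := by
      intro j hj
      simpa [hB] using hj
    have := moment_le_gt2 (qOf p K' b) hq v p Cp η hp hCp hη B hBc
    refine this.trans ?_
    have hKV0 : 0 ≤ K' ^ (2 - p) := (Real.rpow_pos_of_pos hK _).le
    have hvar : ∑ j, qOf p K' b j * v j ^ 2 ≤ K' ^ (2 - p) * V0 := by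
      simp only [hv, q_mul_sq p K' b hK hb, ← Finset.mul_sum]
      exact mul_le_mul_of_nonneg_left hV hKV0
    have hqnn : ∀ j, 0 ≤ qOf p K' b j * v j ^ 2 := fun j => mul_nonneg (hq j).1 (sq_nonneg _)
    have hQ : ∑ j ∈ B, qOf p K' b j ≤ K' ^ (2 - p) * V0 := by
      refine le_trans ?_ hvar
      calc ∑ j ∈ B, qOf p K' b j ≤ ∑ j ∈ B, qOf p K' b j * v j ^ 2 := by
            apply Finset.sum_le_sum
            intro j hj
            have h1 : 1 < |v j| := (Finset.mem_filter.mp hj).2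
            have h2 : 1 ≤ v j ^ 2 := by
              rw [← sq_abs]; nlinarith
            have := (hq j).1
            nlinarith
        _ ≤ _ := Finset.sum_le_sum_of_subset_of_nonneg (Finset.subset_univ _) (fun j _ _ => hqnn j)
    have hVs : ∑ j ∈ Bᶜ, qOf p K' b j * v j ^ 2 ≤ K' ^ (2 - p) * V0 :=
      le_trans (Finset.sum_le_sum_of_subset_of_nonneg (Finset.subset_univ _) (fun j _ _ => hqnn j))
        hvar
    have hT : ∑ j ∈ B, qOf p K' b j * |v j| ^ p ≤ ∑ j, |sl d (ψ j) e| ^ p := by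
      simp only [hv, q_mul_abs_rpow p K' b hK hb]
      exact Finset.sum_le_sum_of_subset_of_nonneg (Finset.subset_univ _)
        (fun j _ _ => Real.rpow_nonneg (abs_nonneg _) _)
    have hce : 0 ≤ (1 + 1 / η) ^ (p - 1) := by positivity
    have hcη : 0 ≤ (1 + η) ^ (p - 1) := by positivity
    apply mul_le_mul
    · exact Real.exp_le_exp.mpr (mul_le_mul_of_nonneg_left hQ hce)
    · apply add_le_add
      · exact mul_le_mul_of_nonneg_left (Real.exp_le_exp.mpr hVs) hCp0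
      · exact mul_le_mul_of_nonneg_left hT hcη
    · apply add_nonneg
      · exact mul_nonneg hCp0 (Real.exp_pos _).le
      · apply mul_nonneg hcη
        apply Finset.sum_nonneg
        intro j _
        exact mul_nonneg (hq j).1 (Real.rpow_nonneg (abs_nonneg _) _)
    · exact (Real.exp_pos _).le

end Package

end

end Crest.Agent.LpDimRed
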