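/-
S0358 (row 232): finite-distribution functional of sparse signed sums, and its moment inequalities.

`Eop l F v` is the expectation of `F (v + ∑ ξᵢ εᵢ φᵢ)` where the `ξᵢ` are independent Bernoulli(`πᵢ`)
and the `εᵢ` independent signs, defined by recursion on the list of items `(πᵢ, φᵢ)`, so no product
space is needed.
-/
import Mathlib

set_option autoImplicit false
set_option linter.unusedSectionVars false

namespace Crest.Agent.LpDimRed



/-- The expectation of `F (v + ∑ ξᵢ εᵢ φᵢ)`. -/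
noncomputable def Eop {V : Type*} [AddCommGroup V] : List (ℝ × V) → (V → ℝ) → V → ℝ
  | [], F, v => F v
  | (π, φ) :: l, F, v =>
      (1 - π) * Eop l F v + (π / 2) * (Eop l F (v + φ) + Eop l F (v - φ))

section general

variable {V W : Type*} [AddCommGroup V] [AddCommGroup W]

/-- All `πᵢ` are probabilities. -/
def EopValid (l : List (ℝ × V)) : Prop := ∀ it ∈ l, 0 ≤ it.1 ∧ it.1 ≤ 1

lemma EopValid.tail {it : ℝ × V} {l : List (ℝ × V)} (h : EopValid (it :: l)) : EopValid l :=
  fun x hx => h x (List.mem_cons_of_mem _ hx)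

lemma EopValid.head {it : ℝ × V} {l : List (ℝ × V)} (h : EopValid (it :: l)) :
    0 ≤ it.1 ∧ it.1 ≤ 1 := h it List.mem_cons_self

lemma Eop_nil (F : V → ℝ) (v : V) : Eop ([] : List (ℝ × V)) F v = F v := rfl

lemma Eop_cons (π : ℝ) (φ : V) (l : List (ℝ × V)) (F : V → ℝ) (v : V) :
    Eop ((π, φ) :: l) F v
      = (1 - π) * Eop l F v + (π / 2) * (Eop l F (v + φ) + Eop l F (v - φ)) := rfl

lemma Eop_const (l : List (ℝ × V)) (c : ℝ) (v : V) : Eop l (fun _ => c) v = c := by
  induction l generalizing v with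
  | nil => rfl
  | cons it l ih =>
    obtain ⟨π, φ⟩ := it
    rw [Eop_cons, ih, ih, ih]; ring

lemma Eop_add (l : List (ℝ × V)) (F G : V → ℝ) (v : V) :
    Eop l (fun x => F x + G x) v = Eop l F v + Eop l G v := by
  induction l generalizing v with
  | nil => rfl
  | cons it l ih =>
    obtain ⟨π, φ⟩ := it
    simp only [Eop_cons, ih]; ring

lemma Eop_mul_const (l : List (ℝ × V)) (c : ℝ) (F : V → ℝ) (v : V) :
    Eop l (fun x => c * F x) v = c * Eop l F v := by
  induction l generalizing v with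
  | nil => rfl
  | cons it l ih =>
    obtain ⟨π, φ⟩ := it
    simp only [Eop_cons, ih]; ring

lemma Eop_sub (l : List (ℝ × V)) (F G : V → ℝ) (v : V) :
    Eop l (fun x => F x - G x) v = Eop l F v - Eop l G v := by
  have h := Eop_add l F (fun x => (-1) * G x) v
  rw [Eop_mul_const] at h
  have e : (fun x => F x + (-1) * G x) = (fun x => F x - G x) := by funext x; ring
  rw [e] at h
  rw [h]; ring

lemma Eop_sum {ι : Type*} (s : Finset ι) (l : List (ℝ × V)) (F : ι → V → ℝ) (v : V) :
    Eop l (fun x => ∑ i ∈ s, F i x) v = ∑ i ∈ s, Eop l (F i) v := by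
  classical
  induction s using Finset.induction_on with
  | empty => simp [Eop_const]
  | insert a s ha ih =>
    simp only [Finset.sum_insert ha]
    rw [Eop_add, ih]

lemma Eop_mono {l : List (ℝ × V)} (hl : EopValid l) {F G : V → ℝ} (h : ∀ x, F x ≤ G x) (v : V) :
    Eop l F v ≤ Eop l G v := by
  induction l generalizing v with
  | nil => exact h v
  | cons it l ih =>
    obtain ⟨π, φ⟩ := it
    have hπ := hl.head
    simp only at hπ
    have h1 := ih hl.tail v
    have h2 := ih hl.tail (v + φ)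
    have h3 := ih hl.tail (v - φ)
    rw [Eop_cons, Eop_cons]
    have h4 : 0 ≤ 1 - π := by linarith
    have h5 : 0 ≤ π / 2 := by linarith
    have := mul_le_mul_of_nonneg_left h1 h4
    have := mul_le_mul_of_nonneg_left (add_le_add h2 h3) h5
    linarith

lemma Eop_nonneg {l : List (ℝ × V)} (hl : EopValid l) {F : V → ℝ} (h : ∀ x, 0 ≤ F x) (v : V) :
    0 ≤ Eop l F v := by
  have := Eop_mono hl (F := fun _ => 0) (G := F) h v
  rwa [Eop_const] at this

/-- The value of `Eop` is attained from above on some point. -/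
lemma exists_Eop_le {l : List (ℝ × V)} (hl : EopValid l) (F : V → ℝ) (v : V) :
    ∃ v', Eop l F v ≤ F v' := by
  induction l generalizing v with
  | nil => exact ⟨v, le_rfl⟩
  | cons it l ih =>
    obtain ⟨π, φ⟩ := it
    have hπ := hl.head
    simp only at hπ
    obtain ⟨a, ha⟩ := ih hl.tail v
    obtain ⟨b, hb⟩ := ih hl.tail (v + φ)
    obtain ⟨c, hc⟩ := ih hl.tail (v - φ)
    rw [Eop_cons]
    have h4 : 0 ≤ 1 - π := by linarith
    have h5 : 0 ≤ π / 2 := by linarith
    -- the best of the three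
    by_cases h1 : F a ≤ F b
    · by_cases h2 : F b ≤ F c
      · refine ⟨c, ?_⟩
        have := mul_le_mul_of_nonneg_left (ha.trans (h1.trans h2)) h4
        have := mul_le_mul_of_nonneg_left (add_le_add (hb.trans h2) hc) h5
        nlinarith
      · push Not at h2
        refine ⟨b, ?_⟩
        have := mul_le_mul_of_nonneg_left (ha.trans h1) h4
        have := mul_le_mul_of_nonneg_left (add_le_add hb (hc.trans h2.le)) h5
        nlinarith
    · push Not at h1
      by_cases h2 : F a ≤ F c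
      · refine ⟨c, ?_⟩
        have := mul_le_mul_of_nonneg_left (ha.trans h2) h4
        have := mul_le_mul_of_nonneg_left (add_le_add (hb.trans (h1.le.trans h2)) hc) h5
        nlinarith
      · push Not at h2
        refine ⟨a, ?_⟩
        have := mul_le_mul_of_nonneg_left ha h4
        have := mul_le_mul_of_nonneg_left (add_le_add (hb.trans h1.le) (hc.trans h2.le)) h5
        nlinarith

/-- `Eop` commutes with additive maps. -/
lemma Eop_map (T : V →+ W) (l : List (ℝ × V)) (G : W → ℝ) (v : V) :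
    Eop (l.map fun it => (it.1, T it.2)) G (T v) = Eop l (fun x => G (T x)) v := by
  induction l generalizing v with
  | nil => rfl
  | cons it l ih =>
    obtain ⟨π, φ⟩ := it
    simp only [List.map_cons, Eop_cons]
    rw [← map_add, ← map_sub, ih, ih, ih]

lemma EopValid.map (T : V →+ W) {l : List (ℝ × V)} (hl : EopValid l) :
    EopValid (l.map fun it => (it.1, T it.2)) := by
  intro x hx
  obtain ⟨y, hy, rfl⟩ := List.mem_map.mp hx
  exact hl y hy

/-- Positive functional: Young's inequality `E[FG] ≤ (s/2) E[F²] + (1/(2s)) E[G²]`, `s > 0`. -/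
lemma Eop_mul_le {l : List (ℝ × V)} (hl : EopValid l) (F G : V → ℝ) {s : ℝ} (hs : 0 < s) (v : V) :
    Eop l (fun x => F x * G x) v
      ≤ s / 2 * Eop l (fun x => F x ^ 2) v + 1 / (2 * s) * Eop l (fun x => G x ^ 2) v := by
  rw [← Eop_mul_const, ← Eop_mul_const, ← Eop_add]
  apply Eop_mono hl
  intro x
  have h : 0 ≤ (s * F x - G x) ^ 2 / (2 * s) := by positivity
  have e : (s * F x - G x) ^ 2 / (2 * s)
      = s / 2 * F x ^ 2 + 1 / (2 * s) * G x ^ 2 - F x * G x := by
    field_simp
    ring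
  linarith

/-- `Eop` is a finite convex combination of evaluations. -/
lemma exists_Eop_repr {l : List (ℝ × V)} (hl : EopValid l) (s : V) :
    ∃ (Ω : Type) (_ : Fintype Ω) (w : Ω → ℝ) (x : Ω → V), (∀ ω, 0 ≤ w ω) ∧ ∑ ω, w ω = 1 ∧
      ∀ F : V → ℝ, Eop l F s = ∑ ω, w ω * F (x ω) := by
  induction l generalizing s with
  | nil =>
    exact ⟨Unit, inferInstance, fun _ => 1, fun _ => s, fun _ => zero_le_one, by simp,
      fun F => by simp [Eop_nil]⟩
  | cons it l ih =>
    obtain ⟨π, φ⟩ := it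
    have hπ := hl.head
    simp only at hπ
    obtain ⟨Ω₀, i₀, w₀, x₀, hw₀, hs₀, h₀⟩ := ih hl.tail s
    obtain ⟨Ω₁, i₁, w₁, x₁, hw₁, hs₁, h₁⟩ := ih hl.tail (s + φ)
    obtain ⟨Ω₂, i₂, w₂, x₂, hw₂, hs₂, h₂⟩ := ih hl.tail (s - φ)
    refine ⟨Ω₀ ⊕ (Ω₁ ⊕ Ω₂), inferInstance,
      Sum.elim (fun ω => (1 - π) * w₀ ω)
        (Sum.elim (fun ω => π / 2 * w₁ ω) (fun ω => π / 2 * w₂ ω)),
      Sum.elim x₀ (Sum.elim x₁ x₂), ?_, ?_, ?_⟩
    · rintro (ω | ω | ω)
      · exact mul_nonneg (by linarith) (hw₀ ω)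
      · exact mul_nonneg (by linarith) (hw₁ ω)
      · exact mul_nonneg (by linarith) (hw₂ ω)
    · simp only [Fintype.sum_sum_type, Sum.elim_inl, Sum.elim_inr, ← Finset.mul_sum, hs₀, hs₁, hs₂]
      ring
    · intro F
      rw [Eop_cons, h₀, h₁, h₂]
      simp only [Fintype.sum_sum_type, Sum.elim_inl, Sum.elim_inr, Finset.mul_sum, mul_assoc]
      rw [mul_add, Finset.mul_sum, Finset.mul_sum]

end general

/-! ### Scalar inequalities -/

/-- Clarkson, `p ≥ 2`. -/
lemma clarkson_ge {p : ℝ} (hp : 2 ≤ p) (a b : ℝ) :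
    2 * (|a| ^ p + |b| ^ p) ≤ |a + b| ^ p + |a - b| ^ p := by
  have key : ∀ u : ℝ, |u| ^ p = (u ^ 2) ^ (p / 2) := by
    intro u
    rw [← sq_abs u, ← Real.rpow_natCast (|u|) 2, ← Real.rpow_mul (abs_nonneg u)]
    congr 1
    push_cast
    ring
  have hθ : 1 ≤ p / 2 := by linarith
  have hconv := (convexOn_rpow hθ).2 (Set.mem_Ici.mpr (sq_nonneg (a + b)))
    (Set.mem_Ici.mpr (sq_nonneg (a - b))) (by norm_num : (0 : ℝ) ≤ 1 / 2)
    (by norm_num : (0 : ℝ) ≤ 1 / 2) (by norm_num)
  simp only [smul_eq_mul] at hconv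
  have e : (1 / 2 : ℝ) * (a + b) ^ 2 + 1 / 2 * (a - b) ^ 2 = a ^ 2 + b ^ 2 := by ring
  rw [e] at hconv
  have hsub := Real.add_rpow_le_rpow_add (sq_nonneg a) (sq_nonneg b) hθ
  rw [key (a + b), key (a - b), key a, key b]
  linarith

/-- Clarkson, `1 ≤ p ≤ 2`. -/
lemma clarkson_le {p : ℝ} (hp1 : 1 ≤ p) (hp : p ≤ 2) (a b : ℝ) :
    |a + b| ^ p + |a - b| ^ p ≤ 2 * (|a| ^ p + |b| ^ p) := by
  have key : ∀ u : ℝ, |u| ^ p = (u ^ 2) ^ (p / 2) := by
    intro u
    rw [← sq_abs u, ← Real.rpow_natCast (|u|) 2, ← Real.rpow_mul (abs_nonneg u)]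
    congr 1
    push_cast
    ring
  have hθ0 : 0 ≤ p / 2 := by linarith
  have hθ1 : p / 2 ≤ 1 := by linarith
  have hconc := (Real.concaveOn_rpow hθ0 hθ1).2 (Set.mem_Ici.mpr (sq_nonneg (a + b)))
    (Set.mem_Ici.mpr (sq_nonneg (a - b))) (by norm_num : (0 : ℝ) ≤ 1 / 2)
    (by norm_num : (0 : ℝ) ≤ 1 / 2) (by norm_num)
  simp only [smul_eq_mul] at hconc
  have e : (1 / 2 : ℝ) * (a + b) ^ 2 + 1 / 2 * (a - b) ^ 2 = a ^ 2 + b ^ 2 := by ring
  rw [e] at hconc
  have hsub := Real.rpow_add_le_add_rpow (sq_nonneg a) (sq_nonneg b) hθ0 hθ1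
  rw [key (a + b), key (a - b), key a, key b]
  linarith

/-- Power-mean midpoint inequality. -/
lemma midpoint_rpow_le {p u v : ℝ} (hp : 1 ≤ p) :
    (|u - v| / 2) ^ p ≤ (|u| ^ p + |v| ^ p) / 2 := by
  have h1 : |u - v| / 2 ≤ (|u| + |v|) / 2 := by
    have := abs_sub u v
    linarith
  have h2 : (|u - v| / 2) ^ p ≤ ((|u| + |v|) / 2) ^ p :=
    Real.rpow_le_rpow (by positivity) h1 (by linarith)
  have hconv := (convexOn_rpow hp).2 (Set.mem_Ici.mpr (abs_nonneg u))
    (Set.mem_Ici.mpr (abs_nonneg v)) (by norm_num : (0 : ℝ) ≤ 1 / 2)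
    (by norm_num : (0 : ℝ) ≤ 1 / 2) (by norm_num)
  simp only [smul_eq_mul] at hconv
  have e : (1 / 2 : ℝ) * |u| + 1 / 2 * |v| = (|u| + |v|) / 2 := by ring
  rw [e] at hconv
  linarith

lemma avg_ge_left {p : ℝ} (hp : 1 ≤ p) (a b : ℝ) : |a| ^ p ≤ (|a + b| ^ p + |a - b| ^ p) / 2 := by
  have := midpoint_rpow_le (p := p) (u := a + b) (v := -(a - b)) hp
  have e1 : |a + b - -(a - b)| / 2 = |a| := by
    have : a + b - -(a - b) = 2 * a := by ring
    rw [this, abs_mul]; simp
  rw [e1, abs_neg] at this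
  exact this

lemma avg_ge_right {p : ℝ} (hp : 1 ≤ p) (a b : ℝ) : |b| ^ p ≤ (|a + b| ^ p + |a - b| ^ p) / 2 := by
  have := midpoint_rpow_le (p := p) (u := a + b) (v := a - b) hp
  have e1 : |a + b - (a - b)| / 2 = |b| := by
    have : a + b - (a - b) = 2 * b := by ring
    rw [this, abs_mul]; simp
  rw [e1] at this
  exact this

/-- Tangent line inequality for `x ^ q`. -/
lemma rpow_sub_le_tangent {q x y : ℝ} (hq : 1 ≤ q) (hx : 0 < x) (hy : 0 ≤ y) :
    x ^ q - y ^ q ≤ q * x ^ (q - 1) * (x - y) := by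
  have hs : -1 ≤ y / x - 1 := by
    have : 0 ≤ y / x := by positivity
    linarith
  have hb := one_add_mul_self_le_rpow_one_add hs hq
  have e : 1 + (y / x - 1) = y / x := by ring
  rw [e, Real.div_rpow hy hx.le] at hb
  have hxq : 0 < x ^ q := Real.rpow_pos_of_pos hx q
  have hxq' : x ^ (q - 1) = x ^ q / x := by
    rw [Real.rpow_sub_one hx.ne']
  rw [hxq']
  have h3 : (1 + q * (y / x - 1)) * x ^ q ≤ y ^ q := by
    rwa [le_div_iff₀ hxq] at hb
  have e2 : q * (x ^ q / x) * (x - y) = x ^ q - (1 + q * (y / x - 1)) * x ^ q := by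
    field_simp
    ring
  rw [e2]
  linarith

/-- Second-order bound for `b ≤ R`. -/
lemma second_order_le {p R b : ℝ} (hp : 2 < p) (hb0 : 0 ≤ b) (hbR : b ≤ R) :
    (R + b) ^ p + (R - b) ^ p ≤ 2 * R ^ p + p * (p - 1) * 2 ^ (p - 1) * R ^ (p - 2) * b ^ 2 := by
  rcases hb0.eq_or_lt with rfl | hb
  · simp only [add_zero, sub_zero]
    have : 0 ≤ p * (p - 1) * 2 ^ (p - 1) * R ^ (p - 2) * 0 ^ 2 := by simp
    linarith
  have hR : 0 < R := lt_of_lt_of_le hb hbR
  have hp1 : 1 ≤ p := by linarith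
  have hq : 1 ≤ p - 1 := by linarith
  have hRb : 0 < R + b := by linarith
  have hRb' : 0 ≤ R - b := by linarith
  -- (R+b)^p - R^p ≤ p (R+b)^(p-1) b
  have h1 := rpow_sub_le_tangent hp1 hRb hR.le
  -- R^p - (R-b)^p ≥ p (R-b)^(p-1) b
  have h2 : p * (R - b) ^ (p - 1) * b ≤ R ^ p - (R - b) ^ p := by
    rcases hRb'.eq_or_lt with h0 | h0
    · rw [← h0, Real.zero_rpow (by linarith : p - 1 ≠ 0), Real.zero_rpow (by linarith : p ≠ 0)]
      have := Real.rpow_pos_of_pos hR p
      simp only [mul_zero, zero_mul, sub_zero]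
      exact this.le
    · have := rpow_sub_le_tangent hp1 h0 hR.le
      have e : p * (R - b) ^ (p - 1) * (R - b - R) = - (p * (R - b) ^ (p - 1) * b) := by ring
      rw [e] at this
      linarith
  -- (R+b)^(p-1) - (R-b)^(p-1) ≤ (p-1) (R+b)^(p-2) 2b
  have h3 := rpow_sub_le_tangent hq hRb hRb'
  have e3 : (p - 1) - 1 = p - 2 := by ring
  rw [e3] at h3
  have e4 : R + b - (R - b) = 2 * b := by ring
  rw [e4] at h3
  -- (R+b)^(p-2) ≤ (2R)^(p-2)
  have h4 : (R + b) ^ (p - 2) ≤ (2 * R) ^ (p - 2) :=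
    Real.rpow_le_rpow hRb.le (by linarith) (by linarith)
  have h5 : (2 * R) ^ (p - 2) = 2 ^ (p - 2) * R ^ (p - 2) :=
    Real.mul_rpow (by norm_num) hR.le
  have e5 : (2 : ℝ) ^ (p - 1) = 2 ^ (p - 2) * 2 := by
    rw [← Real.rpow_add_one (by norm_num : (2 : ℝ) ≠ 0)]
    congr 1
    ring
  have hpp : 0 < p * (p - 1) := by nlinarith
  have e1' : R + b - R = b := by ring
  rw [e1'] at h1
  -- combine
  have h6 : p * b * ((R + b) ^ (p - 1) - (R - b) ^ (p - 1))
      ≤ p * b * ((p - 1) * (R + b) ^ (p - 2) * (2 * b)) :=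
    mul_le_mul_of_nonneg_left h3 (by positivity)
  have h7 : p * b * ((p - 1) * (R + b) ^ (p - 2) * (2 * b))
      ≤ p * b * ((p - 1) * (2 ^ (p - 2) * R ^ (p - 2)) * (2 * b)) := by
    apply mul_le_mul_of_nonneg_left _ (by positivity)
    apply mul_le_mul_of_nonneg_right _ (by positivity)
    apply mul_le_mul_of_nonneg_left _ (by linarith)
    rw [← h5]
    exact h4
  rw [e5]
  nlinarith

/-- The scalar key inequality for `p > 2`. -/
lemma exists_scalar_upper {p δ : ℝ} (hp : 2 < p) (hδ : 0 < δ) :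
    ∃ C : ℝ, 0 < C ∧ ∀ R b : ℝ, 0 ≤ R → 0 ≤ b →
      ((R + b) ^ p + |R - b| ^ p) / 2 ≤ R ^ p + (1 + δ) * b ^ p + C * R ^ (p - 2) * b ^ 2 := by
  have hp0 : 0 < p := by linarith
  have hp1 : 1 ≤ p := by linarith
  set η : ℝ := min 1 (δ / (p * 2 ^ (p - 1))) with hη
  have h2pos : (0 : ℝ) < 2 ^ (p - 1) := by positivity
  have hη0 : 0 < η := lt_min one_pos (by positivity)
  have hη1 : η ≤ 1 := min_le_left _ _
  have hηδ : p * 2 ^ (p - 1) * η ≤ δ := by
    have : η ≤ δ / (p * 2 ^ (p - 1)) := min_le_right _ _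
    rwa [le_div_iff₀ (by positivity), mul_comm] at this
  -- (1 + η)^p ≤ 1 + δ
  have hbern : (1 + η) ^ p ≤ 1 + δ := by
    have h := rpow_sub_le_tangent hp1 (by linarith : (0:ℝ) < 1 + η) (zero_le_one)
    rw [Real.one_rpow] at h
    have h2 : (1 + η) ^ (p - 1) ≤ 2 ^ (p - 1) :=
      Real.rpow_le_rpow (by linarith) (by linarith) (by linarith)
    have e : 1 + η - 1 = η := by ring
    rw [e] at h
    have h3 : p * (1 + η) ^ (p - 1) * η ≤ p * 2 ^ (p - 1) * η := by
      apply mul_le_mul_of_nonneg_right _ hη0.le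
      exact mul_le_mul_of_nonneg_left h2 hp0.le
    linarith
  have hηp : 0 < η ^ (2 - p) := Real.rpow_pos_of_pos hη0 _
  set C₁ : ℝ := p * (p - 1) * 2 ^ (p - 1) with hC₁
  have hC₁pos : 0 < C₁ := by
    have : 0 < p - 1 := by linarith
    positivity
  set C₂ : ℝ := 2 ^ p * η ^ (2 - p) with hC₂
  have hC₂pos : 0 < C₂ := by positivity
  refine ⟨C₁ + C₂, by positivity, ?_⟩
  intro R b hR hb
  have hRpow : 0 ≤ R ^ (p - 2) := Real.rpow_nonneg hR _
  have hbp : 0 ≤ b ^ p := Real.rpow_nonneg hb _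
  have hRp : 0 ≤ R ^ p := Real.rpow_nonneg hR _
  have hmid : 0 ≤ R ^ (p - 2) * b ^ 2 := by positivity
  have habs : |R - b| ≤ R + b := by
    rw [abs_le]; constructor <;> linarith
  have hRbp : |R - b| ^ p ≤ (R + b) ^ p := Real.rpow_le_rpow (abs_nonneg _) habs hp0.le
  rcases le_or_gt b R with hbR | hRb
  · -- b ≤ R
    have h := second_order_le hp hb hbR
    rw [← hC₁] at h
    rw [abs_of_nonneg (by linarith : 0 ≤ R - b)]
    have : C₂ * R ^ (p - 2) * b ^ 2 ≥ 0 := by positivity
    have h1' : 0 ≤ C₁ * R ^ (p - 2) * b ^ 2 := by positivity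
    have e : (C₁ + C₂) * R ^ (p - 2) * b ^ 2
        = C₁ * R ^ (p - 2) * b ^ 2 + C₂ * R ^ (p - 2) * b ^ 2 := by ring
    have hδ' : 0 ≤ (1 + δ) * b ^ p := by positivity
    rw [e]
    linarith
  · rcases le_or_gt R (η * b) with hRη | hRη
    · -- R ≤ η b
      have hb0 : 0 ≤ b := hb
      have h1 : (R + b) ^ p ≤ ((1 + η) * b) ^ p :=
        Real.rpow_le_rpow (by linarith) (by nlinarith) hp0.le
      rw [Real.mul_rpow (by linarith) hb] at h1
      have h2 : (1 + η) ^ p * b ^ p ≤ (1 + δ) * b ^ p :=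
        mul_le_mul_of_nonneg_right hbern hbp
      have h3 : 0 ≤ (C₁ + C₂) * R ^ (p - 2) * b ^ 2 := by positivity
      linarith
    · -- η b < R < b
      have hb' : 0 < b := lt_of_le_of_lt hR hRb
      have h1 : (R + b) ^ p ≤ (2 * b) ^ p :=
        Real.rpow_le_rpow (by linarith) (by linarith) hp0.le
      rw [Real.mul_rpow (by norm_num) hb] at h1
      -- b^p = b^2 * b^(p-2), b^(p-2) ≤ (R/η)^(p-2)
      have e1 : b ^ p = b ^ (p - 2) * b ^ 2 := by
        rw [← Real.rpow_natCast b 2, ← Real.rpow_add hb']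
        congr 1
        push_cast
        ring
      have hbR' : b ≤ R / η := by
        rw [le_div_iff₀ hη0]; linarith
      have h2 : b ^ (p - 2) ≤ (R / η) ^ (p - 2) :=
        Real.rpow_le_rpow hb (by exact hbR') (by linarith)
      have hR' : 0 < R := lt_of_le_of_lt (by positivity) hRη
      have e2 : (R / η) ^ (p - 2) = R ^ (p - 2) * η ^ (2 - p) := by
        rw [Real.div_rpow hR hη0.le]
        have : η ^ (2 - p) = (η ^ (p - 2))⁻¹ := by
          rw [← Real.rpow_neg hη0.le]
          congr 1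
          ring
        rw [this]
        rfl
      have h3 : 2 ^ p * b ^ p ≤ C₂ * R ^ (p - 2) * b ^ 2 := by
        rw [e1, hC₂]
        have : b ^ (p - 2) * b ^ 2 ≤ R ^ (p - 2) * η ^ (2 - p) * b ^ 2 := by
          apply mul_le_mul_of_nonneg_right _ (by positivity)
          rw [← e2]
          exact h2
        have h2p : (0:ℝ) < 2 ^ p := by positivity
        have := mul_le_mul_of_nonneg_left this h2p.le
        nlinarith
      have h4 : 0 ≤ C₁ * R ^ (p - 2) * b ^ 2 := by positivity
      have e : (C₁ + C₂) * R ^ (p - 2) * b ^ 2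
          = C₁ * R ^ (p - 2) * b ^ 2 + C₂ * R ^ (p - 2) * b ^ 2 := by ring
      have hδ' : 0 ≤ (1 + δ) * b ^ p := by positivity
      rw [e]
      linarith

/-- The inequality with an extra orthogonal component: `W = s² + ρ`. -/
lemma exists_vector_upper {p δ : ℝ} (hp : 2 < p) (hδ : 0 < δ) :
    ∃ C : ℝ, 0 < C ∧ ∀ s a ρ : ℝ, 0 ≤ ρ →
      (((s + a) ^ 2 + ρ) ^ (p / 2) + ((s - a) ^ 2 + ρ) ^ (p / 2)) / 2
        ≤ (s ^ 2 + ρ) ^ (p / 2) + (1 + δ) * |a| ^ p + C * (s ^ 2 + ρ) ^ (p / 2 - 1) * a ^ 2 := by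
  obtain ⟨C, hC, h⟩ := exists_scalar_upper hp hδ
  refine ⟨C, hC, ?_⟩
  intro s a ρ hρ
  have hθ : 1 ≤ p / 2 := by linarith
  set W : ℝ := s ^ 2 + ρ with hW
  have hW0 : 0 ≤ W := by positivity
  set R : ℝ := Real.sqrt W with hR
  have hR0 : 0 ≤ R := Real.sqrt_nonneg _
  have hRsq : R ^ 2 = W := Real.sq_sqrt hW0
  set b : ℝ := |a| with hb
  have hb0 : 0 ≤ b := abs_nonneg _
  have hbsq : b ^ 2 = a ^ 2 := sq_abs a
  have hs : |s| ≤ R := by
    rw [hR]
    apply Real.abs_le_sqrt
    rw [hW]
    linarith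
  -- pass to the extreme case
  set M : ℝ := W + a ^ 2 with hM
  set τ : ℝ := 2 * s * a with hτ
  set T : ℝ := 2 * R * b with hT
  have hτT : |τ| ≤ T := by
    rw [hτ, hT, abs_mul, abs_mul]
    have : |(2:ℝ)| = 2 := by norm_num
    rw [this]
    have := mul_le_mul_of_nonneg_left hs (by norm_num : (0:ℝ) ≤ 2)
    exact mul_le_mul_of_nonneg_right this hb0
  have hp1 : (s + a) ^ 2 + ρ = M + τ := by rw [hM, hτ, hW]; ring
  have hp2 : (s - a) ^ 2 + ρ = M - τ := by rw [hM, hτ, hW]; ring
  have hT1 : M + T = (R + b) ^ 2 := by rw [hM, hT, ← hRsq, ← hbsq]; ring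
  have hT2 : M - T = (R - b) ^ 2 := by rw [hM, hT, ← hRsq, ← hbsq]; ring
  have hconv := convexOn_rpow hθ
  have key : (M + τ) ^ (p / 2) + (M - τ) ^ (p / 2) ≤ (M + T) ^ (p / 2) + (M - T) ^ (p / 2) := by
    have hMT0 : 0 ≤ M - T := by rw [hT2]; positivity
    have hMT1 : 0 ≤ M + T := by rw [hT1]; positivity
    rcases (abs_nonneg τ).trans hτT |>.eq_or_lt with hT0 | hT0
    · have : τ = 0 := by
        have : |τ| ≤ 0 := by rw [← hT0] at hτT; exact hτT
        exact abs_eq_zero.mp (le_antisymm this (abs_nonneg _))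
      rw [this, ← hT0]
    · have hτ1 : -T ≤ τ ∧ τ ≤ T := abs_le.mp hτT
      set α : ℝ := (T + τ) / (2 * T) with hα
      have hα0 : 0 ≤ α := by
        rw [hα]; apply div_nonneg <;> linarith [hτ1.1]
      have hα1 : 0 ≤ 1 - α := by
        have : 1 - α = (T - τ) / (2 * T) := by
          rw [hα]; field_simp; ring
        rw [this]; apply div_nonneg <;> linarith [hτ1.2]
      have hsum : α + (1 - α) = 1 := by ring
      have h1 := hconv.2 (Set.mem_Ici.mpr hMT1) (Set.mem_Ici.mpr hMT0) hα0 hα1 hsum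
      have h2 := hconv.2 (Set.mem_Ici.mpr hMT0) (Set.mem_Ici.mpr hMT1) hα0 hα1 hsum
      simp only [smul_eq_mul] at h1 h2
      have e1 : α * (M + T) + (1 - α) * (M - T) = M + τ := by
        rw [hα]; field_simp; ring
      have e2 : α * (M - T) + (1 - α) * (M + T) = M - τ := by
        rw [hα]; field_simp; ring
      rw [e1] at h1
      rw [e2] at h2
      nlinarith
  rw [hp1, hp2]
  have h' := h R b hR0 hb0
  have e1 : (M + T) ^ (p / 2) = (R + b) ^ p := by
    rw [hT1, ← Real.rpow_natCast (R + b) 2, ← Real.rpow_mul (by positivity)]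
    congr 1
    push_cast
    ring
  have e2 : (M - T) ^ (p / 2) = |R - b| ^ p := by
    rw [hT2, ← sq_abs (R - b), ← Real.rpow_natCast (|R - b|) 2, ← Real.rpow_mul (abs_nonneg _)]
    congr 1
    push_cast
    ring
  have e3 : W ^ (p / 2) = R ^ p := by
    rw [← hRsq, ← Real.rpow_natCast R 2, ← Real.rpow_mul hR0]
    congr 1
    push_cast
    ring
  have e4 : W ^ (p / 2 - 1) = R ^ (p - 2) := by
    rw [← hRsq, ← Real.rpow_natCast R 2, ← Real.rpow_mul hR0]
    congr 1
    push_cast
    ring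
  rw [e1, e2] at key
  rw [e3, e4]
  rw [← hbsq]
  linarith

/-! ### Moment inequalities for scalar lists -/

/-- `∑ πᵢ |aᵢ|^p`. -/
noncomputable def mass (p : ℝ) (l : List (ℝ × ℝ)) : ℝ := (l.map fun it => it.1 * |it.2| ^ p).sum

/-- `∑ πᵢ aᵢ²`. -/
noncomputable def var2 (l : List (ℝ × ℝ)) : ℝ := (l.map fun it => it.1 * it.2 ^ 2).sum

lemma mass_cons (p π a : ℝ) (l : List (ℝ × ℝ)) :
    mass p ((π, a) :: l) = π * |a| ^ p + mass p l := by simp [mass]

lemma var2_cons (π a : ℝ) (l : List (ℝ × ℝ)) :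
    var2 ((π, a) :: l) = π * a ^ 2 + var2 l := by simp [var2]

lemma mass_nonneg (p : ℝ) {l : List (ℝ × ℝ)} (hl : EopValid l) : 0 ≤ mass p l := by
  induction l with
  | nil => simp [mass]
  | cons it l ih =>
    obtain ⟨π, a⟩ := it
    rw [mass_cons]
    have := hl.head
    have h1 : 0 ≤ π := this.1
    have := ih hl.tail
    positivity

lemma var2_nonneg {l : List (ℝ × ℝ)} (hl : EopValid l) : 0 ≤ var2 l := by
  induction l with
  | nil => simp [var2]
  | cons it l ih =>
    obtain ⟨π, a⟩ := it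
    rw [var2_cons]
    have := hl.head
    have h1 : 0 ≤ π := this.1
    have := ih hl.tail
    positivity

/-- `p ≥ 2`: lower bound. -/
lemma Eop_abs_rpow_ge {p : ℝ} (hp : 2 ≤ p) {l : List (ℝ × ℝ)} (hl : EopValid l) (s : ℝ) :
    |s| ^ p + mass p l ≤ Eop l (fun x => |x| ^ p) s := by
  induction l generalizing s with
  | nil => simp [mass, Eop_nil]
  | cons it l ih =>
    obtain ⟨π, a⟩ := it
    have hπ := hl.head
    simp only at hπ
    rw [Eop_cons, mass_cons]
    have h0 := ih hl.tail s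
    have h1 := ih hl.tail (s + a)
    have h2 := ih hl.tail (s - a)
    have hc := clarkson_ge hp s a
    have h4 : 0 ≤ 1 - π := by linarith
    have h5 : 0 ≤ π / 2 := by linarith
    have h6 := mul_le_mul_of_nonneg_left h0 h4
    have h7 := mul_le_mul_of_nonneg_left (add_le_add h1 h2) h5
    have h8 := mul_le_mul_of_nonneg_left hc h5
    nlinarith

/-- `1 ≤ p ≤ 2`: upper bound. -/
lemma Eop_abs_rpow_le {p : ℝ} (hp1 : 1 ≤ p) (hp : p ≤ 2) {l : List (ℝ × ℝ)} (hl : EopValid l)
    (s : ℝ) : Eop l (fun x => |x| ^ p) s ≤ |s| ^ p + mass p l := by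
  induction l generalizing s with
  | nil => simp [mass, Eop_nil]
  | cons it l ih =>
    obtain ⟨π, a⟩ := it
    have hπ := hl.head
    simp only at hπ
    rw [Eop_cons, mass_cons]
    have h0 := ih hl.tail s
    have h1 := ih hl.tail (s + a)
    have h2 := ih hl.tail (s - a)
    have hc := clarkson_le hp1 hp s a
    have h4 : 0 ≤ 1 - π := by linarith
    have h5 : 0 ≤ π / 2 := by linarith
    have h6 := mul_le_mul_of_nonneg_left h0 h4
    have h7 := mul_le_mul_of_nonneg_left (add_le_add h1 h2) h5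
    have h8 := mul_le_mul_of_nonneg_left hc h5
    nlinarith

/-- `p > 2`: the supersolution upper bound. -/
lemma exists_Eop_abs_rpow_super {p δ : ℝ} (hp : 2 < p) (hδ : 0 < δ) :
    ∃ κ : ℝ, 0 < κ ∧ ∀ (l : List (ℝ × ℝ)), EopValid l → ∀ s : ℝ,
      Eop l (fun x => |x| ^ p) s ≤ (s ^ 2 + κ * var2 l) ^ (p / 2) + (1 + δ) * mass p l := by
  obtain ⟨C, hC, hv⟩ := exists_vector_upper hp hδ
  have hp0 : 0 < p := by linarith
  refine ⟨2 * C / p, by positivity, ?_⟩
  set κ : ℝ := 2 * C / p with hκ
  have hκ0 : 0 < κ := by positivity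
  intro l hl s
  induction l generalizing s with
  | nil =>
    simp only [Eop_nil, var2, mass, List.map_nil, List.sum_nil, mul_zero, add_zero]
    rw [← sq_abs s, ← Real.rpow_natCast (|s|) 2, ← Real.rpow_mul (abs_nonneg _)]
    apply le_of_eq
    congr 1
    push_cast
    ring
  | cons it l ih =>
    obtain ⟨π, a⟩ := it
    have hπ := hl.head
    simp only at hπ
    rw [Eop_cons, mass_cons, var2_cons]
    have hV := var2_nonneg hl.tail
    have hm := mass_nonneg p hl.tail
    set V := var2 l with hVdef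
    set A := mass p l with hAdef
    have h0 := ih hl.tail s
    have h1 := ih hl.tail (s + a)
    have h2 := ih hl.tail (s - a)
    have hρ : 0 ≤ κ * V := by positivity
    have hvec := hv s a (κ * V) hρ
    set W : ℝ := s ^ 2 + κ * V with hW
    have hW0 : 0 ≤ W := by positivity
    have h4 : 0 ≤ 1 - π := by linarith
    have h5 : 0 ≤ π / 2 := by linarith
    -- first the average
    have step : (1 - π) * Eop l (fun x => |x| ^ p) s
        + π / 2 * (Eop l (fun x => |x| ^ p) (s + a) + Eop l (fun x => |x| ^ p) (s - a))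
        ≤ W ^ (p / 2) + π * ((1 + δ) * |a| ^ p + C * W ^ (p / 2 - 1) * a ^ 2) + (1 + δ) * A := by
      have h6 := mul_le_mul_of_nonneg_left h0 h4
      have h7 := mul_le_mul_of_nonneg_left (add_le_add h1 h2) h5
      have h8 := mul_le_mul_of_nonneg_left hvec (by linarith : 0 ≤ π)
      nlinarith
    -- Bernoulli
    have bern : W ^ (p / 2) + π * (C * W ^ (p / 2 - 1) * a ^ 2)
        ≤ (s ^ 2 + κ * (π * a ^ 2 + V)) ^ (p / 2) := by
      have e : s ^ 2 + κ * (π * a ^ 2 + V) = W + κ * (π * a ^ 2) := by rw [hW]; ring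
      rw [e]
      have hx : 0 ≤ κ * (π * a ^ 2) := by
        have : 0 ≤ π := hπ.1
        positivity
      rcases hW0.eq_or_lt with h00 | h00
      · rw [← h00]
        have hne : p / 2 - 1 ≠ 0 := by
          have : 0 < p / 2 - 1 := by linarith
          exact this.ne'
        rw [Real.zero_rpow hne, Real.zero_rpow (by positivity : p / 2 ≠ 0)]
        simp only [mul_zero, zero_mul, add_zero, zero_add]
        exact Real.rpow_nonneg hx _
      · have hθ : 1 ≤ p / 2 := by linarith
        have hs' : -1 ≤ κ * (π * a ^ 2) / W := by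
          have : 0 ≤ κ * (π * a ^ 2) / W := by positivity
          linarith
        have hb := one_add_mul_self_le_rpow_one_add hs' hθ
        have e2 : W + κ * (π * a ^ 2) = W * (1 + κ * (π * a ^ 2) / W) := by
          field_simp
        rw [e2, Real.mul_rpow hW0 (by linarith)]
        have hWp : 0 < W ^ (p / 2) := Real.rpow_pos_of_pos h00 _
        have e3 : W ^ (p / 2 - 1) = W ^ (p / 2) / W := Real.rpow_sub_one h00.ne' _
        rw [e3]
        have h9 := mul_le_mul_of_nonneg_left hb hWp.le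
        have e4 : W ^ (p / 2) * (1 + p / 2 * (κ * (π * a ^ 2) / W))
            = W ^ (p / 2) + π * (C * (W ^ (p / 2) / W) * a ^ 2) := by
          rw [hκ]
          field_simp
        linarith
    nlinarith

/-! ### `p < 2`: the main-set lower bound, index version. -/

section main_set

variable {ι : Type*}

/-- For a list of indices: active mass of the marked indices. -/
noncomputable def mact (π : ι → ℝ) (M : ι → Prop) [DecidablePred M] (l : List ι) : ℝ :=
  (l.map fun i => if M i then π i else 0).sum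

/-- `∑_{i ∈ M} πᵢ |aᵢ|^p`. -/
noncomputable def mmass (p : ℝ) (π a : ι → ℝ) (M : ι → Prop) [DecidablePred M] (l : List ι) : ℝ :=
  (l.map fun i => if M i then π i * |a i| ^ p else 0).sum

lemma Eop_abs_rpow_ge_main {p : ℝ} (hp : 1 ≤ p) (π a : ι → ℝ) (M : ι → Prop) [DecidablePred M]
    (hπ : ∀ i, 0 ≤ π i ∧ π i ≤ 1) (l : List ι) (s : ℝ) :
    (1 - mact π M l) * (|s| ^ p + mmass p π a M l)
      ≤ Eop (l.map fun i => (π i, a i)) (fun x => |x| ^ p) s := by
  have hact : ∀ l : List ι, 0 ≤ mact π M l := by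
    intro l
    induction l with
    | nil => simp [mact]
    | cons i l ih =>
      have : mact π M (i :: l) = (if M i then π i else 0) + mact π M l := by simp [mact]
      rw [this]
      split_ifs
      · have := (hπ i).1; linarith
      · linarith
  have hmm : ∀ l : List ι, 0 ≤ mmass p π a M l := by
    intro l
    induction l with
    | nil => simp [mmass]
    | cons i l ih =>
      have : mmass p π a M (i :: l) = (if M i then π i * |a i| ^ p else 0) + mmass p π a M l := by
        simp [mmass]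
      rw [this]
      split_ifs
      · have := (hπ i).1
        have : 0 ≤ π i * |a i| ^ p := by positivity
        linarith
      · linarith
  have hvalid : ∀ l : List ι, EopValid (l.map fun i => (π i, a i)) := by
    intro l x hx
    obtain ⟨y, _, rfl⟩ := List.mem_map.mp hx
    exact hπ y
  induction l generalizing s with
  | nil => simp [mact, mmass, Eop_nil]
  | cons i l ih =>
    have e1 : mact π M (i :: l) = (if M i then π i else 0) + mact π M l := by simp [mact]
    have e2 : mmass p π a M (i :: l) = (if M i then π i * |a i| ^ p else 0) + mmass p π a M l := by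
      simp [mmass]
    rw [e1, e2, List.map_cons, Eop_cons]
    set c := 1 - mact π M l with hc
    set m := mmass p π a M l with hm
    have hc1 : c ≤ 1 := by have := hact l; rw [hc]; linarith
    have hm0 : 0 ≤ m := hmm l
    have hπ0 := (hπ i).1
    have hπ1 := (hπ i).2
    have h0 := ih s
    have h1 := ih (s + a i)
    have h2 := ih (s - a i)
    set Y0 := Eop (l.map fun i => (π i, a i)) (fun x => |x| ^ p) s
    set Y1 := Eop (l.map fun i => (π i, a i)) (fun x => |x| ^ p) (s + a i)
    set Y2 := Eop (l.map fun i => (π i, a i)) (fun x => |x| ^ p) (s - a i)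
    have hA0 : 0 ≤ |s| ^ p := by positivity
    have hY0 : 0 ≤ Y0 := Eop_nonneg (hvalid l) (fun x => by positivity) s
    have hY1 : 0 ≤ Y1 := Eop_nonneg (hvalid l) (fun x => by positivity) _
    have hY2 : 0 ≤ Y2 := Eop_nonneg (hvalid l) (fun x => by positivity) _
    have h4 : 0 ≤ 1 - π i := by linarith
    have h5 : 0 ≤ π i / 2 := by linarith
    have hRHS : 0 ≤ (1 - π i) * Y0 + π i / 2 * (Y1 + Y2) := by positivity
    have hQA := avg_ge_left hp s (a i)
    have hQB := avg_ge_right hp s (a i)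
    set A := |s| ^ p with hAdef
    set B := |a i| ^ p with hBdef
    have hB0 : 0 ≤ B := by positivity
    set Q := (|s + a i| ^ p + |s - a i| ^ p) / 2 with hQ
    split_ifs with hMi
    · -- marked index
      have e : 1 - (π i + mact π M l) = c - π i := by rw [hc]; ring
      rw [e]
      by_cases hcp : c - π i ≤ 0
      · have : (c - π i) * (A + (π i * B + m)) ≤ 0 := by
          apply mul_nonpos_of_nonpos_of_nonneg hcp
          positivity
        linarith
      · push Not at hcp
        have hc0 : 0 ≤ c := by linarith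
        have h6 := mul_le_mul_of_nonneg_left h0 h4
        have h7 := mul_le_mul_of_nonneg_left (add_le_add h1 h2) h5
        -- the algebra
        have key : (c - π i) * (A + (π i * B + m))
            ≤ (1 - π i) * (c * (A + m)) + π i / 2 * (c * (|s + a i| ^ p + m)
              + c * (|s - a i| ^ p + m)) := by
          have hgap : 0 ≤ c * (Q - A - B) + A + π i * B + m := by
            by_cases hAB : A ≤ B
            · -- min = A
              have : c * (Q - A - B) ≥ - A := by
                have hQ2 : Q - A - B ≥ - A := by linarith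
                have hneg : Q - A - B ≤ 0 ∨ 0 ≤ Q - A - B := le_total _ _
                rcases hneg with hneg | hneg
                · nlinarith
                · nlinarith
              nlinarith [mul_nonneg hπ0 hB0]
            · push Not at hAB
              have : c * (Q - A - B) ≥ - B := by
                have hQ2 : Q - A - B ≥ - B := by linarith
                have hneg : Q - A - B ≤ 0 ∨ 0 ≤ Q - A - B := le_total _ _
                rcases hneg with hneg | hneg
                · nlinarith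
                · nlinarith
              nlinarith [mul_nonneg hπ0 hB0]
          have e' : (1 - π i) * (c * (A + m)) + π i / 2 * (c * (|s + a i| ^ p + m)
              + c * (|s - a i| ^ p + m))
              - (c - π i) * (A + (π i * B + m))
              = π i * (c * (Q - A - B) + A + π i * B + m) := by
            rw [hQ]; ring
          have := mul_nonneg hπ0 hgap
          linarith
        have h8 : (1 - π i) * (c * (A + m)) + π i / 2 * (c * (|s + a i| ^ p + m)
              + c * (|s - a i| ^ p + m)) ≤ (1 - π i) * Y0 + π i / 2 * (Y1 + Y2) := by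
          linarith
        linarith
    · -- unmarked index
      have e : 1 - (0 + mact π M l) = c := by rw [hc]; ring
      rw [e, zero_add]
      by_cases hcp : c ≤ 0
      · have : c * (A + m) ≤ 0 := mul_nonpos_of_nonpos_of_nonneg hcp (by positivity)
        linarith
      · push Not at hcp
        have h6 := mul_le_mul_of_nonneg_left h0 h4
        have h7 := mul_le_mul_of_nonneg_left (add_le_add h1 h2) h5
        have key : c * (A + m) ≤ (1 - π i) * (c * (A + m)) + π i / 2 * (c * (|s + a i| ^ p + m)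
              + c * (|s - a i| ^ p + m)) := by
          have e' : (1 - π i) * (c * (A + m)) + π i / 2 * (c * (|s + a i| ^ p + m)
              + c * (|s - a i| ^ p + m)) - c * (A + m) = π i * c * (Q - A) := by
            rw [hQ]; ring
          have : 0 ≤ π i * c * (Q - A) := by
            apply mul_nonneg (by positivity)
            linarith
          linarith
        linarith

end main_set

/-! ### Exponential moment -/

lemma cosh_le_one_add_sq {t : ℝ} (ht : |t| ≤ 1) : Real.cosh t ≤ 1 + t ^ 2 := by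
  have h1 := Real.cosh_le_exp_half_sq t
  have hx0 : 0 ≤ t ^ 2 / 2 := by positivity
  have hx1 : t ^ 2 ≤ 1 := by
    have := sq_abs t
    nlinarith [abs_nonneg t]
  have hx : |t ^ 2 / 2| ≤ 1 := by
    rw [abs_of_nonneg hx0]; linarith
  have h2 := Real.abs_exp_sub_one_sub_id_le hx
  rw [abs_of_nonneg hx0] at *
  have h3 := (abs_le.mp h2).2
  have h4 : (t ^ 2 / 2) ^ 2 ≤ t ^ 2 / 2 := by nlinarith
  linarith

/-- The exponential moment of a sparse sum. -/
lemma Eop_cosh_le {b : ℝ} (hb : 0 < b) {l : List (ℝ × ℝ)} (hl : EopValid l)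
    (hbd : ∀ it ∈ l, |it.2| ≤ b) (s : ℝ) :
    Eop l (fun x => Real.cosh (x / b)) s ≤ Real.cosh (s / b) * Real.exp (var2 l / b ^ 2) := by
  induction l generalizing s with
  | nil => simp [var2, Eop_nil]
  | cons it l ih =>
    obtain ⟨π, a⟩ := it
    have hπ := hl.head
    simp only at hπ
    rw [Eop_cons, var2_cons]
    have hbd' : ∀ it ∈ l, |it.2| ≤ b := fun x hx => hbd x (List.mem_cons_of_mem _ hx)
    have h0 := ih hl.tail hbd' s
    have h1 := ih hl.tail hbd' (s + a)
    have h2 := ih hl.tail hbd' (s - a)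
    set E := Real.exp (var2 l / b ^ 2) with hE
    have hEpos : 0 < E := Real.exp_pos _
    have h4 : 0 ≤ 1 - π := by linarith
    have h5 : 0 ≤ π / 2 := by linarith
    have h6 := mul_le_mul_of_nonneg_left h0 h4
    have h7 := mul_le_mul_of_nonneg_left (add_le_add h1 h2) h5
    have hadd : Real.cosh ((s + a) / b) + Real.cosh ((s - a) / b)
        = 2 * Real.cosh (s / b) * Real.cosh (a / b) := by
      have e1 : (s + a) / b = s / b + a / b := by ring
      have e2 : (s - a) / b = s / b - a / b := by ring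
      rw [e1, e2, Real.cosh_add, Real.cosh_sub]
      ring
    have ht : |a / b| ≤ 1 := by
      rw [abs_div, abs_of_pos hb, div_le_one hb]
      exact hbd (π, a) List.mem_cons_self
    have hc := cosh_le_one_add_sq ht
    have hcs : 0 < Real.cosh (s / b) := Real.cosh_pos _
    have hexp : 1 + π * (a / b) ^ 2 ≤ Real.exp (π * (a / b) ^ 2) := by
      have := Real.add_one_le_exp (π * (a / b) ^ 2)
      linarith
    have e3 : Real.exp ((π * a ^ 2 + var2 l) / b ^ 2) = Real.exp (π * (a / b) ^ 2) * E := by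
      rw [hE, ← Real.exp_add]
      congr 1
      field_simp
    rw [e3]
    have h8 : (1 - π) * (Real.cosh (s / b) * E)
        + π / 2 * (Real.cosh ((s + a) / b) * E + Real.cosh ((s - a) / b) * E)
        = Real.cosh (s / b) * E * (1 - π + π * Real.cosh (a / b)) := by
      have : Real.cosh ((s + a) / b) * E + Real.cosh ((s - a) / b) * E
          = (2 * Real.cosh (s / b) * Real.cosh (a / b)) * E := by
        rw [← hadd]; ring
      rw [this]; ring
    have h9 : 1 - π + π * Real.cosh (a / b) ≤ Real.exp (π * (a / b) ^ 2) := by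
      have : π * Real.cosh (a / b) ≤ π * (1 + (a / b) ^ 2) :=
        mul_le_mul_of_nonneg_left hc hπ.1
      linarith
    have h10 : Real.cosh (s / b) * E * (1 - π + π * Real.cosh (a / b))
        ≤ Real.cosh (s / b) * E * Real.exp (π * (a / b) ^ 2) :=
      mul_le_mul_of_nonneg_left h9 (by positivity)
    calc _ ≤ (1 - π) * (Real.cosh (s / b) * E)
        + π / 2 * (Real.cosh ((s + a) / b) * E + Real.cosh ((s - a) / b) * E) := by linarith
      _ = _ := h8
      _ ≤ _ := h10
      _ = _ := by ring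

/-- Power moments are dominated by `cosh`. -/
lemma exists_abs_rpow_le_cosh {q : ℝ} (hq : 0 ≤ q) :
    ∃ C : ℝ, 0 < C ∧ ∀ x : ℝ, |x| ^ q ≤ C * Real.cosh x := by
  obtain ⟨n, hn⟩ := exists_nat_ge q
  refine ⟨1 + 2 * (n.factorial : ℝ), by positivity, ?_⟩
  intro x
  have hc1 : 1 ≤ Real.cosh x := Real.one_le_cosh x
  have hexp : Real.exp |x| ≤ 2 * Real.cosh x := by
    rcases abs_cases x with ⟨h, _⟩ | ⟨h, _⟩
    · rw [h, Real.cosh_eq]
      have := Real.exp_pos (-x)
      linarith
    · rw [h, Real.cosh_eq]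
      have := Real.exp_pos x
      linarith
  have hfac : |x| ^ n / (n.factorial : ℝ) ≤ Real.exp |x| :=
    Real.pow_div_factorial_le_exp |x| (abs_nonneg x) n
  have hfpos : (0 : ℝ) < n.factorial := by positivity
  have h1 : |x| ^ n ≤ n.factorial * Real.exp |x| := by
    rw [div_le_iff₀ hfpos] at hfac
    linarith
  rcases le_or_gt |x| 1 with hx | hx
  · have : |x| ^ q ≤ 1 := Real.rpow_le_one (abs_nonneg x) hx hq
    have h3 : 0 ≤ 2 * (n.factorial : ℝ) * Real.cosh x := by positivity
    nlinarith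
  · have h2 : |x| ^ q ≤ |x| ^ (n : ℝ) := Real.rpow_le_rpow_of_exponent_le hx.le hn
    rw [Real.rpow_natCast] at h2
    have h3 : (n.factorial : ℝ) * Real.exp |x| ≤ n.factorial * (2 * Real.cosh x) :=
      mul_le_mul_of_nonneg_left hexp hfpos.le
    have h4 : 0 ≤ Real.cosh x := by linarith
    nlinarith

end Crest.Agent.LpDimRed
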