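/-
M1 of the S0358 plan (findings #1151): finitely many points of a real `L^p` space are, up to an
arbitrarily small distortion, points of a finite `ℓ^p`-sum.
-/
import Mathlib

set_option autoImplicit false
open MeasureTheory
open scoped ENNReal

namespace Crest.Agent.LpDimRed

universe u

variable {α : Type u} [MeasurableSpace α] {μ : Measure α}

/-- The joint simple function of finitely many simple functions. -/
noncomputable def jointSF {n : ℕ} (G : Fin n → SimpleFunc α ℝ) : SimpleFunc α (Fin n → ℝ) where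
  toFun a := fun i => G i a
  measurableSet_fiber' v := by
    have : (fun a i => G i a) ⁻¹' {v} = ⋂ i, (G i) ⁻¹' {v i} := by
      ext a; simp [funext_iff]
    rw [this]
    exact MeasurableSet.iInter fun i => (G i).measurableSet_fiber _
  finite_range' := by
    refine Set.Finite.subset (Set.Finite.pi fun i => (G i).finite_range) ?_
    rintro _ ⟨a, rfl⟩
    simp only [Set.mem_pi, Set.mem_univ, true_implies]
    intro i
    exact ⟨a, rfl⟩

/-- Finite model of finitely many simple functions in `L^p`. -/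
theorem exists_model_simple {p : ℝ≥0∞} (hp0 : p ≠ 0) (hptop : p ≠ ⊤) {n : ℕ} (G : Fin n → SimpleFunc α ℝ)
    (hG : ∀ i, MemLp (G i) p μ) :
    ∃ (T : ℕ) (z : Fin n → Fin T → ℝ), ∀ i j,
      ∑ t, |z i t - z j t| ^ p.toReal = (eLpNorm (fun a => G i a - G j a) p μ).toReal ^ p.toReal := by
  classical
  have hq : 0 < p.toReal := ENNReal.toReal_pos hp0 hptop
  set q := p.toReal with hqdef
  set Φ := jointSF G with hΦ
  have hΦa : ∀ a i, Φ a i = G i a := fun a i => rfl
  set R : Finset (Fin n → ℝ) := Φ.range.filter (· ≠ 0) with hR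
  set w : (Fin n → ℝ) → ℝ≥0∞ := fun v => μ (Φ ⁻¹' {v}) with hw
  have hwfin : ∀ v ∈ R, w v ≠ ⊤ := by
    intro v hv
    have hv0 : v ≠ 0 := (Finset.mem_filter.mp hv).2
    obtain ⟨i, hi⟩ : ∃ i, v i ≠ 0 := by
      by_contra hcon
      push Not at hcon
      exact hv0 (funext hcon)
    have h1 : μ ((G i) ⁻¹' {v i}) < ⊤ :=
      SimpleFunc.measure_preimage_lt_top_of_memLp hp0 hptop (G i) (hG i) (v i) hi
    refine ne_of_lt (lt_of_le_of_lt (measure_mono ?_) h1)
    intro a ha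
    have : Φ a = v := ha
    simp only [Set.mem_preimage, Set.mem_singleton_iff]
    rw [← hΦa, this]
  -- the integral formula
  have hformula : ∀ i j, ∫⁻ a, ‖G i a - G j a‖ₑ ^ q ∂μ =
      ∑ v ∈ R, ‖v i - v j‖ₑ ^ q * w v := by
    intro i j
    set f : (Fin n → ℝ) → ℝ≥0∞ := fun v => ‖v i - v j‖ₑ ^ q with hf
    have h1 : ∫⁻ a, ‖G i a - G j a‖ₑ ^ q ∂μ = (Φ.map f).lintegral μ := by
      rw [← SimpleFunc.lintegral_eq_lintegral]
      rfl
    rw [h1, SimpleFunc.map_lintegral]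
    rw [hR, Finset.sum_filter]
    refine Finset.sum_congr rfl fun v _ => ?_
    by_cases hv : v = 0
    · subst hv
      have : f 0 = 0 := by
        simp only [hf, Pi.zero_apply, sub_self, enorm_zero]
        exact ENNReal.zero_rpow_of_pos hq
      simp [this]
    · simp [hv, hf, hw]
  -- the model
  let e := R.equivFin
  refine ⟨R.card, fun i t => (w (e.symm t : Fin n → ℝ)).toReal ^ (1 / q) * (e.symm t : Fin n → ℝ) i, ?_⟩
  intro i j
  have hsum : ∑ t, |(w (e.symm t : Fin n → ℝ)).toReal ^ (1 / q) * (e.symm t : Fin n → ℝ) i -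
        (w (e.symm t : Fin n → ℝ)).toReal ^ (1 / q) * (e.symm t : Fin n → ℝ) j| ^ q =
      ∑ v ∈ R, (w v).toReal * |v i - v j| ^ q := by
    rw [← Finset.sum_coe_sort R (fun v => (w v).toReal * |v i - v j| ^ q)]
    rw [← Equiv.sum_comp e.symm]
    refine Finset.sum_congr rfl fun t _ => ?_
    set v := (e.symm t : Fin n → ℝ)
    have hw0 : 0 ≤ (w v).toReal := ENNReal.toReal_nonneg
    rw [← mul_sub, abs_mul, abs_of_nonneg (Real.rpow_nonneg hw0 _),
      Real.mul_rpow (Real.rpow_nonneg hw0 _) (abs_nonneg _), ← Real.rpow_mul hw0]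
    rw [one_div, inv_mul_cancel₀ hq.ne', Real.rpow_one]
  refine hsum.trans ?_
  have heLp : eLpNorm (fun a => G i a - G j a) p μ =
      (∑ v ∈ R, ‖v i - v j‖ₑ ^ q * w v) ^ (1 / q) := by
    rw [eLpNorm_eq_lintegral_rpow_enorm_toReal hp0 hptop, hformula i j]
  rw [heLp, ← ENNReal.toReal_rpow, ← Real.rpow_mul ENNReal.toReal_nonneg]
  rw [one_div, inv_mul_cancel₀ hq.ne', Real.rpow_one, ENNReal.toReal_sum]
  · refine Finset.sum_congr rfl fun v _ => ?_
    rw [ENNReal.toReal_mul, mul_comm]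
    congr 1
    rw [← ENNReal.toReal_rpow, ← ofReal_norm,
      ENNReal.toReal_ofReal (norm_nonneg _), Real.norm_eq_abs]
  · intro v hv
    refine ENNReal.mul_ne_top ?_ (hwfin v hv)
    exact ENNReal.rpow_ne_top_of_nonneg hq.le enorm_ne_top

/-- **M1.** Finitely many distinct points of a real `L^p` space embed in a finite `ℓ^p`-sum with
arbitrarily small distortion. -/
theorem exists_finite_model (p : ℝ≥0∞) [Fact (1 ≤ p)] (hptop : p ≠ ⊤) {n : ℕ}
    (x : Fin n → Lp ℝ p μ) (hx : Function.Injective x) (η : ℝ) (hη : 0 < η) :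
    ∃ (T : ℕ) (z : Fin n → Fin T → ℝ), ∀ i j,
      (1 - η) * ‖x i - x j‖ ≤ (∑ t, |z i t - z j t| ^ p.toReal) ^ (1 / p.toReal) ∧
      (∑ t, |z i t - z j t| ^ p.toReal) ^ (1 / p.toReal) ≤ (1 + η) * ‖x i - x j‖ := by
  classical
  have hp1 : (1 : ℝ≥0∞) ≤ p := Fact.out
  have hp0 : p ≠ 0 := (lt_of_lt_of_le one_pos hp1).ne'
  have hq : 0 < p.toReal := ENNReal.toReal_pos hp0 hptop
  -- a lower bound on the distances
  obtain ⟨m, hm, hmle⟩ : ∃ m : ℝ, 0 < m ∧ ∀ i j, i ≠ j → m ≤ ‖x i - x j‖ := by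
    rcases isEmpty_or_nonempty (Fin n × Fin n) with h | h
    · refine ⟨1, one_pos, fun i j _ => (h.false (i, j)).elim⟩
    · let f : Fin n × Fin n → ℝ := fun ij => if ij.1 = ij.2 then 1 else ‖x ij.1 - x ij.2‖
      obtain ⟨ij, hij⟩ := Finite.exists_min f
      have hfpos : ∀ ij, 0 < f ij := by
        intro ij
        by_cases h : ij.1 = ij.2
        · simp [f, h]
        · simp only [f, h, if_false]
          exact norm_pos_iff.mpr (sub_ne_zero.mpr fun h' => h (hx h'))
      refine ⟨f ij, hfpos ij, fun i j hne => ?_⟩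
      have := hij (i, j)
      simpa [f, hne] using this
  -- approximate by simple functions
  set η' := η * m / 2 with hη'
  have hη'pos : 0 < η' := by positivity
  have happ : ∀ i, ∃ g : Lp.simpleFunc ℝ p μ, ‖x i - (g : Lp ℝ p μ)‖ < η' := by
    intro i
    have := (Lp.simpleFunc.denseRange (E := ℝ) (μ := μ) hptop).exists_dist_lt (x i) hη'pos
    obtain ⟨g, hg⟩ := this
    exact ⟨g, by rwa [dist_eq_norm] at hg⟩
  choose g hg using happ
  set G : Fin n → SimpleFunc α ℝ := fun i => Lp.simpleFunc.toSimpleFunc (g i) with hG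
  have hGmem : ∀ i, MemLp (G i) p μ := fun i => Lp.simpleFunc.memLp (g i)
  obtain ⟨T, z, hz⟩ := exists_model_simple (μ := μ) hp0 hptop G hGmem
  refine ⟨T, z, fun i j => ?_⟩
  have hnorm : (∑ t, |z i t - z j t| ^ p.toReal) ^ (1 / p.toReal) =
      ‖(g i : Lp ℝ p μ) - (g j : Lp ℝ p μ)‖ := by
    rw [hz i j, ← Real.rpow_mul ENNReal.toReal_nonneg, mul_one_div_cancel hq.ne', Real.rpow_one,
      Lp.norm_def]
    congr 1
    refine eLpNorm_congr_ae ?_
    have h1 := Lp.coeFn_sub (g i : Lp ℝ p μ) (g j : Lp ℝ p μ)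
    have h2 := Lp.simpleFunc.toSimpleFunc_eq_toFun (g i)
    have h3 := Lp.simpleFunc.toSimpleFunc_eq_toFun (g j)
    filter_upwards [h1, h2, h3] with a ha1 ha2 ha3
    rw [ha1, Pi.sub_apply]
    simp only [hG, ha2, ha3]
  rw [hnorm]
  by_cases hij : i = j
  · subst hij
    simp
  have hmij := hmle i j hij
  have hdiff : |‖(g i : Lp ℝ p μ) - (g j : Lp ℝ p μ)‖ - ‖x i - x j‖| ≤ η * ‖x i - x j‖ := by
    have h1 : ‖((g i : Lp ℝ p μ) - (g j : Lp ℝ p μ)) - (x i - x j)‖ ≤ ‖x i - (g i : Lp ℝ p μ)‖ + ‖x j - (g j : Lp ℝ p μ)‖ := by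
      have : ((g i : Lp ℝ p μ) - (g j : Lp ℝ p μ)) - (x i - x j) = (x j - (g j : Lp ℝ p μ)) - (x i - (g i : Lp ℝ p μ)) := by abel
      rw [this]
      calc _ ≤ ‖x j - (g j : Lp ℝ p μ)‖ + ‖x i - (g i : Lp ℝ p μ)‖ := norm_sub_le _ _
        _ = _ := add_comm _ _
    have h2 := abs_norm_sub_norm_le ((g i : Lp ℝ p μ) - (g j : Lp ℝ p μ)) (x i - x j)
    have h3 := hg i
    have h4 := hg j
    have h5 : η * m ≤ η * ‖x i - x j‖ := mul_le_mul_of_nonneg_left hmij hη.le
    have h6 : η' + η' = η * m := by rw [hη']; ring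
    linarith
  have := abs_le.mp hdiff
  constructor <;> nlinarith [this.1, this.2]

end Crest.Agent.LpDimRed
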