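/-
M1. Reduction of `n` points of `L^p(μ)` to a finite `ℓ_p^T`.
-/
import Crest.Agent.Lib.LpDimRed.Basic

set_option autoImplicit false

namespace Crest.Agent.LpDimRed

open MeasureTheory
open scoped ENNReal

universe u

/-- `n` distinct points of `L^p(μ)`, `1 ≤ p < ∞`, embed into a finite `ℓ_p^T` with distortion
`(1+η)/(1-η)`. Proof idea: approximate by simple functions (`Lp.simpleFunc.denseRange`), take the
joint function `ω ↦ (z_i ω)_i` whose range is finite, `T` = its nonzero values `v`, coordinates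
`v i * μ(A_v)^(1/p)`. -/
theorem exists_finite_approx {α : Type u} [MeasurableSpace α] (μ : Measure α)
    (p : ℝ≥0∞) [Fact (1 ≤ p)] (hp1 : 1 < p) (hptop : p ≠ ⊤) {n : ℕ} (x : Fin n → Lp ℝ p μ)
    (hx : Function.Injective x) (η : ℝ) (hη : 0 < η) :
    ∃ (T : Type) (_ : Fintype T) (z : Fin n → T → ℝ), ∀ i j,
      (1 - η) * ‖x i - x j‖ ≤ (∑ t, |z i t - z j t| ^ p.toReal) ^ (1 / p.toReal) ∧
      (∑ t, |z i t - z j t| ^ p.toReal) ^ (1 / p.toReal) ≤ (1 + η) * ‖x i - x j‖ := by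
  sorry

end Crest.Agent.LpDimRed
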