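import Mathlib

/-! # Approximate Caratheodory (Maurey sampling), derandomized.

Given a finite probability family of functions `F ω : P → ℝ` with values in `[0, B]` and a finite
index set `P`, a list of `N` members of the family has empirical average uniformly close to the
true average, as soon as `N ≥ 4 B² log (2 |P|) / τ²`. No measure theory: the proof is by the method
of conditional expectations on an exponential potential.
-/

namespace Crest.Agent.LpDimRed

open Finset

/-- `exp x ≤ 1 + x + x^2` for `|x| ≤ 1`. -/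
lemma exp_le_one_add_add_sq {x : ℝ} (hx : |x| ≤ 1) : Real.exp x ≤ 1 + x + x ^ 2 := by
  have h := Real.abs_exp_sub_one_sub_id_le (x := x) hx
  have h2 := (abs_le.mp h).2
  linarith

/-- Hoeffding-type bound for a mean-zero bounded average. -/
lemma weighted_exp_le {Ω : Type*} [Fintype Ω] (w : Ω → ℝ) (hw0 : ∀ ω, 0 ≤ w ω)
    (hw1 : ∑ ω, w ω = 1) (X : Ω → ℝ) {B lam : ℝ} (hX : ∀ ω, |X ω| ≤ B)
    (hmean : ∑ ω, w ω * X ω = 0) (hlam : |lam| * B ≤ 1) :
    ∑ ω, w ω * Real.exp (lam * X ω) ≤ Real.exp (lam ^ 2 * B ^ 2) := by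
  have hB : ∀ ω, (lam * X ω) ^ 2 ≤ lam ^ 2 * B ^ 2 := by
    intro ω
    have : (X ω) ^ 2 ≤ B ^ 2 := by
      have := hX ω
      have h0 := abs_nonneg (X ω)
      calc (X ω) ^ 2 = |X ω| ^ 2 := (sq_abs _).symm
        _ ≤ B ^ 2 := by nlinarith
    calc (lam * X ω) ^ 2 = lam ^ 2 * (X ω) ^ 2 := by ring
      _ ≤ lam ^ 2 * B ^ 2 := by nlinarith [sq_nonneg lam]
  have h1 : ∀ ω, |lam * X ω| ≤ 1 := by
    intro ω
    rw [abs_mul]
    calc |lam| * |X ω| ≤ |lam| * B := by nlinarith [abs_nonneg lam, hX ω]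
      _ ≤ 1 := hlam
  calc ∑ ω, w ω * Real.exp (lam * X ω)
      ≤ ∑ ω, w ω * (1 + lam * X ω + lam ^ 2 * B ^ 2) := by
        apply Finset.sum_le_sum
        intro ω _
        apply mul_le_mul_of_nonneg_left _ (hw0 ω)
        have := exp_le_one_add_add_sq (h1 ω)
        have := hB ω
        linarith
    _ = 1 + lam ^ 2 * B ^ 2 := by
        have : ∀ ω, w ω * (1 + lam * X ω + lam ^ 2 * B ^ 2)
            = w ω * (1 + lam ^ 2 * B ^ 2) + lam * (w ω * X ω) := fun ω => by ring
        simp only [this, Finset.sum_add_distrib, ← Finset.sum_mul, ← Finset.mul_sum, hw1, hmean]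
        ring
    _ ≤ Real.exp (lam ^ 2 * B ^ 2) := by
        have := Real.add_one_le_exp (lam ^ 2 * B ^ 2)
        linarith

/-- If a weighted average of a function is `≤ c`, some value is `≤ c`. -/
lemma exists_le_of_weighted_le {Ω : Type*} [Fintype Ω] (w : Ω → ℝ) (hw0 : ∀ ω, 0 ≤ w ω)
    (hw1 : ∑ ω, w ω = 1) (g : Ω → ℝ) {c : ℝ} (h : ∑ ω, w ω * g ω ≤ c) : ∃ ω, g ω ≤ c := by
  by_contra hcon
  push Not at hcon
  have hne : (Finset.univ : Finset Ω).Nonempty := by
    by_contra hE
    rw [Finset.not_nonempty_iff_eq_empty] at hE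
    rw [hE] at hw1
    simp at hw1
  have : ∑ ω, w ω * c < ∑ ω, w ω * g ω := by
    -- some weight is positive
    have : ∃ ω, 0 < w ω := by
      by_contra hp
      push Not at hp
      have : ∑ ω, w ω ≤ 0 := Finset.sum_nonpos (fun ω _ => hp ω)
      linarith
    obtain ⟨ω0, hω0⟩ := this
    apply Finset.sum_lt_sum
    · intro ω _
      exact mul_le_mul_of_nonneg_left (hcon ω).le (hw0 ω)
    · exact ⟨ω0, Finset.mem_univ _, mul_lt_mul_of_pos_left (hcon ω0) hω0⟩
  rw [← Finset.sum_mul, hw1] at this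
  linarith

/-- **Method of conditional expectations.** The potential
`Φ S = ∑ e, (exp (lam * S e) + exp (-lam * S e))`, with `S e = ∑_{j<N} (F (ω_j) e - μ e)`. -/
theorem exists_list_potential {Ω P : Type*} [Fintype Ω] [Fintype P]
    (w : Ω → ℝ) (hw0 : ∀ ω, 0 ≤ w ω) (hw1 : ∑ ω, w ω = 1) (X : Ω → P → ℝ) {B lam : ℝ}
    (hX : ∀ ω e, |X ω e| ≤ B) (hmean : ∀ e, ∑ ω, w ω * X ω e = 0) (hlam : |lam| * B ≤ 1)
    (N : ℕ) :
    ∃ ωs : Fin N → Ω, ∑ e, (Real.exp (lam * ∑ j, X (ωs j) e) + Real.exp (-lam * ∑ j, X (ωs j) e))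
      ≤ 2 * (Fintype.card P : ℝ) * Real.exp (N * (lam ^ 2 * B ^ 2)) := by
  induction N with
  | zero =>
    refine ⟨fun j => j.elim0, ?_⟩
    simp only [Finset.univ_eq_empty, Finset.sum_empty, mul_zero, Real.exp_zero, Nat.cast_zero,
      zero_mul]
    simp [Finset.card_univ]
    ring_nf
    exact le_refl _
  | succ N ih =>
    obtain ⟨ωs, hωs⟩ := ih
    set S : P → ℝ := fun e => ∑ j, X (ωs j) e with hS
    set Φ : ℝ := ∑ e, (Real.exp (lam * S e) + Real.exp (-lam * S e)) with hΦ
    -- averaging over the next sample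
    have havg : ∑ ω, w ω * (∑ e, (Real.exp (lam * (S e + X ω e))
          + Real.exp (-lam * (S e + X ω e)))) ≤ Φ * Real.exp (lam ^ 2 * B ^ 2) := by
      have h1 : ∀ e, ∑ ω, w ω * (Real.exp (lam * (S e + X ω e))
            + Real.exp (-lam * (S e + X ω e)))
          ≤ (Real.exp (lam * S e) + Real.exp (-lam * S e)) * Real.exp (lam ^ 2 * B ^ 2) := by
        intro e
        have hp := weighted_exp_le w hw0 hw1 (fun ω => X ω e) (B := B) (lam := lam)
          (fun ω => hX ω e) (hmean e) hlam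
        have hn := weighted_exp_le w hw0 hw1 (fun ω => X ω e) (B := B) (lam := -lam)
          (fun ω => hX ω e) (hmean e) (by rwa [abs_neg])
        have e1 : ∑ ω, w ω * (Real.exp (lam * (S e + X ω e)) + Real.exp (-lam * (S e + X ω e)))
            = Real.exp (lam * S e) * ∑ ω, w ω * Real.exp (lam * X ω e)
              + Real.exp (-lam * S e) * ∑ ω, w ω * Real.exp (-lam * X ω e) := by
          have hc : ∀ ω, w ω * (Real.exp (lam * (S e + X ω e)) + Real.exp (-lam * (S e + X ω e)))
              = Real.exp (lam * S e) * (w ω * Real.exp (lam * X ω e))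
                + Real.exp (-lam * S e) * (w ω * Real.exp (-lam * X ω e)) := by
            intro ω
            have a1 : lam * (S e + X ω e) = lam * S e + lam * X ω e := by ring
            have a2 : -lam * (S e + X ω e) = -lam * S e + -lam * X ω e := by ring
            rw [a1, a2, Real.exp_add, Real.exp_add]
            ring
          simp_rw [hc]
          rw [Finset.sum_add_distrib, ← Finset.mul_sum, ← Finset.mul_sum]
        rw [e1, add_mul]
        have hneg : (-lam) ^ 2 = lam ^ 2 := by ring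
        rw [hneg] at hn
        exact add_le_add (mul_le_mul_of_nonneg_left hp (Real.exp_pos _).le)
          (mul_le_mul_of_nonneg_left hn (Real.exp_pos _).le)
      calc ∑ ω, w ω * (∑ e, (Real.exp (lam * (S e + X ω e)) + Real.exp (-lam * (S e + X ω e))))
          = ∑ e, ∑ ω, w ω * (Real.exp (lam * (S e + X ω e))
              + Real.exp (-lam * (S e + X ω e))) := by
            simp_rw [Finset.mul_sum]
            rw [Finset.sum_comm]
        _ ≤ ∑ e, (Real.exp (lam * S e) + Real.exp (-lam * S e))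
              * Real.exp (lam ^ 2 * B ^ 2) := Finset.sum_le_sum (fun e _ => h1 e)
        _ = Φ * Real.exp (lam ^ 2 * B ^ 2) := by rw [hΦ, Finset.sum_mul]
    obtain ⟨ω, hω⟩ := exists_le_of_weighted_le w hw0 hw1 _ havg
    refine ⟨Fin.snoc ωs ω, ?_⟩
    have hsum : ∀ e, ∑ j, X ((Fin.snoc ωs ω : Fin (N + 1) → Ω) j) e = S e + X ω e := by
      intro e
      rw [Fin.sum_univ_castSucc]
      simp [hS]
    simp_rw [hsum]
    calc ∑ e, (Real.exp (lam * (S e + X ω e)) + Real.exp (-lam * (S e + X ω e)))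
        ≤ Φ * Real.exp (lam ^ 2 * B ^ 2) := hω
      _ ≤ (2 * (Fintype.card P : ℝ) * Real.exp (N * (lam ^ 2 * B ^ 2)))
            * Real.exp (lam ^ 2 * B ^ 2) :=
          mul_le_mul_of_nonneg_right hωs (Real.exp_pos _).le
      _ = 2 * (Fintype.card P : ℝ) * Real.exp (((N + 1 : ℕ) : ℝ) * (lam ^ 2 * B ^ 2)) := by
          rw [mul_assoc, ← Real.exp_add]
          congr 2
          push_cast
          ring

/-- **Approximate Caratheodory.** A finite probability family of functions with values in `[0, B]`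
has, for `N ≥ 4 B² log (2|P|) / τ²`, a list of `N` members whose empirical average is uniformly
within `τ` of the mean. -/
theorem exists_sparse_average {Ω P : Type*} [Fintype Ω] [Fintype P] [Nonempty P]
    (w : Ω → ℝ) (hw0 : ∀ ω, 0 ≤ w ω) (hw1 : ∑ ω, w ω = 1) (F : Ω → P → ℝ) {B : ℝ}
    (hF : ∀ ω e, 0 ≤ F ω e ∧ F ω e ≤ B) {τ : ℝ} (hτ : 0 < τ) {N : ℕ} (hN : 0 < N)
    (hNB : 4 * B ^ 2 * Real.log (2 * (Fintype.card P : ℝ)) ≤ N * τ ^ 2) :
    ∃ ωs : Fin N → Ω, ∀ e, |(∑ j, F (ωs j) e) / N - ∑ ω, w ω * F ω e| ≤ τ := by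
  classical
  -- mean
  set μ : P → ℝ := fun e => ∑ ω, w ω * F ω e with hμ
  have hΩ : Nonempty Ω := by
    by_contra hE
    rw [not_nonempty_iff] at hE
    simp at hw1
  have hB0 : 0 ≤ B := by
    obtain ⟨ω⟩ := hΩ
    obtain ⟨e⟩ := ‹Nonempty P›
    exact (hF ω e).1.trans (hF ω e).2
  have hμ0 : ∀ e, 0 ≤ μ e ∧ μ e ≤ B := by
    intro e
    constructor
    · exact Finset.sum_nonneg (fun ω _ => mul_nonneg (hw0 ω) (hF ω e).1)
    · calc μ e ≤ ∑ ω, w ω * B :=
            Finset.sum_le_sum (fun ω _ => mul_le_mul_of_nonneg_left (hF ω e).2 (hw0 ω))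
        _ = B := by rw [← Finset.sum_mul, hw1, one_mul]
  -- trivial case: `τ ≥ B`
  by_cases hτB : B ≤ τ
  · obtain ⟨ω⟩ := hΩ
    refine ⟨fun _ => ω, fun e => ?_⟩
    have hN' : (N : ℝ) ≠ 0 := by positivity
    have : (∑ _j : Fin N, F ω e) / N = F ω e := by
      simp [Finset.card_univ]
      field_simp
    rw [this, abs_le]
    have h1 := hF ω e
    have h2 := hμ0 e
    constructor <;> linarith
  push Not at hτB
  have hBpos : 0 < B := hτ.trans hτB
  -- the centred family
  set X : Ω → P → ℝ := fun ω e => F ω e - μ e with hX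
  have hXB : ∀ ω e, |X ω e| ≤ B := by
    intro ω e
    have h1 := hF ω e
    have h2 := hμ0 e
    rw [abs_le]
    constructor <;> simp only [hX] <;> linarith
  have hXmean : ∀ e, ∑ ω, w ω * X ω e = 0 := by
    intro e
    simp only [hX, mul_sub, Finset.sum_sub_distrib, ← Finset.sum_mul, hw1, one_mul]
    simp only [hμ]
    ring
  set lam : ℝ := τ / (2 * B ^ 2) with hlamdef
  have hlampos : 0 < lam := by positivity
  have hlamB : |lam| * B ≤ 1 := by
    rw [abs_of_pos hlampos, hlamdef]
    have : τ / (2 * B ^ 2) * B = τ / (2 * B) := by field_simp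
    rw [this, div_le_one (by positivity)]
    linarith
  obtain ⟨ωs, hωs⟩ := exists_list_potential w hw0 hw1 X hXB hXmean hlamB N
  refine ⟨ωs, fun e => ?_⟩
  have hNpos : (0 : ℝ) < N := by exact_mod_cast hN
  set Se : ℝ := ∑ j, X (ωs j) e with hSe
  have hP : (0 : ℝ) < Fintype.card P := by exact_mod_cast Fintype.card_pos
  set R : ℝ := 2 * (Fintype.card P : ℝ) * Real.exp (N * (lam ^ 2 * B ^ 2)) with hR
  have hRpos : 0 < R := by positivity
  -- each exponential is bounded by the potential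
  have hterm : Real.exp (lam * Se) + Real.exp (-lam * Se) ≤ R := by
    refine le_trans ?_ hωs
    exact Finset.single_le_sum
      (f := fun e => Real.exp (lam * ∑ j, X (ωs j) e) + Real.exp (-lam * ∑ j, X (ωs j) e))
      (fun e _ => by positivity) (Finset.mem_univ e)
  have hlogR : Real.log R = Real.log (2 * (Fintype.card P : ℝ)) + N * (lam ^ 2 * B ^ 2) := by
    rw [hR, Real.log_mul (by positivity) (Real.exp_pos _).ne', Real.log_exp]
  have hbound : lam * |Se| ≤ Real.log R := by
    rw [Real.le_log_iff_exp_le hRpos]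
    rcases le_total 0 Se with h | h
    · rw [abs_of_nonneg h]
      have := Real.exp_pos (-lam * Se)
      linarith
    · rw [abs_of_nonpos h]
      have e1 : lam * -Se = -lam * Se := by ring
      rw [e1]
      have := Real.exp_pos (lam * Se)
      linarith
  -- from potential to deviation
  have hdev : (∑ j, F (ωs j) e) / N - μ e = Se / N := by
    have : Se = ∑ j, F (ωs j) e - N * μ e := by
      simp only [hSe, hX, Finset.sum_sub_distrib, Finset.sum_const, Finset.card_univ,
        Fintype.card_fin, nsmul_eq_mul]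
    rw [this]
    field_simp
  rw [hdev, abs_div, abs_of_pos hNpos, div_le_iff₀ hNpos]
  -- arithmetic
  have hmain : lam * |Se| ≤ lam * (τ * N) := by
    refine hbound.trans ?_
    rw [hlogR]
    have h1 : lam * (τ * N) = N * τ ^ 2 / (2 * B ^ 2) := by
      rw [hlamdef]; field_simp
    have h2 : N * (lam ^ 2 * B ^ 2) = N * τ ^ 2 / (4 * B ^ 2) := by
      rw [hlamdef]; field_simp; ring
    have h3 : Real.log (2 * (Fintype.card P : ℝ)) ≤ N * τ ^ 2 / (4 * B ^ 2) := by
      rw [le_div_iff₀ (by positivity)]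
      linarith
    rw [h1, h2]
    have h4 : N * τ ^ 2 / (2 * B ^ 2) = N * τ ^ 2 / (4 * B ^ 2) + N * τ ^ 2 / (4 * B ^ 2) := by
      field_simp; ring
    linarith
  exact le_of_mul_le_mul_left hmain hlampos

end Crest.Agent.LpDimRed
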