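/-
Row 232, S0358: from the pair facts to the statement (helper6).
-/
import Crest.Agent.Lib.LpDimRed.Top
import Crest.Agent.Lib.LpDimRed.BandsFam

set_option autoImplicit false
set_option linter.unusedVariables false

namespace Crest.Agent.LpDimRed.Top

open scoped ENNReal
open Crest.Agent.LpDimRed Crest.Agent.LpDimRed.Bands

lemma K0_ok : 1 ≤ (64 : ℝ) * Real.log 2 := by
  have := Real.log_two_gt_d9
  linarith

lemma winMass_lo {p : ℝ} (hp : 0 < p) (L : ℕ) (hL : 1 ≤ L) :
    (L : ℝ) * (2 : ℝ) ^ (-p) ≤ winMass p L := by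
  have h := winMass_ge hp (L := L) (by omega)
  have e : (1 / 2 : ℝ) ^ p = (2 : ℝ) ^ (-p) := by
    rw [Real.rpow_neg (by norm_num), one_div, Real.inv_rpow (by norm_num)]
  rwa [e] at h

lemma winMass_hi {p : ℝ} (hp : 1 ≤ p) (L : ℕ) (hL : 1 ≤ L) : winMass p L ≤ 2 * L :=
  winMass_le hp (by omega)

/-! ### Bridge from the band theorems -/

section bridge

variable {n T : ℕ} (y : Fin n → Fin T → ℝ)

lemma lpn_symm (p : ℝ) (a b : Fin n) :
    lpn p (fun t => y a t - y b t) = lpn p (fun t => y b t - y a t) := by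
  unfold lpn
  congr 1
  refine Finset.sum_congr rfl fun t _ => ?_
  rw [abs_sub_comm]

lemma lpn_pos {p : ℝ} (hp : 0 < p) (hy : Function.Injective y) {a b : Fin n} (hab : a ≠ b) :
    0 < lpn p (fun t => y a t - y b t) := by
  have hne : y a ≠ y b := fun h => hab (hy h)
  obtain ⟨t, ht⟩ := Function.ne_iff.1 hne
  unfold lpn
  apply Real.rpow_pos_of_pos
  have h1 : 0 < |y a t - y b t| ^ p :=
    Real.rpow_pos_of_pos (abs_pos.mpr (sub_ne_zero.mpr ht)) _
  exact lt_of_lt_of_le h1
    (Finset.single_le_sum (f := fun t => |y a t - y b t| ^ p)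
      (fun _ _ => Real.rpow_nonneg (abs_nonneg _) _) (Finset.mem_univ t))

lemma lpn_self {p : ℝ} (hp : 0 < p) (a : Fin n) : lpn p (fun t => y a t - y a t) = 0 := by
  unfold lpn
  simp [Real.zero_rpow hp.ne', Real.zero_rpow (inv_pos.mpr hp).ne']

lemma sum_slope_eq {p : ℝ} (hp : 0 < p) (hy : Function.Injective y) {a b : Fin n} (hab : a ≠ b) :
    ∑ t, |sl (fun a b => lpn p (fun t => y a t - y b t)) (fun a => y a t) (a, b)| ^ p = 1 := by
  set D := lpn p (fun t => y a t - y b t) with hD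
  have hDpos : 0 < D := lpn_pos y hp hy hab
  have hS : 0 ≤ ∑ t, |y a t - y b t| ^ p :=
    Finset.sum_nonneg fun _ _ => Real.rpow_nonneg (abs_nonneg _) _
  have hDp : D ^ p = ∑ t, |y a t - y b t| ^ p := by
    rw [hD]
    unfold lpn
    rw [← Real.rpow_mul hS, one_div, inv_mul_cancel₀ hp.ne', Real.rpow_one]
  have e : ∀ t, |sl (fun a b => lpn p (fun t => y a t - y b t)) (fun a => y a t) (a, b)| ^ p
      = |y a t - y b t| ^ p / D ^ p := by
    intro t
    show |(y a t - y b t) / D| ^ p = _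
    rw [abs_div, abs_of_pos hDpos, Real.div_rpow (abs_nonneg _) hDpos.le]
  rw [Finset.sum_congr rfl (fun t _ => e t), ← Finset.sum_div, hDp]
  apply div_self
  rw [← hDp]
  exact (Real.rpow_pos_of_pos hDpos _).ne'

lemma cK_fin (n : ℕ) : cK (Fin n) = 64 * Real.log n := by
  unfold cK
  rw [Fintype.card_fin]

end bridge

theorem bandsHigh_of {p : ℝ} (hp : 2 < p) : BandsHigh p (1 - 2 / p) 64 (winMass p) := by
  have hp0 : 0 < p := by linarith
  intro τ hτ
  obtain ⟨c₀, hc₀, H⟩ := bands_gt2 (p := p) (τ := τ) hp hτ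
  refine ⟨c₀, 2 ^ pplus p, 0, hc₀, by positivity, ?_⟩
  intro n hn T y hy L hL hLc
  have hcard : 2 ≤ Fintype.card (Fin n) := by rwa [Fintype.card_fin]
  obtain ⟨U, ψ, h0, h1, h2, h3, h4⟩ := H (Fin n) (Fin T) hcard
    (fun a b => lpn p (fun t => y a t - y b t)) (lpn_symm y p)
    (fun a b hab => lpn_pos y hp0 hy hab) (lpn_self y hp0) (fun t a => y a t)
    (fun a b hab => sum_slope_eq y hp0 hy hab) L (by omega) (by rwa [cK_fin])
  refine ⟨Fin T × {u // u ∈ U}, inferInstance, fun i => i.2.1, ψ, ⟨?_, ?_, ?_, ?_⟩, ?_⟩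
  · intro i
    have := h0 i
    push_cast
    linarith
  · intro a b i
    have := h1 i (a, b)
    rwa [cK_fin] at this
  · intro a b
    have := h2 (a, b)
    rw [cK_fin] at this
    refine le_trans this (le_of_eq ?_)
    unfold Wb pplus
    ring
  · intro a b hab
    exact h3 a b hab
  · intro a b hab
    exact h4 a b hab

theorem bandsLow_of {p : ℝ} (hp1 : 1 < p) (hp : p < 2) : BandsLow p (2 - p) 64 (winMass p) := by
  have hp0 : 0 < p := by linarith
  intro τ hτ
  obtain ⟨c₀, CM, hc₀, hCM, H⟩ := bands_lt2 (p := p) (τ := τ) hp1 hp hτ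
  refine ⟨c₀, 2 ^ pplus p, CM, 0, hc₀, by positivity, hCM.le, ?_⟩
  intro n hn T y hy L hL hLc
  have hcard : 2 ≤ Fintype.card (Fin n) := by rwa [Fintype.card_fin]
  obtain ⟨U, ψ, h0, h1, h2, h3, h4⟩ := H (Fin n) (Fin T) hcard
    (fun a b => lpn p (fun t => y a t - y b t)) (lpn_symm y p)
    (fun a b hab => lpn_pos y hp0 hy hab) (lpn_self y hp0) (fun t a => y a t)
    (fun a b hab => sum_slope_eq y hp0 hy hab) L (by omega) (by rwa [cK_fin])
  refine ⟨Fin T × {u // u ∈ U}, inferInstance, fun i => i.2.1, ψ, ⟨?_, ?_, ?_, ?_⟩, ?_⟩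
  · intro i
    have := h0 i
    push_cast
    linarith
  · intro a b i
    have := h1 i (a, b)
    rwa [cK_fin] at this
  · intro a b
    have := h2 (a, b)
    rw [cK_fin] at this
    refine le_trans this (le_of_eq ?_)
    unfold Wb pplus
    ring
  · intro a b hab
    exact h3 a b hab
  · intro a b hab
    exact h4 a b hab

/-- `FiniteCore` at the exponent of the statement. -/
theorem finiteCore_final {P : ℝ} (hP : 1 < P) (hP2 : P ≠ 2) :
    FiniteCore P (if P < 2 then 2 - P else 1 - 2 / P) := by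
  have hP0 : 0 < P := by linarith
  by_cases h : P < 2
  · rw [if_pos h]
    exact finiteCore_low hP h K0_ok (winMass_lo hP0) (winMass_hi hP.le) (bandsLow_of hP h)
  · rw [if_neg h]
    have h2 : 2 < P := lt_of_le_of_ne (not_lt.mp h) (Ne.symm hP2)
    exact finiteCore_high h2 K0_ok (winMass_lo hP0) (winMass_hi hP.le) (bandsHigh_of h2)

end Crest.Agent.LpDimRed.Top
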